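import Crest.Agent.EG.ANa

/-! Row 197, job AN: the `SU(2)` system has no solution. -/

set_option autoImplicit false

open Set Quaternion NormedSpace

namespace Crest.Agent.EG

namespace ANx

variable {I Φ : Type}

noncomputable def W (t : Φ → ℍ) (w : FreeGroup Φ) : ℍ := by classical exact ev t w.toWord

theorem W_lift (t : Φ → S3) (w : FreeGroup Φ) :
    W (fun f => (t f : ℍ)) w = ((FreeGroup.lift t w : S3) : ℍ) := by
  classical
  rw [W, ev_lift, FreeGroup.mk_toWord]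

theorem W_deriv (δ : Φ → ℍ) (hδ : ∀ f, (δ f).re = 0) (w : FreeGroup Φ) :
    HasDerivAt (fun ε : ℝ => W (fun f => 1 + ε • δ f) w) (ad δ w) 0 := by
  classical
  have := ev_deriv δ hδ w.toWord
  rwa [FreeGroup.mk_toWord] at this

theorem W_one (w : FreeGroup Φ) : W (fun _ : Φ => (1 : ℍ)) w = 1 := ev_one _

theorem W_cj (t : Φ → ℍ) (w : FreeGroup Φ) : W (fun f => cjR (t f)) w = cjR (W t w) := ev_cj _ _

theorem re_le_norm (q : ℍ) : q.re ≤ ‖q‖ := by
  have h : q.re ^ 2 ≤ ‖q‖ ^ 2 := by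
    rw [sq ‖q‖, ← normSq_eq_norm_mul_self, normSq_def']
    nlinarith [sq_nonneg q.imI, sq_nonneg q.imJ, sq_nonneg q.imK]
  exact (le_abs_self _).trans (by simpa using abs_le_abs_of_sq h)
where abs_le_abs_of_sq {a b : ℝ} (h : a ^ 2 ≤ b ^ 2) : |a| ≤ |b| := sq_le_sq.1 h

noncomputable def pp (x : I → S3) (s : ℝ) (e : I) : ℍ := ((1 - s : ℝ) : ℍ) + s • (x e : ℍ)

theorem pp_norm (x : I → S3) {s : ℝ} (hs : s ∈ Icc (0 : ℝ) 1) (e : I) : ‖pp x s e‖ ≤ 1 := by
  have hx : ‖(x e : ℍ)‖ = 1 := by simpa using (x e).2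
  refine (norm_add_le _ _).trans ?_
  rw [norm_coe, norm_smul, hx, Real.norm_of_nonneg hs.1, Real.norm_of_nonneg (by linarith [hs.2])]
  linarith

theorem pp_re (x : I → S3) (hx : ∀ e, 4 / 5 ≤ (x e : ℍ).re) {s : ℝ} (hs : s ∈ Icc (0 : ℝ) 1)
    (e : I) : 4 / 5 ≤ (pp x s e).re := by
  simp only [pp, re_add, re_coe, re_smul, smul_eq_mul]
  nlinarith [hx e, hs.1, hs.2]

variable [Fintype I] [Fintype Φ]

noncomputable def A1 (κ : Φ → FreeGroup Φ) (B : Φ → I → ℝ) (p : ℝ × (Φ ⊕ I → ℍ)) (f : Φ) : ℍ :=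
  exp (-(∑ i, B f i • p.2 (.inr i))) * W (fun f => p.2 (.inl f)) (κ f)

noncomputable def A2 (X : I → FreeGroup Φ) (x : I → S3) (p : ℝ × (Φ ⊕ I → ℍ)) (e : I) : ℍ :=
  star (pp x p.1 e) * W (fun f => p.2 (.inl f)) (X e)

variable (κ : Φ → FreeGroup Φ) (B : Φ → I → ℝ) (X : I → FreeGroup Φ) (x : I → S3)

noncomputable def FF (p : ℝ × (Φ ⊕ I → ℍ)) : Φ ⊕ I → ℍ :=
  Sum.elim (fun f => (((p.2 (.inl f) * star (p.2 (.inl f))).re - 1 : ℝ) : ℍ) + (A1 κ B p f).im)
    fun e => (((p.2 (.inr e)).re : ℝ) : ℍ) + (A2 X x p e).im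

def UU : Set (ℝ × (Φ ⊕ I → ℍ)) :=
  {p | (∀ i, ‖p.2 (.inr i)‖ < Real.pi) ∧ (∀ f, 0 < (A1 κ B p f).re) ∧ ∀ e, 0 < (A2 X x p e).re}

def ZZ : Set (ℝ × (Φ ⊕ I → ℍ)) :=
  {p | p.1 ∈ Icc (0 : ℝ) 1 ∧ (∀ f, ‖p.2 (.inl f)‖ = 1) ∧ (∀ i, (p.2 (.inr i)).re = 0) ∧
    (∀ i, ‖p.2 (.inr i)‖ ≤ Real.pi) ∧
    (∀ f, W (fun f => p.2 (.inl f)) (κ f) = exp (∑ i, B f i • p.2 (.inr i))) ∧
    ∀ e, ‖pp x p.1 e‖ • W (fun f => p.2 (.inl f)) (X e) = pp x p.1 e}

theorem cd_co (j : Φ ⊕ I) : ContDiff ℝ 1 fun p : ℝ × (Φ ⊕ I → ℍ) => p.2 j :=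
  (contDiff_apply ℝ ℍ j).comp contDiff_snd

theorem cd_W (w : FreeGroup Φ) :
    ContDiff ℝ 1 fun p : ℝ × (Φ ⊕ I → ℍ) => W (fun f => p.2 (.inl f)) w := by
  classical
  exact ev_contDiff (fun (p : ℝ × (Φ ⊕ I → ℍ)) f => p.2 (.inl f)) (fun f => cd_co _) _

theorem cd_exp : ContDiff ℝ 1 (exp : ℍ → ℍ) :=
  contDiff_iff_contDiffAt.2 fun q => (exp_analytic (𝕂 := ℝ) q).contDiffAt

theorem cd_sum (f : Φ) :
    ContDiff ℝ 1 fun p : ℝ × (Φ ⊕ I → ℍ) => ∑ i, B f i • p.2 (.inr i) :=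
  ContDiff.sum fun i _ => (cd_co _).const_smul _

theorem cd_pp (e : I) : ContDiff ℝ 1 fun p : ℝ × (Φ ⊕ I → ℍ) => pp x p.1 e :=
  (coL.contDiff.comp (contDiff_const.sub contDiff_fst)).add (contDiff_fst.smul contDiff_const)

theorem cd_A1 (f : Φ) : ContDiff ℝ 1 fun p => A1 κ B p f :=
  (cd_exp.comp (cd_sum B f).neg).mul (cd_W _)

theorem cd_A2 (e : I) : ContDiff ℝ 1 fun p => A2 X x p e :=
  (stL.contDiff.comp (cd_pp x e)).mul (cd_W _)

theorem cd_FF : ContDiff ℝ 1 (FF κ B X x) := by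
  refine contDiff_pi.2 fun j => ?_
  rcases j with f | e
  · exact (coL.contDiff.comp ((reL.contDiff.comp ((cd_co _).mul
      (stL.contDiff.comp (cd_co _)))).sub contDiff_const)).add (imL.contDiff.comp (cd_A1 κ B f))
  · exact (coL.contDiff.comp (reL.contDiff.comp (cd_co _))).add (imL.contDiff.comp (cd_A2 X x e))

theorem open_UU : IsOpen (UU κ B X x) := by
  simp only [UU, setOf_and, setOf_forall]
  refine (isOpen_iInter_of_finite fun i => ?_).inter ((isOpen_iInter_of_finite fun f => ?_).inter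
    (isOpen_iInter_of_finite fun e => ?_))
  · exact isOpen_lt (cd_co _).continuous.norm continuous_const
  · exact isOpen_lt continuous_const (continuous_re.comp (cd_A1 κ B f).continuous)
  · exact isOpen_lt continuous_const (continuous_re.comp (cd_A2 X x e).continuous)

theorem compact_ZZ : IsCompact (ZZ κ B X x) := by
  refine Metric.isCompact_of_isClosed_isBounded ?_ ?_
  · simp only [ZZ, setOf_and, setOf_forall]
    refine (isClosed_Icc.preimage continuous_fst).inter ((isClosed_iInter fun f => ?_).inter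
      ((isClosed_iInter fun i => ?_).inter ((isClosed_iInter fun i => ?_).inter
      ((isClosed_iInter fun f => ?_).inter (isClosed_iInter fun e => ?_)))))
    · exact isClosed_eq (cd_co _).continuous.norm continuous_const
    · exact isClosed_eq (continuous_re.comp (cd_co _).continuous) continuous_const
    · exact isClosed_le (cd_co _).continuous.norm continuous_const
    · exact isClosed_eq (cd_W _).continuous (cd_exp.continuous.comp (cd_sum B f).continuous)
    · exact isClosed_eq ((cd_pp x e).continuous.norm.smul (cd_W _).continuous)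
        (cd_pp x e).continuous
  · refine (Metric.isBounded_closedBall (x := (0 : ℝ × (Φ ⊕ I → ℍ))) (r := 4)).subset ?_
    rintro p ⟨h1, h2, -, h4, -⟩
    rw [mem_closedBall_zero_iff, Prod.norm_def, max_le_iff]
    refine ⟨by rw [Real.norm_of_nonneg h1.1]; linarith [h1.2],
      (pi_norm_le_iff_of_nonneg (by norm_num)).2 fun j => ?_⟩
    rcases j with f | e
    · rw [h2]; norm_num
    · exact (h4 e).trans Real.pi_le_four

omit [Fintype Φ] in
theorem re_sum {ξ : I → ℍ} (h : ∀ i, (ξ i).re = 0) (f : Φ) : (∑ i, B f i • ξ i).re = 0 := by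
  rw [← reL_apply, map_sum]; simp [h]

omit [Fintype I] [Fintype Φ] in
theorem norm_W {t : Φ → ℍ} (h : ∀ f, ‖t f‖ = 1) (w : FreeGroup Φ) : ‖W t w‖ = 1 := by
  have := W_lift (fun f => (⟨t f, by simpa using h f⟩ : S3)) w
  simp only at this
  rw [this]
  simpa using (FreeGroup.lift (fun f => (⟨t f, by simpa using h f⟩ : S3)) w).2

variable {κ B X x}

omit [Fintype Φ] in
theorem mem_ZZ (hx : ∀ e, 4 / 5 ≤ (x e : ℍ).re) {p : ℝ × (Φ ⊕ I → ℍ)} (hU : p ∈ UU κ B X x)
    (hs : p.1 ∈ Icc (0 : ℝ) 1) (hF : FF κ B X x p = 0) : p ∈ ZZ κ B X x := by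
  have h1 := fun f => split_zero (congrFun hF (.inl f))
  have h2 := fun e => split_zero (congrFun hF (.inr e))
  have ht : ∀ f, ‖p.2 (.inl f)‖ = 1 := fun f => by
    have := (h1 f).1
    rw [← normSq_def, normSq_eq_norm_mul_self] at this
    nlinarith [norm_nonneg (p.2 (.inl f))]
  have hξ : ∀ i, (p.2 (.inr i)).re = 0 := fun i => (h2 i).1
  refine ⟨hs, ht, hξ, fun i => (hU.1 i).le, fun f => ?_, fun e => ?_⟩
  · have h3 : A1 κ B p f = 1 := eq_one_of (by
      rw [A1, norm_mul, norm_W ht, norm_exp_im (by simp [re_sum B hξ f]), mul_one])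
      (h1 f).2 (hU.2.1 f)
    rw [← one_mul (W _ _), ← exp_mul_neg (∑ i, B f i • p.2 (.inr i)), mul_assoc]
    rw [A1] at h3
    rw [h3, mul_one]
  · have h0 : 0 < ‖pp x p.1 e‖ := by linarith [pp_re x hx hs e, re_le_norm (pp x p.1 e)]
    have h3 : ‖pp x p.1 e‖⁻¹ • A2 X x p e = 1 := eq_one_of (by
      rw [norm_smul, A2, norm_mul, norm_W ht, norm_star, norm_inv, norm_norm, mul_one,
        inv_mul_cancel₀ h0.ne']) (by simp [(h2 e).2])
      (by simpa using mul_pos (inv_pos.2 h0) (hU.2.2 e))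
    have h4 := congrArg (pp x p.1 e * ·) h3
    simp only [A2, mul_smul_comm, ← mul_assoc, self_mul_star, normSq_eq_norm_mul_self,
      coe_mul_eq_smul, smul_smul, mul_one] at h4
    rwa [inv_mul_cancel₀ h0.ne', one_mul] at h4

/-- the unit quaternions of a point of `ZZ` -/
def un {p : ℝ × (Φ ⊕ I → ℍ)} (h : p ∈ ZZ κ B X x) (f : Φ) : S3 :=
  ⟨p.2 (.inl f), by simpa using h.2.1 f⟩

omit [Fintype Φ] in
theorem W_un {p : ℝ × (Φ ⊕ I → ℍ)} (h : p ∈ ZZ κ B X x) (w : FreeGroup Φ) :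
    W (fun f => p.2 (.inl f)) w = ((FreeGroup.lift (un h) w : S3) : ℍ) := W_lift (un h) w

variable {rel : I → FreeGroup I}

omit [Fintype Φ] in
theorem xi_zero (S : Sys rel κ B X) (t : Φ → S3) (ξ : I → ℍ) (h1 : ∀ i, (ξ i).re = 0)
    (h2 : ∀ i, ‖ξ i‖ ≤ Real.pi)
    (h3 : ∀ f, ((FreeGroup.lift t (κ f) : S3) : ℍ) = exp (∑ i, B f i • ξ i))
    (h4 : ∀ i, FreeGroup.lift (fun e => FreeGroup.lift t (X e)) (rel i) = 1) : ξ = 0 := by
  have h5 : ‖ξ‖ ≤ ‖ξ‖ / 50 := (pi_norm_le_iff_of_nonneg (by positivity)).2 fun i => by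
    have a := S.h1 t ξ h1 h2 h3 i
    rw [h4 i, Metric.unitSphere.coe_one, norm_sub_rev] at a
    linarith [lower_exp (h1 i) (h2 i)]
  exact norm_eq_zero.1 (by linarith [norm_nonneg ξ])

omit [Fintype Φ] in
theorem of_ZZ (S : Sys rel κ B X) (hr : ∀ i, ∃ l : List (I × Bool), l.length ≤ 3 ∧
    rel i = FreeGroup.mk l) (hx : ∀ e, 4 / 5 ≤ (x e : ℍ).re) {p : ℝ × (Φ ⊕ I → ℍ)}
    (h : p ∈ ZZ κ B X x) : p ∈ UU κ B X x ∧ FF κ B X x p = 0 := by
  obtain ⟨hs, ht, hξ, hn, hκ, hX⟩ := id h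
  have h0 : ∀ e, 0 < ‖pp x p.1 e‖ := fun e => by
    linarith [pp_re x hx hs e, re_le_norm (pp x p.1 e)]
  have a1 : ∀ f, A1 κ B p f = 1 := fun f => by rw [A1, hκ, exp_neg_mul]
  have a2 : ∀ e, A2 X x p e = (‖pp x p.1 e‖ : ℝ) := fun e => by
    refine smul_right_injective ℍ (h0 e).ne' ?_
    simp only [A2]
    rw [← mul_smul_comm, hX, star_mul_self, normSq_eq_norm_mul_self]
    ext <;> simp
  refine ⟨⟨fun i => ?_, fun f => by simp [a1], fun e => by simpa [a2] using h0 e⟩, ?_⟩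
  · refine (hn i).lt_of_ne fun he => ?_
    have b1 := S.h1 (un h) (fun i => p.2 (.inr i)) hξ hn (fun f => by rw [← W_un h, hκ]) i
    have b2 : ‖fun i => p.2 (.inr i)‖ ≤ 4 :=
      (pi_norm_le_iff_of_nonneg (by norm_num)).2 fun i => (hn i).trans Real.pi_le_four
    obtain ⟨l, hl, hl'⟩ := hr i
    have b3 := norm_lift_sub_one (fun e => FreeGroup.lift (un h) (X e)) (16 / 25) (fun e => by
      rw [← W_un h]
      have c1 := norm_sq_sub_one (norm_W ht (X e))
      have c2 := congrArg QuaternionAlgebra.re (hX e)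
      simp only [re_smul, smul_eq_mul] at c2
      have c3 := pp_re x hx hs e
      have c4 := pp_norm x hs e
      have c5 : 4 / 5 ≤ (W (fun f => p.2 (.inl f)) (X e)).re := by
        by_contra c
        push Not at c
        nlinarith [h0 e]
      refine (sq_le_sq₀ (norm_nonneg _) (by norm_num)).1 ?_
      nlinarith) l
    rw [← hl'] at b3
    have b4 := norm_sq_sub_one (norm_exp_im (hξ i))
    rw [re_exp_im (hξ i), he, Real.cos_pi] at b4
    have b5 : ‖exp (p.2 (.inr i)) - 1‖ = 2 := by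
      nlinarith [norm_nonneg (exp (p.2 (.inr i)) - 1)]
    have b6 : (l.length : ℝ) ≤ 3 := by exact_mod_cast hl
    have b7 := norm_sub_le_norm_sub_add_norm_sub (exp (p.2 (.inr i)))
      ((FreeGroup.lift (fun e => FreeGroup.lift (un h) (X e)) (rel i) : S3) : ℍ) 1
    rw [norm_sub_rev] at b1
    linarith
  · funext j
    rcases j with f | e
    · simp only [FF, Sum.elim_inl, a1, ← normSq_def, normSq_eq_norm_mul_self, ht]; simp
    · simp only [FF, Sum.elim_inr, a2, hξ]; simp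

/-- coordinatewise conjugation -/
noncomputable def TT : (Φ ⊕ I → ℍ) →L[ℝ] (Φ ⊕ I → ℍ) :=
  ContinuousLinearMap.pi fun j => cjL.comp (ContinuousLinearMap.proj j)

omit [Fintype I] [Fintype Φ] in
@[simp] theorem TT_apply (z : Φ ⊕ I → ℍ) (j : Φ ⊕ I) : TT z j = cjR (z j) := rfl

omit [Fintype I] in
theorem pp_zero (e : I) : pp x 0 e = 1 := by simp [pp]

omit [Fintype Φ] in
theorem A1_TT (z : Φ ⊕ I → ℍ) (f : Φ) : A1 κ B (0, TT z) f = cjR (A1 κ B (0, z) f) := by
  simp only [A1, TT_apply, W_cj, map_mul, cjR_exp, map_neg, map_sum, cjR_smul]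

omit [Fintype I] [Fintype Φ] in
theorem A2_TT (z : Φ ⊕ I → ℍ) (e : I) : A2 X x (0, TT z) e = cjR (A2 X x (0, z) e) := by
  simp only [A2, TT_apply, W_cj, pp_zero, star_one, one_mul]

omit [Fintype Φ] in
theorem equiv_TT (z : Φ ⊕ I → ℍ) (h : (0, z) ∈ UU κ B X x) :
    (0, TT z) ∈ UU κ B X x ∧ FF κ B X x (0, TT z) = TT (FF κ B X x (0, z)) := by
  refine ⟨⟨fun i => by simpa [cjR_norm] using h.1 i, fun f => by simpa [A1_TT] using h.2.1 f,
    fun e => by simpa [A2_TT] using h.2.2 e⟩, funext fun j => ?_⟩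
  rcases j with f | e
  · simp only [FF, Sum.elim_inl, TT_apply, A1_TT, map_add, cjR_coe, cjR_im, ← cjR_star,
      ← map_mul, cjR_re]
  · simp only [FF, Sum.elim_inr, TT_apply, A2_TT, map_add, cjR_coe, cjR_im, cjR_re]

/-- the base point -/
noncomputable def z0 : Φ ⊕ I → ℍ := Sum.elim (fun _ => 1) fun _ => 0

omit [Fintype Φ] in
theorem z0_mem : ((0 : ℝ), (z0 : Φ ⊕ I → ℍ)) ∈ ZZ κ B X x := by
  refine ⟨⟨le_rfl, zero_le_one⟩, fun f => by simp [z0], fun i => by simp [z0],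
    fun i => by simpa [z0] using Real.pi_pos.le, fun f => ?_, fun e => ?_⟩
  · simp [z0, W_one]
  · simp [z0, W_one, pp_zero]

omit [Fintype Φ] in
theorem fixed_zero (S : Sys rel κ B X) {z : Φ ⊕ I → ℍ} (h : ((0 : ℝ), z) ∈ ZZ κ B X x)
    (hz : TT z = z) : z = z0 := by
  obtain ⟨-, -, hξ, hn, hκ, hX⟩ := id h
  have hκ' : ∀ f, ((FreeGroup.lift (un h) (κ f) : S3) : ℍ) = exp (∑ i, B f i • z (.inr i)) :=
    fun f => by rw [← W_un h]; exact hκ f
  have h1 : ∀ e, FreeGroup.lift (un h) (X e) = 1 := fun e => Subtype.ext (by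
    rw [← W_un h]; simpa [pp_zero] using hX e)
  have h2 := xi_zero S (un h) (fun i => z (.inr i)) hξ hn hκ' fun i => by
    simp only [h1]
    rw [show (FreeGroup.lift fun _ : I => (1 : S3)) = 1 from FreeGroup.ext_hom _ _ (by simp)]
    rfl
  have h3 : ∀ i, z (.inr i) = 0 := congrFun h2
  have h4 : ∀ f g, Commute (un h f) (un h g) := fun f g => Subtype.ext (by
    have a := congrFun hz (.inl f)
    have b := congrFun hz (.inl g)
    have a1 := congrArg QuaternionAlgebra.imJ a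
    have a2 := congrArg QuaternionAlgebra.imK a
    have b1 := congrArg QuaternionAlgebra.imJ b
    have b2 := congrArg QuaternionAlgebra.imK b
    simp only [TT_apply, cjR_imJ, cjR_imK] at a1 a2 b1 b2
    have c1 : (z (.inl f)).imJ = 0 := by linarith
    have c2 : (z (.inl f)).imK = 0 := by linarith
    have d1 : (z (.inl g)).imJ = 0 := by linarith
    have d2 : (z (.inl g)).imK = 0 := by linarith
    show z (.inl f) * z (.inl g) = z (.inl g) * z (.inl f)
    ext <;> simp [c1, c2, d1, d2] <;> ring)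
  funext j
  rcases j with f | i
  · have := hκ' f
    rw [lift_ab _ (lift_comm _ h4) (S.ab f)] at this
    simpa [h3, un, z0] using this
  · exact h3 i

omit [Fintype Φ] in
theorem lin_zero (S : Sys rel κ B X) (θ : I → ℝ)
    (h : ∀ e, ad (fun f => ∑ i, B f i * θ i) (X e) = 0) : θ = 0 := by
  set c : ℝ := (1 + ‖θ‖)⁻¹ with hc
  have c0 : 0 < c := by positivity
  have hm : ∀ w, ad (fun f => c * ∑ i, B f i * θ i) w = c * ad (fun f => ∑ i, B f i * θ i) w :=
    fun w => (ad_map (AddMonoidHom.mulLeft c) _ w).symm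
  have h0 : eI 0 = 1 := Subtype.ext (by simp [eI])
  have := xi_zero S (fun f => eI (c * ∑ i, B f i * θ i)) (fun i => (c * θ i) • qI)
    (fun i => by simp) (fun i => by
      rw [norm_smul, norm_qI, mul_one, norm_mul, Real.norm_of_nonneg c0.le]
      have a := norm_le_pi_norm θ i
      have b : c * ‖θ i‖ ≤ 1 := by
        rw [hc, inv_mul_le_iff₀ (by positivity)]; linarith
      linarith [Real.pi_gt_three])
    (fun f => by
      rw [lift_eI, ad_ab _ (S.ab f)]
      simp only [eI, smul_smul, ← Finset.sum_smul, Finset.mul_sum]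
      congr 2
      exact Finset.sum_congr rfl fun i _ => by ring)
    (fun i => by
      simp only [lift_eI, hm, h, mul_zero, h0]
      rw [show (FreeGroup.lift fun _ : I => (1 : S3)) = 1 from FreeGroup.ext_hom _ _ (by simp)]
      rfl)
  funext i
  have a := congrArg norm (congrFun this i)
  simpa [norm_smul, norm_qI, c0.ne'] using a

theorem inj_deriv (S : Sys rel κ B X) (v : Φ ⊕ I → ℍ)
    (hv : fderiv ℝ (FF κ B X x) (0, z0) (0, v) = 0) : v = 0 := by
  have hl : HasDerivAt (fun ε : ℝ => ((0 : ℝ), (z0 : Φ ⊕ I → ℍ) + ε • v)) (0, v) 0 :=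
    (hasDerivAt_const _ _).prodMk (by simpa using ((hasDerivAt_id (0 : ℝ)).smul_const v).const_add z0)
  have hd : HasDerivAt (fun ε : ℝ => FF κ B X x (0, z0 + ε • v)) 0 0 := by
    have := (((cd_FF κ B X x).differentiable one_ne_zero) (0, z0)).hasFDerivAt
    have e : ((0 : ℝ), (z0 : Φ ⊕ I → ℍ)) = (0, z0 + (0 : ℝ) • v) := by simp
    rw [← hv]
    exact HasFDerivAt.comp_hasDerivAt_of_eq (0 : ℝ) this hl e
  have hj := fun j => hasDerivAt_pi.1 hd j
  have h0 : ∀ q r : ℍ, HasDerivAt (fun ε : ℝ => q + ε • r) r 0 := fun q r => by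
    simpa using ((hasDerivAt_id (0 : ℝ)).smul_const r).const_add q
  have hre : ∀ f, (v (.inl f)).re = 0 := fun f => by
    have a := reL.hasFDerivAt.comp_hasDerivAt (0 : ℝ) (hj (.inl f))
    have b := (reL.hasFDerivAt.comp_hasDerivAt (0 : ℝ) ((h0 1 (v (.inl f))).mul
      (stL.hasFDerivAt.comp_hasDerivAt (0 : ℝ) (h0 1 (v (.inl f)))))).sub_const 1
    have := a.unique (b.congr_of_eventuallyEq (.of_forall fun ε => by simp [FF, z0]))
    simp at this
    linarith
  have hre' : ∀ e, (v (.inr e)).re = 0 := fun e => by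
    have a := reL.hasFDerivAt.comp_hasDerivAt (0 : ℝ) (hj (.inr e))
    have b := reL.hasFDerivAt.comp_hasDerivAt (0 : ℝ) (h0 0 (v (.inr e)))
    have := a.unique (b.congr_of_eventuallyEq (.of_forall fun ε => by simp [FF, z0]))
    simpa using this.symm
  have him : ∀ q : ℍ, q.re = 0 → q.im = 0 → q = 0 := fun q a b => by rw [← re_add_im q, a, b]; simp
  have had : ∀ w, (ad (fun f => v (.inl f)) w).re = 0 := fun w => by
    have := ad_map reL.toLinearMap.toAddMonoidHom (fun f => v (.inl f)) w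
    have e := ad_map (0 : ℝ →+ ℝ) (fun _ : Φ => (0 : ℝ)) w
    simp only [AddMonoidHom.zero_apply] at e
    simpa [hre, ← e] using this
  have h1 : ∀ f, v (.inl f) = ∑ i, B f i • v (.inr i) := fun f => by
    have a := imL.hasFDerivAt.comp_hasDerivAt (0 : ℝ) (hj (.inl f))
    have c := hasDerivAt_exp_smul_const (𝕂 := ℝ) (-(∑ i, B f i • v (.inr i))) (0 : ℝ)
    have b := imL.hasFDerivAt.comp_hasDerivAt (0 : ℝ) (c.mul (W_deriv _ hre (κ f)))
    have := a.unique (b.congr_of_eventuallyEq (.of_forall fun ε => by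
      simp only [FF, Function.comp_apply, Sum.elim_inl, imL_apply, im_add, im_coe, im_idem,
        zero_add]
      simp [z0, A1, Finset.smul_sum, smul_comm ε]))
    rw [ad_ab _ (S.ab f)] at this
    simp only [Pi.zero_apply, map_zero, zero_smul, exp_zero, one_mul, add_zero, W_one, mul_one,
      imL_apply] at this
    have := him _ (by simp [hre, re_sum B hre' f]) this.symm
    rwa [neg_add_eq_zero, eq_comm] at this
  have h2 : ∀ e, ad (fun f => v (.inl f)) (X e) = 0 := fun e => by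
    have a := imL.hasFDerivAt.comp_hasDerivAt (0 : ℝ) (hj (.inr e))
    have b := imL.hasFDerivAt.comp_hasDerivAt (0 : ℝ) (W_deriv _ hre (X e))
    have := a.unique (b.congr_of_eventuallyEq (.of_forall fun ε => by
      simp only [FF, Function.comp_apply, Sum.elim_inr, imL_apply, im_add, im_coe, im_idem,
        zero_add]
      simp [z0, A2, pp_zero]))
    exact him _ (had _) (by simpa using this.symm)
  have h3 : ∀ l : ℍ →ₗ[ℝ] ℝ, ∀ i, l (v (.inr i)) = 0 := fun l =>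
    congrFun (lin_zero S (fun i => l (v (.inr i))) fun e => by
      have := ad_map l.toAddMonoidHom (fun f => v (.inl f)) (X e)
      rw [h2] at this
      simpa [h1] using this.symm)
  have h4 : ∀ i, v (.inr i) = 0 := fun i => by
    ext
    · exact hre' i
    · exact h3 (QuaternionAlgebra.imIₗ _ _ _) i
    · exact h3 (QuaternionAlgebra.imJₗ _ _ _) i
    · exact h3 (QuaternionAlgebra.imKₗ _ _ _) i
  funext j
  rcases j with f | i
  · simp [h1, h4]
  · exact h4 i

end ANx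

open ANx in
theorem jobAN (h : JobDEG) : JobAN := by
  rintro I Φ _ _ rel κ B X ⟨hr, x, hx1, hx, e₀, he₀⟩ S
  have hc := cd_FF κ B X x
  have hz := of_ZZ S hr hx (z0_mem (κ := κ) (B := B) (X := X) (x := x))
  obtain ⟨z, hU, hF⟩ := h (Φ ⊕ I → ℍ) (UU κ B X x) (FF κ B X x)
    (fun p => (fderiv ℝ (FF κ B X x) p).comp (ContinuousLinearMap.inr ℝ ℝ _))
    ⟨open_UU κ B X x, hc.continuous.continuousOn,
      ((hc.continuous_fderiv one_ne_zero).clm_comp continuous_const).continuousOn,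
      fun p _ => HasFDerivAt.comp (f := fun z => (p.1, z)) p.2
        (hc.differentiable one_ne_zero p).hasFDerivAt (hasFDerivAt_prodMk_right p.1 p.2), by
      convert compact_ZZ κ B X x using 1
      ext p
      exact ⟨fun hp => mem_ZZ hx hp.1 hp.2.1 hp.2.2,
        fun hp => ⟨(of_ZZ S hr hx hp).1, hp.1, (of_ZZ S hr hx hp).2⟩⟩⟩
    TT TT (fun z => funext fun j => cjR_cjR _) (fun z => funext fun j => cjR_cjR _) equiv_TT
    z0 hz.1 hz.2 (funext fun j => by rcases j with f | e <;> simp [z0])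
    ((injective_iff_map_eq_zero _).2 fun v hv => inj_deriv S v (by simpa using hv))
    (fun z a b c => fixed_zero S (mem_ZZ hx a ⟨le_rfl, zero_le_one⟩ b) c)
  have hZ := mem_ZZ hx hU ⟨zero_le_one, le_rfl⟩ hF
  obtain ⟨-, -, hξ, hn, hκ, hX⟩ := id hZ
  have hκ' : ∀ f, ((FreeGroup.lift (un hZ) (κ f) : S3) : ℍ) = exp (∑ i, B f i • z (.inr i)) :=
    fun f => by rw [← W_un hZ]; exact hκ f
  have h1 : ∀ e, FreeGroup.lift (un hZ) (X e) = x e := fun e => Subtype.ext (by
    rw [← W_un hZ]; simpa [pp] using hX e)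
  have h2 := xi_zero S (un hZ) (fun i => z (.inr i)) hξ hn hκ' fun i => by
    simp only [h1]; exact hx1 i
  have h3 : ∀ i, z (.inr i) = 0 := congrFun h2
  exact he₀ ((h1 e₀).symm.trans (S.h2 _ (fun f => Subtype.ext (by simpa [h3] using hκ' f)) e₀))

end Crest.Agent.EG
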