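import Crest.Agent.EG.DefsA

/-! Row 197, job AN: quaternion and word lemmas. -/

set_option autoImplicit false

open Set Quaternion NormedSpace

namespace Crest.Agent.EG.ANx


noncomputable def reL : ℍ →L[ℝ] ℝ := LinearMap.toContinuousLinearMap
  { toFun := fun q => q.re, map_add' := by simp, map_smul' := by simp }

noncomputable def imL : ℍ →L[ℝ] ℍ := LinearMap.toContinuousLinearMap
  { toFun := fun q => q.im, map_add' := by simp, map_smul' := by simp }

noncomputable def coL : ℝ →L[ℝ] ℍ := LinearMap.toContinuousLinearMap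
  { toFun := fun r => (r : ℍ), map_add' := by simp
    map_smul' := by intro a b; ext <;> simp }

noncomputable def stL : ℍ →L[ℝ] ℍ := LinearMap.toContinuousLinearMap
  { toFun := fun q => star q, map_add' := by simp, map_smul' := by simp }

@[simp] theorem reL_apply (q : ℍ) : reL q = q.re := rfl
@[simp] theorem imL_apply (q : ℍ) : imL q = q.im := rfl
@[simp] theorem coL_apply (r : ℝ) : coL r = (r : ℍ) := rfl
@[simp] theorem stL_apply (q : ℍ) : stL q = star q := rfl

/-- conjugation by `i` -/
noncomputable def cjR : ℍ →+* ℍ where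
  toFun q := ⟨q.re, q.imI, -q.imJ, -q.imK⟩
  map_one' := by ext <;> simp
  map_mul' a b := by ext <;> simp <;> ring
  map_zero' := by ext <;> simp
  map_add' a b := by ext <;> simp <;> ring

@[simp] theorem cjR_re (q : ℍ) : (cjR q).re = q.re := rfl
@[simp] theorem cjR_imI (q : ℍ) : (cjR q).imI = q.imI := rfl
@[simp] theorem cjR_imJ (q : ℍ) : (cjR q).imJ = -q.imJ := rfl
@[simp] theorem cjR_imK (q : ℍ) : (cjR q).imK = -q.imK := rfl

theorem cjR_smul (r : ℝ) (q : ℍ) : cjR (r • q) = r • cjR q := by ext <;> simp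

noncomputable def cjL : ℍ →L[ℝ] ℍ := LinearMap.toContinuousLinearMap
  { toFun := cjR, map_add' := map_add cjR, map_smul' := cjR_smul }

@[simp] theorem cjL_apply (q : ℍ) : cjL q = cjR q := rfl

theorem cjR_cjR (q : ℍ) : cjR (cjR q) = q := by ext <;> simp
theorem cjR_star (q : ℍ) : cjR (star q) = star (cjR q) := by ext <;> simp
theorem cjR_im (q : ℍ) : cjR q.im = (cjR q).im := by ext <;> simp
theorem cjR_coe (r : ℝ) : cjR (r : ℍ) = r := by ext <;> simp

theorem cjR_norm (q : ℍ) : ‖cjR q‖ = ‖q‖ := by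
  have : normSq (cjR q) = normSq q := by simp [normSq_def']
  rw [normSq_eq_norm_mul_self, normSq_eq_norm_mul_self] at this
  exact (mul_self_inj_of_nonneg (norm_nonneg _) (norm_nonneg _)).1 this

theorem cjR_exp (q : ℍ) : cjR (exp q) = exp (cjR q) := by
  let +nondep : NormedAlgebra ℚ ℍ := .restrictScalars ℚ ℝ ℍ
  exact map_exp cjR cjL.continuous q

theorem exp_add' {a b : ℍ} (h : Commute a b) : exp (a + b) = exp a * exp b := by
  let +nondep : NormedAlgebra ℚ ℍ := .restrictScalars ℚ ℝ ℍ
  exact exp_add_of_commute h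

theorem exp_mul_neg (a : ℍ) : exp a * exp (-a) = 1 := by
  rw [← exp_add' (Commute.refl a).neg_right]; simp

theorem exp_neg_mul (a : ℍ) : exp (-a) * exp a = 1 := by
  rw [← exp_add' (Commute.refl a).neg_left]; simp

theorem norm_exp_im {a : ℍ} (h : a.re = 0) : ‖exp a‖ = 1 := by simp [h]

theorem norm_sq_sub_one {q : ℍ} (h : ‖q‖ = 1) : ‖q - 1‖ ^ 2 = 2 - 2 * q.re := by
  have h1 : normSq q = 1 := by rw [normSq_eq_norm_mul_self, h, mul_one]
  rw [sq, ← normSq_eq_norm_mul_self]
  simp only [normSq_def', re_sub, re_one, imI_sub, imI_one, imJ_sub, imJ_one, imK_sub,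
    imK_one] at h1 ⊢
  nlinarith

theorem re_exp_im {a : ℍ} (h : a.re = 0) : (exp a).re = Real.cos ‖a‖ := by
  rw [re_exp]; simp [h]

theorem lower_exp {a : ℍ} (h : a.re = 0) (hn : ‖a‖ ≤ Real.pi) : ‖a‖ / 2 ≤ ‖exp a - 1‖ := by
  have h1 := norm_sq_sub_one (norm_exp_im h)
  rw [re_exp_im h] at h1
  have h2 := Real.cos_le_one_sub_mul_cos_sq (x := ‖a‖) (by rwa [abs_of_nonneg (norm_nonneg _)])
  have h3 : (1 : ℝ) / 8 ≤ 2 / Real.pi ^ 2 := by
    rw [div_le_div_iff₀ (by norm_num) (by positivity)]
    nlinarith [Real.pi_le_four, Real.pi_pos]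
  refine (sq_le_sq₀ (by positivity) (norm_nonneg _)).1 ?_
  nlinarith [mul_le_mul_of_nonneg_right h3 (sq_nonneg ‖a‖)]

theorem eq_one_of {q : ℍ} (h1 : ‖q‖ = 1) (h2 : q.im = 0) (h3 : 0 < q.re) : q = 1 := by
  have e : q = (q.re : ℍ) := by rw [← re_add_im q, h2]; simp
  rw [e, norm_coe, Real.norm_of_nonneg h3.le] at h1
  rw [e, h1]; simp

theorem split_zero {r : ℝ} {q : ℍ} (h : (r : ℍ) + q.im = 0) : r = 0 ∧ q.im = 0 := by
  have h1 := congrArg QuaternionAlgebra.re h
  simp at h1
  subst h1
  simpa using h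

theorem star_unit {q : ℍ} (h : ‖q‖ = 1) : q⁻¹ = star q := by
  have h1 : normSq q = 1 := by rw [normSq_eq_norm_mul_self, h, mul_one]
  have : star q * q = 1 := by rw [star_mul_self, h1]; simp
  exact (eq_inv_of_mul_eq_one_left this).symm

section words
variable {Φ : Type}

/-- polynomial evaluation of a list -/
noncomputable def ev (t : Φ → ℍ) (l : List (Φ × Bool)) : ℍ :=
  (l.map fun p => cond p.2 (t p.1) (star (t p.1))).prod

@[simp] theorem ev_nil (t : Φ → ℍ) : ev t [] = 1 := rfl

theorem ev_cons (t : Φ → ℍ) (p : Φ × Bool) (l : List (Φ × Bool)) :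
    ev t (p :: l) = cond p.2 (t p.1) (star (t p.1)) * ev t l := by simp [ev]

theorem ev_lift (t : Φ → S3) (l : List (Φ × Bool)) :
    ev (fun f => (t f : ℍ)) l = ((FreeGroup.lift t (FreeGroup.mk l) : S3) : ℍ) := by
  rw [FreeGroup.lift_mk]
  induction l with
  | nil => simp
  | cons p l ih =>
    rw [ev_cons, ih, List.map_cons, List.prod_cons, Metric.unitSphere.coe_mul]
    congr 1
    rcases p with ⟨f, _ | _⟩
    · simp only [cond_false, Metric.unitSphere.coe_inv]
      exact (star_unit (by simpa using (t f).2)).symm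
    · rfl

theorem ev_one (l : List (Φ × Bool)) : ev (fun _ : Φ => (1 : ℍ)) l = 1 := by
  induction l with
  | nil => rfl
  | cons p l ih => rw [ev_cons, ih]; rcases p with ⟨f, _ | _⟩ <;> simp

theorem ev_cj (t : Φ → ℍ) (l : List (Φ × Bool)) : ev (fun f => cjR (t f)) l = cjR (ev t l) := by
  induction l with
  | nil => simp
  | cons p l ih => rw [ev_cons, ev_cons, ih, map_mul]; rcases p with ⟨f, _ | _⟩ <;> simp [cjR_star]

theorem ev_contDiff {E : Type} [NormedAddCommGroup E] [NormedSpace ℝ E] (t : E → Φ → ℍ)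
    (ht : ∀ f, ContDiff ℝ 1 fun z => t z f) (l : List (Φ × Bool)) :
    ContDiff ℝ 1 fun z => ev (t z) l := by
  induction l with
  | nil => exact contDiff_const
  | cons p l ih =>
    simp only [ev_cons]
    refine ContDiff.mul ?_ ih
    rcases p with ⟨f, _ | _⟩
    · exact stL.contDiff.comp (ht f)
    · exact ht f

/-- additive evaluation -/
noncomputable def ad {A : Type} [AddCommGroup A] (a : Φ → A) (w : FreeGroup Φ) : A :=
  Multiplicative.toAdd (FreeGroup.lift (fun f => Multiplicative.ofAdd (a f)) w)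

theorem ad_mk {A : Type} [AddCommGroup A] (a : Φ → A) (l : List (Φ × Bool)) :
    ad a (FreeGroup.mk l) = (l.map fun p => cond p.2 (a p.1) (-a p.1)).sum := by
  rw [ad, FreeGroup.lift_mk]
  induction l with
  | nil => simp
  | cons p l ih =>
    rw [List.map_cons, List.prod_cons, toAdd_mul, ih, List.map_cons, List.sum_cons]
    rcases p with ⟨f, _ | _⟩ <;> simp

theorem lift_ab {U : Type} [Group U] (φ : FreeGroup Φ →* U) (h : ∀ a b, Commute (φ a) (φ b))
    {v w : FreeGroup Φ} (e : Abelianization.of v = Abelianization.of w) : φ v = φ w := by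
  have h1 : v⁻¹ * w ∈ commutator (FreeGroup Φ) := QuotientGroup.eq.1 e
  have h2 : commutator (FreeGroup Φ) ≤ φ.ker := by
    rw [commutator_def, Subgroup.commutator_le]
    intro a _ b _
    rw [MonoidHom.mem_ker, map_commutatorElement, commutatorElement_eq_one_iff_commute]
    exact h a b
  have := h2 h1
  rw [MonoidHom.mem_ker, map_mul, map_inv] at this
  exact inv_mul_eq_one.1 this

theorem ad_ab {A : Type} [AddCommGroup A] (a : Φ → A) {w : FreeGroup Φ} {f : Φ}
    (e : Abelianization.of w = Abelianization.of (FreeGroup.of f)) : ad a w = a f := by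
  rw [ad, lift_ab _ (fun a b => Commute.all _ _) e]; simp

theorem ad_map {A B : Type} [AddCommGroup A] [AddCommGroup B] (φ : A →+ B) (a : Φ → A)
    (w : FreeGroup Φ) : φ (ad a w) = ad (fun f => φ (a f)) w := by
  induction w using FreeGroup.induction_on with
  | C1 => simp [ad]
  | of s => simp [ad]
  | inv_of s _ => simp [ad]
  | mul x y hx hy => simp only [ad, map_mul, toAdd_mul, map_add] at hx hy ⊢; rw [hx, hy]

theorem lift_comm {U : Type} [Group U] (t : Φ → U) (h : ∀ f g, Commute (t f) (t g)) (a b) :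
    Commute (FreeGroup.lift t a) (FreeGroup.lift t b) := by
  have h1 : ∀ f b, Commute (t f) (FreeGroup.lift t b) := fun f b => by
    induction b using FreeGroup.induction_on with
    | C1 => simp
    | of s => simpa using h f s
    | inv_of s _ => simpa using (h f s).inv_right
    | mul x y hx hy => simpa using hx.mul_right hy
  induction a using FreeGroup.induction_on with
  | C1 => simp
  | of s => simpa using h1 s b
  | inv_of s _ => simpa using (h1 s b).inv_left
  | mul x y hx hy => simpa using hx.mul_left hy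

theorem ev_deriv (δ : Φ → ℍ) (hδ : ∀ f, (δ f).re = 0) (l : List (Φ × Bool)) :
    HasDerivAt (fun ε : ℝ => ev (fun f => 1 + ε • δ f) l) (ad δ (FreeGroup.mk l)) 0 := by
  rw [ad_mk]
  induction l with
  | nil => simpa using hasDerivAt_const (0 : ℝ) (1 : ℍ)
  | cons p l ih =>
    simp only [ev_cons, List.map_cons, List.sum_cons]
    have h0 : ∀ f, HasDerivAt (fun ε : ℝ => (1 : ℍ) + ε • δ f) (δ f) 0 := fun f => by
      simpa using ((hasDerivAt_id (0 : ℝ)).smul_const (δ f)).const_add 1
    have h1 : HasDerivAt (fun ε : ℝ => cond p.2 ((1 : ℍ) + ε • δ p.1) (star (1 + ε • δ p.1)))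
        (cond p.2 (δ p.1) (-δ p.1)) 0 := by
      rcases p with ⟨f, _ | _⟩
      · have := stL.hasFDerivAt.comp_hasDerivAt (0 : ℝ) (h0 f)
        have e : star (δ f) = -δ f := star_eq_neg.2 (hδ f)
        simpa [Function.comp_def, e] using this
      · exact h0 f
    refine (h1.mul ih).congr_deriv ?_
    simp only [zero_smul, add_zero, ev_one, mul_one]
    rcases p with ⟨f, _ | _⟩ <;> simp

theorem norm_lift_sub_one (x : Φ → S3) (c : ℝ) (h : ∀ e, ‖(x e : ℍ) - 1‖ ≤ c)
    (l : List (Φ × Bool)) :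
    ‖((FreeGroup.lift x (FreeGroup.mk l) : S3) : ℍ) - 1‖ ≤ l.length * c := by
  rw [← ev_lift]
  induction l with
  | nil => simp
  | cons p l ih =>
    rw [ev_cons]
    set a : ℍ := cond p.2 (x p.1 : ℍ) (star (x p.1 : ℍ)) with ha
    have hx : ‖(x p.1 : ℍ)‖ = 1 := by simpa using (x p.1).2
    have h1 : ‖a‖ = 1 := by rcases p with ⟨f, _ | _⟩ <;> simpa [ha] using hx
    have h2 : ‖a - 1‖ ≤ c := by
      rcases p with ⟨f, _ | _⟩
      · have : a - 1 = star ((x f : ℍ) - 1) := by simp [ha]
        rw [this, norm_star]; exact h f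
      · exact h f
    have e : a * ev (fun f => (x f : ℍ)) l - 1 =
        a * (ev (fun f => (x f : ℍ)) l - 1) + (a - 1) := by noncomm_ring
    rw [e]
    refine (norm_add_le _ _).trans ?_
    rw [norm_mul, h1, one_mul, List.length_cons]
    push_cast
    linarith

/-- the quaternion `i` -/
noncomputable def qI : ℍ := ⟨0, 1, 0, 0⟩

@[simp] theorem qI_re : qI.re = 0 := rfl

theorem norm_qI : ‖qI‖ = 1 := by
  have : normSq qI = 1 := by simp [normSq_def', qI]
  rw [normSq_eq_norm_mul_self] at this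
  nlinarith [norm_nonneg qI]

/-- the unit quaternion `exp (r i)` -/
noncomputable def eI (r : ℝ) : S3 := ⟨exp (r • qI), by simp⟩

theorem lift_eI (a : Φ → ℝ) (w : FreeGroup Φ) :
    FreeGroup.lift (fun f => eI (a f)) w = eI (ad a w) := by
  have hm : ∀ r s, eI (r + s) = eI r * eI s := fun r s => Subtype.ext (by
    simp only [eI, Metric.unitSphere.coe_mul, add_smul]
    exact exp_add' (((Commute.refl qI).smul_left r).smul_right s))
  have h0 : eI 0 = 1 := Subtype.ext (by simp [eI])
  induction w using FreeGroup.induction_on with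
  | C1 => simp [ad, h0]
  | of s => simp [ad]
  | inv_of s _ =>
    simp only [ad, map_inv, FreeGroup.lift_apply_of, toAdd_inv, toAdd_ofAdd]
    exact inv_eq_of_mul_eq_one_right (by rw [← hm]; simp [h0])
  | mul x y hx hy => simp only [ad, map_mul, toAdd_mul] at hx hy ⊢; rw [hx, hy, hm]

end words

end Crest.Agent.EG.ANx
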