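import Crest.Agent.EG.DefsR

/-! Row 197 (S0300), job B1: coordinates on the cube complex. -/

set_option autoImplicit false

open Set Topology

namespace Crest.Agent.EG.B1x

variable {V : Type} (Γ : Gr V)

open Classical in
/-- Dirac mass -/
noncomputable def dl (g : Γ.A) : Γ.A → ℝ := Pi.single g 1

theorem cube_eq (g : Γ.A) (τ : Γ.Tri) (x y z : ℝ) : Γ.cube g τ x y z =
    Γ.sh (Γ.gen τ.c) z (Γ.sh (Γ.gen τ.b) y (Γ.sh (Γ.gen τ.a) x (dl Γ g))) := rfl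

theorem dl_ne {g h : Γ.A} (hh : dl Γ g h ≠ 0) : h = g := by
  by_contra e
  exact hh (by simp [dl, e])

theorem dl_self (g : Γ.A) : dl Γ g g = 1 := by simp [dl]

theorem dl_eq {g h g' h' : Γ.A} (e : h = g ↔ h' = g') : dl Γ g h = dl Γ g' h' := by
  classical
  by_cases h1 : h = g
  · rw [h1, e.1 h1, dl_self, dl_self]
  · have h2 : ¬ h' = g' := fun h2 => h1 (e.2 h2)
    by_contra hne
    have a1 : dl Γ g h = 0 := by_contra fun a => h1 (dl_ne Γ a)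
    have a2 : dl Γ g' h' = 0 := by_contra fun a => h2 (dl_ne Γ a)
    exact hne (a1.trans a2.symm)

theorem sh_zero (s : Γ.A) (μ : Γ.A → ℝ) : Γ.sh s 0 μ = μ := by
  funext h; simp [Gr.sh]

theorem sh_one_dl (s g : Γ.A) : Γ.sh s 1 (dl Γ g) = dl Γ (g * s) := by
  funext h
  simp only [Gr.sh, sub_self, zero_mul, one_mul, zero_add]
  exact dl_eq Γ mul_inv_eq_iff_eq_mul

theorem sh_comm {s t : Γ.A} (hst : Commute s t) (x y : ℝ) (μ : Γ.A → ℝ) :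
    Γ.sh s x (Γ.sh t y μ) = Γ.sh t y (Γ.sh s x μ) := by
  funext h
  simp only [Gr.sh, mul_assoc, hst.inv_inv.eq]
  ring

theorem sh_ne {s : Γ.A} {r : ℝ} {μ : Γ.A → ℝ} {h : Γ.A} (hh : Γ.sh s r μ h ≠ 0) :
    ∃ i : Fin 2, μ (h * (s ^ (i : ℕ))⁻¹) ≠ 0 := by
  by_contra hn
  push Not at hn
  have h0 := hn 0
  have h1 := hn 1
  simp at h0 h1
  exact hh (by simp [Gr.sh, h0, h1])

/-- vertices of a cube, relative to its base point -/
def vx (q : Γ.Tri × Fin 2 × Fin 2 × Fin 2) : Γ.A :=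
  Γ.gen q.1.a ^ (q.2.1 : ℕ) * Γ.gen q.1.b ^ (q.2.2.1 : ℕ) * Γ.gen q.1.c ^ (q.2.2.2 : ℕ)

theorem cube_ne {g : Γ.A} {τ : Γ.Tri} {x y z : ℝ} {h : Γ.A} (hh : Γ.cube g τ x y z h ≠ 0) :
    ∃ ε, h = g * vx Γ (τ, ε) := by
  rw [cube_eq] at hh
  obtain ⟨k, hk⟩ := sh_ne Γ hh
  obtain ⟨j, hj⟩ := sh_ne Γ hk
  obtain ⟨i, hi⟩ := sh_ne Γ hj
  have := dl_ne Γ hi
  refine ⟨(i, j, k), ?_⟩
  simp only [vx, ← this]
  group

/-- translation -/
def tr (g : Γ.A) (μ : Γ.A → ℝ) : Γ.A → ℝ := fun h => μ (g⁻¹ * h)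

theorem tr_sh (g s : Γ.A) (r : ℝ) (μ : Γ.A → ℝ) : tr Γ g (Γ.sh s r μ) = Γ.sh s r (tr Γ g μ) := by
  funext h; simp [tr, Gr.sh, mul_assoc]

theorem tr_dl (g h : Γ.A) : tr Γ g (dl Γ h) = dl Γ (g * h) := by
  funext k
  exact dl_eq Γ inv_mul_eq_iff_eq_mul

theorem tr_cube (g h : Γ.A) (τ : Γ.Tri) (x y z : ℝ) :
    tr Γ g (Γ.cube h τ x y z) = Γ.cube (g * h) τ x y z := by
  simp only [cube_eq, tr_sh, tr_dl]

instance act : MulAction Γ.A Γ.Es where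
  smul g μ := ⟨tr Γ g μ.1, by
    obtain ⟨h, τ, x, y, z, hx, hy, hz, e⟩ := μ.2
    exact ⟨g * h, τ, x, y, z, hx, hy, hz, by rw [e, tr_cube]⟩⟩
  one_smul μ := Subtype.ext (by funext h; show μ.1 (1⁻¹ * h) = μ.1 h; simp)
  mul_smul g g' μ := Subtype.ext (by
    funext h; show μ.1 ((g * g')⁻¹ * h) = μ.1 (g'⁻¹ * (g⁻¹ * h)); simp [mul_assoc])

theorem smul_val (g : Γ.A) (μ : Γ.Es) : (g • μ).1 = tr Γ g μ.1 := rfl

theorem smul_valG (g : Γ.G) (μ : Γ.Es) : (g • μ).1 = tr Γ g μ.1 := rfl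

instance : ContinuousConstSMul Γ.G Γ.Es where
  continuous_const_smul g := continuous_induced_rng.2
    (continuous_pi fun h => (continuous_apply ((g : Γ.A)⁻¹ * h)).comp continuous_subtype_val)

/-- finite support, mass one, first moment `m` -/
def Good (χ : Γ.A → ℝ) (μ : Γ.A → ℝ) (m : ℝ) : Prop :=
  (Function.support μ).Finite ∧ ∑ᶠ h, μ h = 1 ∧ ∑ᶠ h, μ h * χ h = m

theorem good_dl (χ : Γ.A → ℝ) (g : Γ.A) : Good Γ χ (dl Γ g) (χ g) := by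
  refine ⟨(finite_singleton g).subset fun h hh => dl_ne Γ hh, ?_, ?_⟩
  · rw [finsum_eq_single _ g fun h hh => by_contra fun a => hh (dl_ne Γ a), dl_self]
  · rw [finsum_eq_single _ g fun h hh => by
      rw [show dl Γ g h = 0 from by_contra fun a => hh (dl_ne Γ a), zero_mul], dl_self, one_mul]

theorem fs_sh (s : Γ.A) (r : ℝ) (μ : Γ.A → ℝ) (hμ : (Function.support μ).Finite) (φ : Γ.A → ℝ) :
    ∑ᶠ h, Γ.sh s r μ h * φ h = (1 - r) * ∑ᶠ h, μ h * φ h + r * ∑ᶠ h, μ h * φ (h * s) := by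
  have h1 : ∀ ψ : Γ.A → ℝ, (Function.support fun h => μ h * ψ h).Finite := fun ψ =>
    hμ.subset fun h hh => left_ne_zero_of_mul hh
  have h2 : (Function.support fun h => μ (h * s⁻¹) * φ h).Finite :=
    (hμ.preimage (f := fun h => h * s⁻¹) (mul_left_injective _).injOn).subset
      fun h hh => left_ne_zero_of_mul hh
  have h3 : ∑ᶠ h, μ h * φ (h * s) = ∑ᶠ h, μ (h * s⁻¹) * φ h := by
    rw [← finsum_comp_equiv (Equiv.mulRight s⁻¹)]
    simp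
  rw [h3, mul_finsum' _ _ (h1 φ), mul_finsum' _ _ h2, ← finsum_add_distrib]
  · refine finsum_congr fun h => ?_
    simp only [Gr.sh]; ring
  · exact (h1 φ).subset fun h hh => right_ne_zero_of_mul hh
  · exact h2.subset fun h hh => right_ne_zero_of_mul hh

theorem good_sh {χ : Γ.A → ℝ} (hχ : ∀ g h, χ (g * h) = χ g + χ h) {μ : Γ.A → ℝ} {m : ℝ}
    (h : Good Γ χ μ m) (s : Γ.A) (r : ℝ) : Good Γ χ (Γ.sh s r μ) (m + r * χ s) := by
  obtain ⟨h1, h2, h3⟩ := h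
  refine ⟨?_, ?_, ?_⟩
  · refine (h1.union (h1.preimage (f := fun h => h * s⁻¹) (mul_left_injective _).injOn)).subset ?_
    intro h hh
    by_contra hn
    simp only [mem_union, Function.mem_support, mem_preimage, not_or, not_not] at hn
    exact hh (by simp [Gr.sh, hn.1, hn.2])
  · have := fs_sh Γ s r μ h1 fun _ => 1
    simp only [mul_one, h2] at this
    rw [this]; ring
  · rw [fs_sh Γ s r μ h1, h3]
    have : ∑ᶠ h, μ h * χ (h * s) = m + χ s := by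
      simp only [hχ, mul_add]
      rw [finsum_add_distrib (h1.subset fun h hh => left_ne_zero_of_mul hh)
        (h1.subset fun h hh => left_ne_zero_of_mul hh), h3, ← finsum_mul' _ _ h1, h2, one_mul]
    rw [this]; ring

theorem good_cube {χ : Γ.A → ℝ} (hχ : ∀ g h, χ (g * h) = χ g + χ h) (g : Γ.A) (τ : Γ.Tri)
    (x y z : ℝ) : Good Γ χ (Γ.cube g τ x y z)
      (χ g + x * χ (Γ.gen τ.a) + y * χ (Γ.gen τ.b) + z * χ (Γ.gen τ.c)) :=
  good_sh Γ hχ (good_sh Γ hχ (good_sh Γ hχ (good_dl Γ χ g) _ _) _ _) _ _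

theorem exists_ne (μ : Γ.Es) : ∃ h, μ.1 h ≠ 0 := by
  obtain ⟨g, τ, x, y, z, -, -, -, e⟩ := μ.2
  have := (good_cube Γ (χ := fun _ => 0) (by simp) g τ x y z).2.1
  by_contra hn
  push Not at hn
  rw [← e] at this
  simp [hn] at this

/-- moments are continuous -/
theorem cont_mom [Finite V] (φ : Γ.A → ℝ) : Continuous fun μ : Γ.Es => ∑ᶠ h, μ.1 h * φ h := by
  classical
  rw [continuous_iff_continuousAt]
  intro μ₀
  obtain ⟨h₀, hh₀⟩ := exists_ne Γ μ₀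
  have hfin : (range fun q : (Γ.Tri × Fin 2 × Fin 2 × Fin 2) × (Γ.Tri × Fin 2 × Fin 2 × Fin 2) =>
    h₀ * (vx Γ q.1)⁻¹ * vx Γ q.2).Finite := finite_range _
  have hc : Continuous fun μ : Γ.Es => ∑ h ∈ hfin.toFinset, μ.1 h * φ h :=
    continuous_finsetSum _ fun h _ =>
      ((continuous_apply h).comp continuous_subtype_val).mul continuous_const
  refine hc.continuousAt.congr ?_
  have ho : IsOpen {μ : Γ.Es | μ.1 h₀ ≠ 0} :=
    isOpen_ne_fun ((continuous_apply h₀).comp continuous_subtype_val) continuous_const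
  filter_upwards [ho.mem_nhds hh₀] with μ hμ
  symm
  apply finsum_eq_sum_of_support_subset
  intro h hh
  have hh' : μ.1 h ≠ 0 := left_ne_zero_of_mul hh
  obtain ⟨g, τ, x, y, z, -, -, -, e⟩ := μ.2
  rw [e] at hμ hh'
  obtain ⟨ε, h1⟩ := cube_ne Γ hμ
  obtain ⟨ε', h2⟩ := cube_ne Γ hh'
  simp only [Finite.coe_toFinset, mem_range]
  exact ⟨((τ, ε), (τ, ε')), by simp [h1, h2]⟩

section Tri
variable {Γ} (τ : Γ.Tri)

theorem rk_a : Γ.rk τ.a = 0 := τ.2.2.2.2.1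
theorem rk_b : Γ.rk τ.b = 1 := τ.2.2.2.2.2.1
theorem rk_c : Γ.rk τ.c = 2 := τ.2.2.2.2.2.2

theorem ne_ab (τ τ' : Γ.Tri) : τ.a ≠ τ'.b := fun e => by
  have := rk_a τ; rw [e, rk_b] at this; exact absurd this (by decide)
theorem ne_ac (τ τ' : Γ.Tri) : τ.a ≠ τ'.c := fun e => by
  have := rk_a τ; rw [e, rk_c] at this; exact absurd this (by decide)
theorem ne_bc (τ τ' : Γ.Tri) : τ.b ≠ τ'.c := fun e => by
  have := rk_b τ; rw [e, rk_c] at this; exact absurd this (by decide)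

theorem comm_ab : Commute (Γ.gen τ.a) (Γ.gen τ.b) := Γ.gen_comm τ.2.1
theorem comm_bc : Commute (Γ.gen τ.b) (Γ.gen τ.c) := Γ.gen_comm τ.2.2.1
theorem comm_ac : Commute (Γ.gen τ.a) (Γ.gen τ.c) := Γ.gen_comm τ.2.2.2.1

end Tri

theorem cube_x1 (g : Γ.A) (τ : Γ.Tri) (y z : ℝ) :
    Γ.cube g τ 1 y z = Γ.cube (g * Γ.gen τ.a) τ 0 y z := by
  simp only [cube_eq, sh_zero, sh_one_dl]

theorem cube_y1 (g : Γ.A) (τ : Γ.Tri) (x z : ℝ) :
    Γ.cube g τ x 1 z = Γ.cube (g * Γ.gen τ.b) τ x 0 z := by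
  simp only [cube_eq, sh_zero]
  rw [← sh_comm Γ (comm_ab τ), sh_one_dl]

theorem cube_z1 (g : Γ.A) (τ : Γ.Tri) (x y : ℝ) :
    Γ.cube g τ x y 1 = Γ.cube (g * Γ.gen τ.c) τ x y 0 := by
  simp only [cube_eq, sh_zero]
  rw [← sh_comm Γ (comm_bc τ), ← sh_comm Γ (comm_ac τ), sh_one_dl]

/-- half-open normal form -/
theorem norm_form (μ : Γ.Es) : ∃ g τ x y z, x ∈ Ico (0 : ℝ) 1 ∧ y ∈ Ico (0 : ℝ) 1 ∧
    z ∈ Ico (0 : ℝ) 1 ∧ μ.1 = Γ.cube g τ x y z := by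
  obtain ⟨g, τ, x, y, z, hx, hy, hz, e⟩ := μ.2
  have h0 : (0 : ℝ) ∈ Ico (0 : ℝ) 1 := ⟨le_rfl, one_pos⟩
  obtain ⟨g, x, hx, e⟩ : ∃ g x, x ∈ Ico (0 : ℝ) 1 ∧ μ.1 = Γ.cube g τ x y z := by
    rcases hx.2.eq_or_lt with rfl | h
    · exact ⟨_, 0, h0, e.trans (cube_x1 Γ g τ y z)⟩
    · exact ⟨g, x, ⟨hx.1, h⟩, e⟩
  obtain ⟨g, y, hy, e⟩ : ∃ g y, y ∈ Ico (0 : ℝ) 1 ∧ μ.1 = Γ.cube g τ x y z := by
    rcases hy.2.eq_or_lt with rfl | h
    · exact ⟨_, 0, h0, e.trans (cube_y1 Γ g τ x z)⟩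
    · exact ⟨g, y, ⟨hy.1, h⟩, e⟩
  rcases hz.2.eq_or_lt with rfl | h
  · exact ⟨_, τ, x, y, 0, hx, hy, h0, e.trans (cube_z1 Γ g τ x y)⟩
  · exact ⟨g, τ, x, y, z, hx, hy, ⟨hz.1, h⟩, e⟩

variable [DecidableEq V]

/-- exponent sum of the generator `v` -/
def chi (v : V) (g : Γ.A) : ℤ := Multiplicative.toAdd (Γ.wt (Pi.single v 1) g)

theorem chi_mul (v : V) (g h : Γ.A) : chi Γ v (g * h) = chi Γ v g + chi Γ v h := by simp [chi]

theorem chi_inv (v : V) (g : Γ.A) : chi Γ v g⁻¹ = - chi Γ v g := by simp [chi]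

theorem chi_gen (v a : V) : chi Γ v (Γ.gen a) = if a = v then 1 else 0 := by
  simp [chi, Pi.single_apply]

theorem chi_pow (v : V) (g : Γ.A) (n : ℕ) : chi Γ v (g ^ n) = n * chi Γ v g := by simp [chi]

theorem sum_chi [Fintype V] (g : Γ.A) : ∑ v, chi Γ v g = Multiplicative.toAdd (Γ.ht g) := by
  have : ∏ v, Γ.wt (Pi.single v 1) = Γ.ht := by
    apply PresentedGroup.ext
    intro a
    have h1 : ∀ v, Γ.wt (Pi.single v 1) (PresentedGroup.of a) =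
      Multiplicative.ofAdd (Pi.single (M := fun _ => ℤ) v 1 a) := fun v => Γ.wt_gen _ a
    have h2 : Γ.ht (PresentedGroup.of a) = Multiplicative.ofAdd 1 := Γ.ht_gen a
    rw [MonoidHom.finsetProd_apply, h2]
    simp only [h1, ← ofAdd_sum]
    simp [Pi.single_apply]
  rw [← this, MonoidHom.finsetProd_apply, toAdd_prod]
  rfl

/-- coordinates of a point of a cube -/
def co (τ : Γ.Tri) (x y z : ℝ) (v : V) : ℝ :=
  (if τ.a = v then x else 0) + (if τ.b = v then y else 0) + (if τ.c = v then z else 0)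

theorem co_a (τ τ' : Γ.Tri) (x y z : ℝ) : co Γ τ x y z τ'.a = if τ.a = τ'.a then x else 0 := by
  simp [co, (ne_ab τ' τ).symm, (ne_ac τ' τ).symm]

theorem co_b (τ τ' : Γ.Tri) (x y z : ℝ) : co Γ τ x y z τ'.b = if τ.b = τ'.b then y else 0 := by
  simp [co, ne_ab τ τ', (ne_bc τ' τ).symm]

theorem co_c (τ τ' : Γ.Tri) (x y z : ℝ) : co Γ τ x y z τ'.c = if τ.c = τ'.c then z else 0 := by
  simp [co, ne_ac τ τ', ne_bc τ τ']

theorem co_off (τ : Γ.Tri) (x y z : ℝ) {v : V} (ha : τ.a ≠ v) (hb : τ.b ≠ v) (hc : τ.c ≠ v) :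
    co Γ τ x y z v = 0 := by simp [co, ha, hb, hc]

theorem co_mem {S : Set ℝ} (h0 : (0 : ℝ) ∈ S) (τ : Γ.Tri) {x y z : ℝ} (hx : x ∈ S) (hy : y ∈ S)
    (hz : z ∈ S) (v : V) : co Γ τ x y z v ∈ S := by
  by_cases ha : τ.a = v
  · rw [← ha, co_a, if_pos rfl]; exact hx
  by_cases hb : τ.b = v
  · rw [← hb, co_b, if_pos rfl]; exact hy
  by_cases hc : τ.c = v
  · rw [← hc, co_c, if_pos rfl]; exact hz
  rw [co_off Γ τ x y z ha hb hc]; exact h0

theorem co_self (τ : Γ.Tri) (l : V → ℝ) (hl : ∀ v, l v ≠ 0 → v = τ.a ∨ v = τ.b ∨ v = τ.c) :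
    co Γ τ (l τ.a) (l τ.b) (l τ.c) = l := by
  funext v
  by_cases ha : τ.a = v
  · rw [← ha, co_a, if_pos rfl]
  by_cases hb : τ.b = v
  · rw [← hb, co_b, if_pos rfl]
  by_cases hc : τ.c = v
  · rw [← hc, co_c, if_pos rfl]
  rw [co_off Γ τ _ _ _ ha hb hc]
  by_contra hn
  rcases hl v (Ne.symm hn) with h | h | h
  exacts [ha h.symm, hb h.symm, hc h.symm]

theorem sh_congr {a a' : V} {x x' : ℝ} (h1 : x = if a' = a then x' else 0)
    (h2 : (if a = a' then x else 0) = x') : Γ.sh (Γ.gen a) x = Γ.sh (Γ.gen a') x' := by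
  by_cases h : a = a'
  · rw [if_pos h] at h2
    rw [h, h2]
  · rw [if_neg h] at h2
    rw [if_neg (Ne.symm h)] at h1
    funext μ
    rw [h1, ← h2, sh_zero, sh_zero]

theorem cube_congr (g : Γ.A) {τ τ' : Γ.Tri} {x y z x' y' z' : ℝ}
    (h : co Γ τ x y z = co Γ τ' x' y' z') : Γ.cube g τ x y z = Γ.cube g τ' x' y' z' := by
  have a1 := congrFun h τ.a
  have a2 := congrFun h τ'.a
  have b1 := congrFun h τ.b
  have b2 := congrFun h τ'.b
  have c1 := congrFun h τ.c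
  have c2 := congrFun h τ'.c
  simp only [co_a, co_b, co_c, if_true] at a1 a2 b1 b2 c1 c2
  rw [cube_eq, cube_eq, sh_congr Γ a1 a2, sh_congr Γ b1 b2, sh_congr Γ c1 c2]

/-- the `v`-coordinate on the cube complex -/
noncomputable def Lc (v : V) (μ : Γ.Es) : ℝ := ∑ᶠ h, μ.1 h * (chi Γ v h : ℝ)

theorem cont_Lc [Finite V] (v : V) : Continuous (Lc Γ v) := cont_mom Γ _

theorem Lc_cube (v : V) (μ : Γ.Es) {g : Γ.A} {τ : Γ.Tri} {x y z : ℝ}
    (e : μ.1 = Γ.cube g τ x y z) : Lc Γ v μ = chi Γ v g + co Γ τ x y z v := by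
  have := (good_cube Γ (χ := fun h => (chi Γ v h : ℝ)) (by simp [chi_mul]) g τ x y z).2.2
  rw [Lc, e, this]
  simp only [chi_gen, co]
  push_cast
  split_ifs <;> ring

theorem Lc_smul (v : V) (g : Γ.A) (μ : Γ.Es) : Lc Γ v (g • μ) = chi Γ v g + Lc Γ v μ := by
  obtain ⟨h, τ, x, y, z, -, -, -, e⟩ := μ.2
  rw [Lc_cube Γ v μ e, Lc_cube Γ v (g • μ) (by rw [smul_val, e, tr_cube]), chi_mul]
  push_cast; ring

theorem vx_inj (τ : Γ.Tri) {ε ε' : Fin 2 × Fin 2 × Fin 2}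
    (h : ∀ v, chi Γ v (vx Γ (τ, ε)) = chi Γ v (vx Γ (τ, ε'))) : ε = ε' := by
  have ha := h τ.a
  have hb := h τ.b
  have hc := h τ.c
  simp only [vx, chi_mul, chi_pow, chi_gen, if_true, ne_ab τ τ, ne_ac τ τ, ne_bc τ τ,
    (ne_ab τ τ).symm, (ne_ac τ τ).symm, (ne_bc τ τ).symm, if_false, mul_one, mul_zero, add_zero,
    zero_add, Nat.cast_inj] at ha hb hc
  exact Prod.ext (Fin.ext ha) (Prod.ext (Fin.ext hb) (Fin.ext hc))

theorem quot_cov [Finite V] :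
    IsQuotientCoveringMap (Quotient.mk (MulAction.orbitRel Γ.G Γ.Es)) Γ.G where
  __ := isQuotientMap_quotient_mk'
  apply_eq_iff_mem_orbit := Quotient.eq''
  disjoint μ₀ := by
    obtain ⟨h₀, hh₀⟩ := exists_ne Γ μ₀
    have ho : IsOpen ({μ : Γ.Es | μ.1 h₀ ≠ 0} ∩ ⋂ v, {μ | |Lc Γ v μ - Lc Γ v μ₀| < 1 / 2}) :=
      (isOpen_ne_fun ((continuous_apply h₀).comp continuous_subtype_val) continuous_const).inter
        (isOpen_iInter_of_finite fun v =>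
          isOpen_lt ((cont_Lc Γ v).sub continuous_const).abs continuous_const)
    refine ⟨_, ho.mem_nhds ⟨hh₀, by simp⟩, ?_⟩
    rintro g ⟨_, ⟨ν, ⟨h1, h2⟩, rfl⟩, h3, h4⟩
    simp only [mem_iInter, mem_ofPred_eq] at h1 h2 h3 h4
    have hχ : ∀ v, chi Γ v g = 0 := by
      intro v
      have a1 := h2 v
      have a2 := h4 v
      rw [show g • ν = (g : Γ.A) • ν from rfl, Lc_smul] at a2
      rw [abs_lt] at a1 a2
      have b1 : ((chi Γ v g : ℤ) : ℝ) < 1 := by linarith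
      have b2 : (-1 : ℝ) < ((chi Γ v g : ℤ) : ℝ) := by linarith
      have c1 : chi Γ v g < 1 := by exact_mod_cast b1
      have c2 : -1 < chi Γ v g := by exact_mod_cast b2
      omega
    obtain ⟨k, τ, x, y, z, -, -, -, e⟩ := ν.2
    rw [smul_valG, tr, e] at h3
    rw [e] at h1
    obtain ⟨ε, e1⟩ := cube_ne Γ h1
    obtain ⟨ε', e2⟩ := cube_ne Γ h3
    have : ε = ε' := vx_inj Γ τ fun v => by
      have a1 := congrArg (chi Γ v) e1
      have a2 := congrArg (chi Γ v) e2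
      rw [chi_mul] at a1
      rw [chi_mul, chi_mul, chi_inv, hχ] at a2
      omega
    rw [← this, ← e1] at e2
    apply Subtype.ext
    simpa using e2

end Crest.Agent.EG.B1x
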