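import Crest.Agent.EG.B1a
import Crest.Agent.EG.B1b

/-! Row 197 (S0300), job B1: the quotient of the cube complex is a 3-dimensional `K(G,1)`. -/

set_option autoImplicit false

open Set Topology Metric

namespace Crest.Agent.EG

namespace B1x

variable {V : Type} (Γ : Gr V) [DecidableEq V] [Fintype V]

/-- the quotient -/
abbrev XQ : Type := Quotient (MulAction.orbitRel Γ.G Γ.Es)

/-- invariant coordinates -/
noncomputable def F0 (μ : Γ.Es) : (V → AddCircle (1 : ℝ)) × ℝ :=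
  (fun v => (Lc Γ v μ : AddCircle (1 : ℝ)), ∑ v, Lc Γ v μ)

theorem coe_int_add (n : ℤ) (x : ℝ) :
    (((n : ℝ) + x : ℝ) : AddCircle (1 : ℝ)) = (x : AddCircle (1 : ℝ)) := by
  rw [AddCircle.coe_add, (AddCircle.coe_eq_zero_iff (1 : ℝ)).2 ⟨n, by simp⟩, zero_add]

theorem F0_cube (μ : Γ.Es) {g : Γ.A} {τ : Γ.Tri} {x y z : ℝ} (e : μ.1 = Γ.cube g τ x y z) :
    F0 Γ μ = (fun v => (co Γ τ x y z v : AddCircle (1 : ℝ)),
      (Multiplicative.toAdd (Γ.ht g) : ℤ) + ∑ v, co Γ τ x y z v) := by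
  simp only [F0, Lc_cube Γ _ μ e, coe_int_add, Finset.sum_add_distrib, ← sum_chi]
  push_cast
  rfl

theorem F0_smul (g : Γ.G) (μ : Γ.Es) : F0 Γ (g • μ) = F0 Γ μ := by
  obtain ⟨h, τ, x, y, z, -, -, -, e⟩ := μ.2
  have hg : Γ.ht g = 1 := g.2
  rw [F0_cube Γ μ e, F0_cube Γ (g • μ) (by rw [smul_valG, e, tr_cube]), map_mul, hg, one_mul]

/-- invariant coordinates on the quotient -/
noncomputable def F : XQ Γ → (V → AddCircle (1 : ℝ)) × ℝ :=
  Quotient.lift (F0 Γ) (by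
    rintro _ b ⟨g, rfl⟩
    exact F0_smul Γ g b)

theorem cont_F : Continuous (F Γ) := by
  refine Continuous.quotient_lift ?_ _
  exact (continuous_pi fun v => (AddCircle.continuous_mk' 1).comp (cont_Lc Γ v)).prodMk
    (continuous_finsetSum _ fun v _ => cont_Lc Γ v)

theorem coe_inj {x y : ℝ} (hx : x ∈ Ico (0 : ℝ) 1) (hy : y ∈ Ico (0 : ℝ) 1)
    (h : (x : AddCircle (1 : ℝ)) = y) : x = y :=
  (AddCircle.coe_eq_coe_iff_of_mem_Ico (p := 1) (a := 0) (by simpa using hx)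
    (by simpa using hy)).1 h

theorem F_inj : Function.Injective (F Γ) := by
  intro p q hpq
  induction p using Quotient.ind with | _ μ =>
  induction q using Quotient.ind with | _ ν =>
  obtain ⟨g, τ, x, y, z, hx, hy, hz, e⟩ := norm_form Γ μ
  obtain ⟨g', τ', x', y', z', hx', hy', hz', e'⟩ := norm_form Γ ν
  have h : F0 Γ μ = F0 Γ ν := hpq
  rw [F0_cube Γ μ e, F0_cube Γ ν e'] at h
  have h0 : (0 : ℝ) ∈ Ico (0 : ℝ) 1 := ⟨le_rfl, one_pos⟩
  have hco : co Γ τ x y z = co Γ τ' x' y' z' := funext fun v =>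
    coe_inj (co_mem Γ h0 τ hx hy hz v) (co_mem Γ h0 τ' hx' hy' hz' v) (congrFun (Prod.mk.inj h).1 v)
  have hh := (Prod.mk.inj h).2
  rw [hco, add_left_inj, Int.cast_inj] at hh
  have hh' : Γ.ht g = Γ.ht g' := Multiplicative.toAdd.injective hh
  refine Quotient.sound ⟨⟨g * g'⁻¹, by simp [MonoidHom.mem_ker, hh']⟩, Subtype.ext ?_⟩
  simp only
  rw [smul_valG, e', tr_cube, e, cube_congr Γ g hco]
  simp

instance : T2Space (XQ Γ) := T2Space.of_injective_continuous (F_inj Γ) (cont_F Γ)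

/-- cells -/
def Cl (n : ℕ) : Type :=
  ℤ × {s : Finset V // s.card = n ∧ ∃ τ : Γ.Tri, ∀ v ∈ s, v = τ.a ∨ v = τ.b ∨ v = τ.c}

/-- clamped affine coordinate -/
noncomputable def cl (t : ℝ) : ℝ := max 0 (min 1 ((1 + t) / 2))

theorem cl_mem (t : ℝ) : cl t ∈ Icc (0 : ℝ) 1 :=
  ⟨le_max_left _ _, max_le zero_le_one (min_le_left _ _)⟩

theorem cl_eq {t : ℝ} (ht : |t| ≤ 1) : cl t = (1 + t) / 2 := by
  rw [abs_le] at ht
  rw [cl, min_eq_right (by linarith), max_eq_right (by linarith)]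

theorem cont_cl : Continuous cl := by unfold cl; fun_prop

variable {Γ}

/-- coordinates of a point of a cell -/
noncomputable def lam {n : ℕ} (i : Cl Γ n) (x : Fin n → ℝ) (v : V) : ℝ :=
  if h : v ∈ i.2.1 then cl (x (Finset.equivFinOfCardEq i.2.2.1 ⟨v, h⟩)) else 0

theorem lam_mem {n : ℕ} (i : Cl Γ n) (x : Fin n → ℝ) (v : V) : lam i x v ∈ Icc (0 : ℝ) 1 := by
  unfold lam
  split_ifs
  · exact cl_mem _
  · exact ⟨le_rfl, zero_le_one⟩

theorem lam_off {n : ℕ} (i : Cl Γ n) (x : Fin n → ℝ) {v : V} (h : v ∉ i.2.1) : lam i x v = 0 :=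
  dif_neg h

theorem lam_on {n : ℕ} (i : Cl Γ n) (x : Fin n → ℝ) (k : Fin n) :
    lam i x ((Finset.equivFinOfCardEq i.2.2.1).symm k) = cl (x k) := by
  unfold lam
  rw [dif_pos ((Finset.equivFinOfCardEq i.2.2.1).symm k).2]
  simp

theorem cont_lam {n : ℕ} (i : Cl Γ n) (v : V) : Continuous fun x => lam i x v := by
  unfold lam
  split_ifs
  · exact cont_cl.comp (continuous_apply _)
  · exact continuous_const

theorem abs_lt_of_ball {n : ℕ} {x : Fin n → ℝ} (hx : x ∈ ball (0 : Fin n → ℝ) 1) (k : Fin n) :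
    |x k| < 1 := by
  rw [mem_ball_zero_iff] at hx
  exact (norm_le_pi_norm x k).trans_lt hx

theorem lam_ball {n : ℕ} (i : Cl Γ n) {x : Fin n → ℝ} (hx : x ∈ ball (0 : Fin n → ℝ) 1) (v : V) :
    lam i x v ∈ Ico (0 : ℝ) 1 ∧ (lam i x v ≠ 0 ↔ v ∈ i.2.1) := by
  unfold lam
  split_ifs with h
  · have := abs_lt_of_ball hx (Finset.equivFinOfCardEq i.2.2.1 ⟨v, h⟩)
    rw [cl_eq this.le]
    rw [abs_lt] at this
    exact ⟨⟨by linarith, by linarith⟩, iff_of_true (by linarith) h⟩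
  · exact ⟨⟨le_rfl, one_pos⟩, iff_of_false (by simp) h⟩

/-- a triangle containing the cell -/
noncomputable def tri {n : ℕ} (i : Cl Γ n) : Γ.Tri := i.2.2.2.choose

theorem co_lam {n : ℕ} (i : Cl Γ n) (x : Fin n → ℝ) :
    co Γ (tri i) (lam i x (tri i).a) (lam i x (tri i).b) (lam i x (tri i).c) = lam i x :=
  co_self Γ _ _ fun v hv => i.2.2.2.choose_spec v (by_contra fun h => hv (lam_off i x h))

/-- characteristic maps upstairs -/
noncomputable def Ph0 (o : V) {n : ℕ} (i : Cl Γ n) (x : Fin n → ℝ) : Γ.Es :=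
  ⟨Γ.cube (Γ.gen o ^ i.1) (tri i) (lam i x (tri i).a) (lam i x (tri i).b) (lam i x (tri i).c),
    _, _, _, _, _, lam_mem _ _ _, lam_mem _ _ _, lam_mem _ _ _, rfl⟩

theorem cont_Ph0 (o : V) {n : ℕ} (i : Cl Γ n) : Continuous (Ph0 o i) := by
  refine continuous_induced_rng.2 (continuous_pi fun h => ?_)
  have ha := cont_lam i (tri i).a
  have hb := cont_lam i (tri i).b
  have hc := cont_lam i (tri i).c
  simp only [Function.comp_apply, Ph0, cube_eq, Gr.sh]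
  fun_prop

/-- characteristic maps -/
noncomputable def Ph (o : V) (n : ℕ) (i : Cl Γ n) (x : Fin n → ℝ) : XQ Γ :=
  Quotient.mk _ (Ph0 o i x)

theorem F_Ph (o : V) (n : ℕ) (i : Cl Γ n) (x : Fin n → ℝ) :
    F Γ (Ph o n i x) = (fun v => (lam i x v : AddCircle (1 : ℝ)), (i.1 : ℝ) + ∑ v, lam i x v) := by
  refine (F0_cube Γ (Ph0 o i x) rfl).trans ?_
  rw [co_lam]
  simp

theorem Ph_uniq (o : V) (n : ℕ) (i : Cl Γ n) (m : ℕ) (j : Cl Γ m) (x : Fin n → ℝ)
    (hx : x ∈ ball (0 : Fin n → ℝ) 1) (y : Fin m → ℝ) (hy : y ∈ ball (0 : Fin m → ℝ) 1)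
    (h : Ph o n i x = Ph o m j y) :
    (⟨n, i, x⟩ : Σ n, Cl Γ n × (Fin n → ℝ)) = ⟨m, j, y⟩ := by
  have h1 := congrArg (F Γ) h
  rw [F_Ph, F_Ph] at h1
  have hl : lam i x = lam j y := funext fun v =>
    coe_inj (lam_ball i hx v).1 (lam_ball j hy v).1 (congrFun (Prod.mk.inj h1).1 v)
  have hk := (Prod.mk.inj h1).2
  rw [hl, add_left_inj, Int.cast_inj] at hk
  have hs : i.2.1 = j.2.1 := by
    ext v
    rw [← (lam_ball i hx v).2, ← (lam_ball j hy v).2, hl]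
  have hn : n = m := by rw [← i.2.2.1, ← j.2.2.1, hs]
  subst hn
  have hij : i = j := Prod.ext hk (Subtype.ext hs)
  subst hij
  have : x = y := by
    funext k
    have := congrFun hl ((Finset.equivFinOfCardEq i.2.2.1).symm k)
    rw [lam_on, lam_on, cl_eq (abs_lt_of_ball hx k).le, cl_eq (abs_lt_of_ball hy k).le] at this
    linarith
  rw [this]

theorem Ph_surj (o : V) (p : XQ Γ) :
    ∃ n i, ∃ x ∈ ball (0 : Fin n → ℝ) 1, Ph (Γ := Γ) o n i x = p := by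
  induction p using Quotient.ind with | _ μ =>
  obtain ⟨g, τ, x, y, z, hx, hy, hz, e⟩ := norm_form Γ μ
  have h0 : (0 : ℝ) ∈ Ico (0 : ℝ) 1 := ⟨le_rfl, one_pos⟩
  have hm := co_mem Γ h0 τ hx hy hz
  set l := co Γ τ x y z with hl
  let s : Finset V := Finset.univ.filter fun v => l v ≠ 0
  let i : Cl Γ s.card := (Multiplicative.toAdd (Γ.ht g), ⟨s, rfl, τ, fun v hv => by
    by_contra hn
    push Not at hn
    exact (Finset.mem_filter.1 hv).2 (co_off Γ τ x y z hn.1.symm hn.2.1.symm hn.2.2.symm)⟩)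
  let w : Fin s.card → ℝ := fun k => 2 * l ((Finset.equivFinOfCardEq i.2.2.1).symm k) - 1
  have hw : ∀ k, |w k| < 1 := by
    intro k
    have h1 := hm ((Finset.equivFinOfCardEq i.2.2.1).symm k)
    have h2 := (Finset.mem_filter.1 ((Finset.equivFinOfCardEq i.2.2.1).symm k).2).2
    have h3 := lt_of_le_of_ne h1.1 h2.symm
    rw [abs_lt]
    constructor <;> simp only [w] <;> linarith [h1.2]
  refine ⟨s.card, i, w, ?_, F_inj Γ ?_⟩
  · rw [mem_ball_zero_iff, pi_norm_lt_iff one_pos]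
    exact hw
  · have : lam i w = l := by
      funext v
      unfold lam
      split_ifs with h
      · rw [cl_eq (hw _).le]
        simp only [w, Equiv.symm_apply_apply]
        ring
      · by_contra hn
        exact h (Finset.mem_filter.2 ⟨Finset.mem_univ _, Ne.symm hn⟩)
    rw [F_Ph, this]
    exact (F0_cube Γ μ e).symm

theorem Ph_bd (o : V) (n : ℕ) (i : Cl Γ n) (m : ℕ) (j : Cl Γ m) (x : Fin n → ℝ)
    (hx : x ∈ sphere (0 : Fin n → ℝ) 1) (y : Fin m → ℝ) (hy : y ∈ ball (0 : Fin m → ℝ) 1)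
    (h : Ph o n i x = Ph o m j y) : m < n := by
  have h1 := congrArg (F Γ) h
  rw [F_Ph, F_Ph] at h1
  have hl := (Prod.mk.inj h1).1
  have h0 : (0 : ℝ) ∈ Ico (0 : ℝ) 1 := ⟨le_rfl, one_pos⟩
  have hz : ∀ v, (lam i x v : AddCircle (1 : ℝ)) = (0 : ℝ) → v ∉ j.2.1 := by
    intro v hv hj
    exact (lam_ball j hy v).2.2 hj
      (coe_inj (lam_ball j hy v).1 h0 ((congrFun hl v).symm.trans hv))
  obtain ⟨k, hk⟩ : ∃ k, |x k| = 1 := by
    rw [mem_sphere_zero_iff_norm] at hx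
    by_contra hn
    push Not at hn
    have : ‖x‖ < 1 := (pi_norm_lt_iff one_pos).2 fun k =>
      lt_of_le_of_ne ((norm_le_pi_norm x k).trans hx.le) (hn k)
    exact this.ne hx
  rw [← i.2.2.1, ← j.2.2.1]
  refine Finset.card_lt_card ⟨fun v hv => ?_, fun hsub => ?_⟩
  · by_contra hn
    exact hz v (by rw [lam_off i x hn]) hv
  · refine hz _ ?_ (hsub ((Finset.equivFinOfCardEq i.2.2.1).symm k).2)
    rw [lam_on, cl_eq hk.le]
    rcases abs_eq zero_le_one |>.1 hk with h2 | h2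
    · rw [h2]
      have := coe_int_add 1 0
      norm_num at this ⊢
    · rw [h2]
      norm_num

theorem Ph_lf (o : V) : LocallyFinite fun ni : Σ n, Cl Γ n => Ph o ni.1 ni.2 '' closedBall 0 1 := by
  intro p
  have hc : Continuous fun q => (F Γ q).2 := (cont_F Γ).snd
  refine ⟨{q | |(F Γ q).2 - (F Γ p).2| < 1},
    (isOpen_lt (hc.sub continuous_const).abs continuous_const).mem_nhds (by simp), ?_⟩
  let φ : (Σ n, Cl Γ n) → ℤ × Finset V := fun ni => (ni.2.1, ni.2.2.1)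
  have hφ : Function.Injective φ := by
    rintro ⟨n, i⟩ ⟨m, j⟩ h
    obtain ⟨h1, h2⟩ := Prod.mk.inj h
    have hn : n = m := by rw [← i.2.2.1, ← j.2.2.1]; exact congrArg _ h2
    subst hn
    have hij : i = j := Prod.ext h1 (Subtype.ext h2)
    rw [hij]
  refine (((finite_Icc (⌊(F Γ p).2⌋ - 1 - Fintype.card V) (⌊(F Γ p).2⌋ + 2)).prod
    (finite_univ (α := Finset V))).preimage hφ.injOn).subset ?_
  rintro ⟨n, i⟩ ⟨_, ⟨x, -, rfl⟩, hx⟩
  simp only [mem_ofPred_eq, F_Ph] at hx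
  have h1 : 0 ≤ ∑ v, lam i x v := Finset.sum_nonneg fun v _ => (lam_mem i x v).1
  have h2 : ∑ v, lam i x v ≤ Fintype.card V := by
    simpa using Finset.sum_le_card_nsmul Finset.univ (lam i x) 1 fun v _ => (lam_mem i x v).2
  rw [abs_lt] at hx
  have h3 := Int.floor_le (F Γ p).2
  have h4 := Int.lt_floor_add_one (F Γ p).2
  refine ⟨⟨?_, ?_⟩, mem_univ _⟩
  · have : ((⌊(F Γ p).2⌋ - 1 - Fintype.card V : ℤ) : ℝ) ≤ i.1 := by push_cast; linarith
    exact_mod_cast this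
  · have : (i.1 : ℝ) ≤ ((⌊(F Γ p).2⌋ + 2 : ℤ) : ℝ) := by push_cast; linarith
    exact_mod_cast this

omit [Fintype V] in
theorem Cl_emp (n : ℕ) (hn : 3 < n) : IsEmpty (Cl Γ n) := by
  refine ⟨fun i => ?_⟩
  obtain ⟨h1, τ, h2⟩ := i.2.2
  have : i.2.1 ⊆ {τ.a, τ.b, τ.c} := fun v hv => by simpa using h2 v hv
  have := (Finset.card_le_card this).trans Finset.card_le_three
  omega

end B1x

theorem jobB1 : JobB1 := by
  intro V _ _ Γ _ hc
  classical
  haveI := Fintype.ofFinite V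
  obtain ⟨o⟩ := ‹Nonempty V›
  obtain ⟨cw, hcw⟩ := B1x.exists_cw3 (B1x.Cl Γ) (B1x.Ph o) B1x.Cl_emp
    (fun n i => continuous_quotient_mk'.comp (B1x.cont_Ph0 o i)) (B1x.Ph_uniq o) (B1x.Ph_surj o)
    (B1x.Ph_bd o) (B1x.Ph_lf o)
  have hq := B1x.quot_cov Γ
  obtain ⟨μ⟩ : Nonempty Γ.Es := inferInstance
  exact ⟨B1x.XQ Γ, inferInstance, cw, inferInstance, hcw,
    ⟨Γ.Es, inferInstance, _, hc, hq.isCoveringMap, hq.surjective⟩, Quotient.mk _ μ,
    ⟨(hq.fundamentalGroupEquiv ⟨μ, rfl⟩).trans (MulEquiv.inv' Γ.G).symm⟩⟩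

end Crest.Agent.EG
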