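import Mathlib

/-! A criterion for a locally finite CW structure. -/

set_option autoImplicit false

open Metric Set

namespace Crest.Agent.EG.B1x

theorem exists_cw3 {X : Type} [TopologicalSpace X] [T2Space X] (cell : ℕ → Type)
    (Φ : ∀ n, cell n → (Fin n → ℝ) → X)
    (hemp : ∀ n, 3 < n → IsEmpty (cell n))
    (hc : ∀ n i, Continuous (Φ n i))
    (hu : ∀ n i m j, ∀ x ∈ ball (0 : Fin n → ℝ) 1, ∀ y ∈ ball (0 : Fin m → ℝ) 1,
      Φ n i x = Φ m j y → (⟨n, i, x⟩ : Σ n, cell n × (Fin n → ℝ)) = ⟨m, j, y⟩)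
    (hs : ∀ z, ∃ n i, ∃ x ∈ ball (0 : Fin n → ℝ) 1, Φ n i x = z)
    (hb : ∀ n i m j, ∀ x ∈ sphere (0 : Fin n → ℝ) 1, ∀ y ∈ ball (0 : Fin m → ℝ) 1,
      Φ n i x = Φ m j y → m < n)
    (hlf : LocallyFinite fun ni : Σ n, cell n => Φ ni.1 ni.2 '' closedBall 0 1) :
    ∃ _ : Topology.CWComplex (univ : Set X),
      ∀ n : ℕ, 3 < n → IsEmpty (Topology.RelCWComplex.cell (univ : Set X) n) := by
  have hinj : ∀ n i, InjOn (Φ n i) (ball 0 1) := by
    intro n i x hx y hy e
    have := hu n i n i x hx y hy e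
    exact (Prod.mk.inj (eq_of_heq (Sigma.mk.inj this).2)).2
  let map : ∀ n, cell n → PartialEquiv (Fin n → ℝ) X := fun n i =>
    (hinj n i).toPartialEquiv (Φ n i) (ball 0 1)
  have hcp : ∀ n i, IsCompact (Φ n i '' closedBall 0 1) := fun n i =>
    (isCompact_closedBall _ _).image (hc n i)
  have a1 : ∀ n i, (map n i).source = ball 0 1 := fun _ _ => rfl
  have a2 : ∀ n i, ContinuousOn (map n i) (closedBall 0 1) := fun n i => (hc n i).continuousOn
  have a3 : ∀ n i, ContinuousOn (map n i).symm (map n i).target := by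
    intro n i
    rw [continuousOn_iff_isClosed]
    intro C hC
    refine ⟨Φ n i '' (C ∩ closedBall 0 1),
      (((isCompact_closedBall _ _).inter_left hC).image (hc n i)).isClosed, ?_⟩
    ext z
    constructor
    · rintro ⟨hz, x, hx, rfl⟩
      have : (map n i).symm (Φ n i x) = x := (map n i).left_inv hx
      rw [mem_preimage, this] at hz
      exact ⟨⟨x, ⟨hz, ball_subset_closedBall hx⟩, rfl⟩, x, hx, rfl⟩
    · rintro ⟨⟨y, ⟨hy, hy'⟩, e⟩, x, hx, rfl⟩
      have : (map n i).symm (Φ n i x) = x := (map n i).left_inv hx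
      refine ⟨?_, x, hx, rfl⟩
      rw [mem_preimage, this]
      rw [← ball_union_sphere] at hy'
      rcases hy' with hy' | hy'
      · rwa [← hinj n i hy' hx e]
      · exact absurd (hb n i n i y hy' x hx e) (lt_irrefl _)
  have a4 : (univ : Set (Σ n, cell n)).PairwiseDisjoint
      (fun ni => map ni.1 ni.2 '' ball 0 1) := by
    rintro ⟨n, i⟩ - ⟨m, j⟩ - hne
    rw [Function.onFun, disjoint_left]
    rintro _ ⟨x, hx, rfl⟩ ⟨y, hy, e⟩
    have := hu m j n i y hy x hx e
    obtain ⟨rfl, h⟩ := Sigma.mk.inj this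
    obtain ⟨rfl, -⟩ := Prod.mk.inj (eq_of_heq h)
    exact hne rfl
  have a5 : ∀ n i, ∃ I : ∀ m, Finset (cell m), MapsTo (map n i) (sphere 0 1)
      (⋃ (m < n) (j ∈ I m), map m j '' closedBall 0 1) := by
    intro n i
    have hf := hlf.finite_nonempty_inter_compact (hcp n i)
    refine ⟨fun m => (hf.preimage (f := Sigma.mk m) sigma_mk_injective.injOn).toFinset,
      fun x hx => ?_⟩
    obtain ⟨m, j, y, hy, e⟩ := hs (Φ n i x)
    simp only [mem_iUnion]
    refine ⟨m, hb n i m j x hx y hy e.symm, j, ?_, y, ball_subset_closedBall hy, e⟩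
    rw [Finite.mem_toFinset]
    exact ⟨_, ⟨y, ball_subset_closedBall hy, e⟩, x, sphere_subset_closedBall hx, rfl⟩
  have a6 : ⋃ (n : ℕ) (j : cell n), map n j '' closedBall 0 1 = univ := by
    rw [eq_univ_iff_forall]
    intro z
    obtain ⟨m, j, y, hy, e⟩ := hs z
    simp only [mem_iUnion]
    exact ⟨m, j, y, ball_subset_closedBall hy, e⟩
  have a7 : ∀ A : Set X, A ⊆ univ →
      (∀ n j, IsClosed (A ∩ map n j '' closedBall 0 1)) → IsClosed A := by
    intro A _ hA
    have : A = ⋃ ni : Σ n, cell n, A ∩ Φ ni.1 ni.2 '' closedBall 0 1 := by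
      ext z
      simp only [mem_iUnion]
      constructor
      · intro hz
        obtain ⟨m, j, y, hy, e⟩ := hs z
        exact ⟨⟨m, j⟩, hz, y, ball_subset_closedBall hy, e⟩
      · rintro ⟨_, hz, -⟩
        exact hz
    rw [this]
    exact (hlf.subset fun _ => inter_subset_right).isClosed_iUnion fun ni => hA ni.1 ni.2
  exact ⟨⟨cell, map, a1, a2, a3, a4, a5, a7, a6⟩, hemp⟩

end Crest.Agent.EG.B1x
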