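import Crest.Agent.EG.B2a

/-! Row 197, job B2: the cube complex is contractible. -/

set_option autoImplicit false

open Set Filter Topology

namespace Crest.Agent.EG

namespace B2

open Gr

variable {V : Type} {Γ : Gr V} (ℓ : Γ.A → ℕ)

open Classical in
/-- descending directions at `p`, by rank -/
noncomputable def sd (p : Γ.A) (i : Fin 3) : Γ.A :=
  if h : ∃ t : V × Bool, ℓ (p * Γ.lt t) < ℓ p ∧ Γ.rk t.1 = i then Γ.lt h.choose else 1

theorem sd_spec (p : Γ.A) (i : Fin 3) :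
    sd ℓ p i = 1 ∨ ∃ t : V × Bool, ℓ (p * Γ.lt t) < ℓ p ∧ Γ.rk t.1 = i ∧ sd ℓ p i = Γ.lt t := by
  unfold sd
  split_ifs with h
  · exact Or.inr ⟨_, h.choose_spec.1, h.choose_spec.2, rfl⟩
  · exact Or.inl rfl

variable {ℓ}

theorem sd_eq (hℓ : Γ.Len ℓ) {p : Γ.A} {t : V × Bool} (ht : ℓ (p * Γ.lt t) < ℓ p) :
    sd ℓ p (Γ.rk t.1) = Γ.lt t := by
  have h : ∃ t' : V × Bool, ℓ (p * Γ.lt t') < ℓ p ∧ Γ.rk t'.1 = Γ.rk t.1 := ⟨t, ht, rfl⟩
  unfold sd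
  rw [dif_pos h]
  congr 1
  by_contra hn
  exact Γ.ne _ _ (hℓ.two p _ _ hn h.choose_spec.1 ht).1 h.choose_spec.2

theorem le_step (hℓ : Γ.Len ℓ) (g : Γ.A) {e : Γ.A} (he : e = 1 ∨ ∃ t, e = Γ.lt t) :
    ℓ (g * e) ≤ ℓ g + 1 := by
  rcases he with rfl | ⟨t, rfl⟩
  · simp
  · rcases hℓ.step g t with h | h <;> omega

theorem low3 (hℓ : Γ.Len ℓ) (p : Γ.A) (e : Fin 3 → Γ.A)
    (he : ∀ i, e i = 1 ∨ ∃ t : V × Bool, ℓ (p * Γ.lt t) < ℓ p ∧ Γ.rk t.1 = i ∧ e i = Γ.lt t) :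
    (∀ i, e i = 1) ∨ ℓ (p * e 0 * e 1 * e 2) < ℓ p := by
  have two : ∀ s t : V × Bool, ℓ (p * Γ.lt s) < ℓ p → ℓ (p * Γ.lt t) < ℓ p →
      Γ.rk s.1 ≠ Γ.rk t.1 → ℓ (p * Γ.lt s * Γ.lt t) + 2 = ℓ p := fun s t hs ht hn =>
    (hℓ.two p s t (fun h => hn (by rw [h])) hs ht).2
  rcases he 0 with h0 | ⟨t0, a0, b0, h0⟩ <;> rcases he 1 with h1 | ⟨t1, a1, b1, h1⟩ <;>
    rcases he 2 with h2 | ⟨t2, a2, b2, h2⟩
  · left; intro i; fin_cases i; exacts [h0, h1, h2]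
  · right; simpa [h0, h1, h2] using a2
  · right; simpa [h0, h1, h2] using a1
  · right; have := two _ _ a1 a2 (by rw [b1, b2]; decide); simp only [h0, h1, h2, mul_one]; omega
  · right; simpa [h0, h1, h2] using a0
  · right; have := two _ _ a0 a2 (by rw [b0, b2]; decide); simp only [h0, h1, h2, mul_one]; omega
  · right; have := two _ _ a0 a1 (by rw [b0, b1]; decide); simp only [h0, h1, h2, mul_one]; omega
  · right
    have := two _ _ a0 a1 (by rw [b0, b1]; decide)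
    have h3 := le_step hℓ (p * Γ.lt t0 * Γ.lt t1) (Or.inr ⟨t2, rfl⟩)
    simp only [h0, h1, h2]; omega

/-- coordinates of a vertex index -/
def bb (b : Bool × Bool × Bool) : Fin 3 → Bool := ![b.1, b.2.1, b.2.2]

theorem q_eq (p : Γ.A) (s : Fin 3 → Γ.A) (b : Bool × Bool × Bool) :
    q p s b = p * P (bb b 0) (s 0) * P (bb b 1) (s 1) * P (bb b 2) (s 2) := rfl

theorem w_ne {x : Fin 3 → ℝ} {b : Bool × Bool × Bool} (h : w x b ≠ 0) (i : Fin 3) :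
    W (bb b i) (x i) ≠ 0 := by
  simp only [w, mul_ne_zero_iff] at h
  fin_cases i
  exacts [h.1.1, h.1.2, h.2]

theorem q_low (hℓ : Γ.Len ℓ) (p : Γ.A) (b : Bool × Bool × Bool) :
    (∀ i, P (bb b i) (sd ℓ p i) = 1) ∨ ℓ (q p (sd ℓ p) b) < ℓ p := by
  refine low3 hℓ p (fun i => P (bb b i) (sd ℓ p i)) fun i => ?_
  cases bb b i
  · left; rfl
  · exact sd_spec ℓ p i

variable (ℓ) in
/-- the descending cube at `p` -/
def C (p : Γ.A) : Set (Γ.A → ℝ) := cb p (sd ℓ p) '' Set.pi univ fun _ => Icc (0 : ℝ) 1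

theorem C_closed (p : Γ.A) : IsClosed (C ℓ p) :=
  ((isCompact_univ_pi fun _ => isCompact_Icc).image (cb_cont _ _)).isClosed

theorem C_supp (hℓ : Γ.Len ℓ) {p : Γ.A} {μ : Γ.A → ℝ} (hμ : μ ∈ C ℓ p) {h : Γ.A} (H : μ h ≠ 0) :
    h = p ∨ ℓ h < ℓ p := by
  obtain ⟨x, -, rfl⟩ := hμ
  obtain ⟨b, -, rfl⟩ := cb_supp H
  rcases q_low hℓ p b with h1 | h1
  · left; simp [q_eq, h1]
  · exact Or.inr h1

theorem C_sub [Nonempty V] (hP : Γ.Pure) (hℓ : Γ.Len ℓ) (p : Γ.A) : C ℓ p ⊆ Γ.Es := by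
  classical
  rintro _ ⟨x, hx, rfl⟩
  obtain ⟨τ, hτ⟩ := clique hP {v | ∃ ε, ℓ (p * Γ.lt (v, ε)) < ℓ p} (by
    rintro u ⟨ε, hu⟩ v ⟨η, hv⟩ hn
    exact (hℓ.two p _ _ (fun h => hn (congrArg Prod.fst h)) hu hv).1)
  have : ∀ i, ∃ ε, sd ℓ p i = 1 ∨ sd ℓ p i = Γ.lt (vt τ i, ε) := by
    intro i
    rcases sd_spec ℓ p i with h | ⟨t, h1, h2, h3⟩
    · exact ⟨true, Or.inl h⟩
    · refine ⟨t.2, Or.inr ?_⟩
      rw [h3, ← h2, ← hτ t.1 ⟨t.2, h1⟩]
  choose ε hε using this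
  rw [cb_congr p (s' := fun i => Γ.lt (vt τ i, ε i))
    (x' := fun i => if sd ℓ p i = 1 then 0 else x i) fun i => by
      by_cases h : sd ℓ p i = 1
      · right; simp [h]
      · left; simp only [h, if_false, and_true]; exact (hε i).resolve_left h]
  refine cb_mem p τ ε fun i => ?_
  split_ifs
  · simp
  · exact hx i (mem_univ _)

theorem mem_C (hℓ : Γ.Len ℓ) {μ : Γ.A → ℝ} (hμ : μ ∈ Γ.Es) {p : Γ.A} (hp : μ p ≠ 0)
    (hmax : ∀ h, μ h ≠ 0 → ℓ h ≤ ℓ p) : μ ∈ C ℓ p := by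
  obtain ⟨τ, ε, x, hx, rfl⟩ := reb3 hμ hp
  have hx' : ∀ i, x i ∈ Icc (0 : ℝ) 1 := fun i => Ico_subset_Icc_self (hx i)
  have n1 : ∀ i, 1 - x i ≠ 0 := fun i => by linarith [(hx i).2]
  have key : ∀ i, x i ≠ 0 → cb p (fun i => Γ.lt (vt τ i, ε i)) x (p * Γ.lt (vt τ i, ε i)) ≠ 0 := by
    intro i hi
    fin_cases i
    · have := cb_ne (p := p) (s := fun i => Γ.lt (vt τ i, ε i)) hx' (b := (true, false, false))
        (mul_ne_zero (mul_ne_zero hi (n1 1)) (n1 2))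
      simpa [q, P] using this
    · have := cb_ne (p := p) (s := fun i => Γ.lt (vt τ i, ε i)) hx' (b := (false, true, false))
        (mul_ne_zero (mul_ne_zero (n1 0) hi) (n1 2))
      simpa [q, P] using this
    · have := cb_ne (p := p) (s := fun i => Γ.lt (vt τ i, ε i)) hx' (b := (false, false, true))
        (mul_ne_zero (mul_ne_zero (n1 0) (n1 1)) hi)
      simpa [q, P] using this
  refine ⟨x, fun i _ => hx' i, cb_congr p fun i => ?_⟩
  by_cases h : x i = 0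
  · right; simp [h]
  · left
    have h1 := hmax _ (key i h)
    have h2 : ℓ (p * Γ.lt (vt τ i, ε i)) < ℓ p := by
      rcases hℓ.step p (vt τ i, ε i) with h | h <;> omega
    have := sd_eq hℓ h2
    rw [rk_vt] at this
    exact ⟨this, rfl⟩

variable (Γ) in
/-- exponent sum of the generators of rank `i` -/
noncomputable def dd (i : Fin 3) (h : Γ.A) : ℝ :=
  ((Multiplicative.toAdd (Γ.wt (fun v => if Γ.rk v = i then 1 else 0) h) : ℤ) : ℝ)

theorem dd_mul (i : Fin 3) (g h : Γ.A) : dd Γ i (g * h) = dd Γ i g + dd Γ i h := by simp [dd]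

theorem dd_one (i : Fin 3) : dd Γ i 1 = 0 := by simp [dd]

theorem dd_lt (i : Fin 3) (t : V × Bool) :
    dd Γ i (Γ.lt t) = if Γ.rk t.1 = i then (if t.2 then 1 else -1) else 0 := by
  obtain ⟨v, ε⟩ := t
  cases ε <;> by_cases h : Γ.rk v = i <;> simp [dd, Gr.lt, h]

theorem dd_sd_ne (p : Γ.A) {i j : Fin 3} (h : j ≠ i) : dd Γ i (sd ℓ p j) = 0 := by
  rcases sd_spec ℓ p j with h1 | ⟨t, -, h2, h3⟩
  · rw [h1, dd_one]
  · rw [h3, dd_lt, h2, if_neg h]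

theorem dd_sd_self (p : Γ.A) {i : Fin 3} (h : sd ℓ p i ≠ 1) :
    dd Γ i (sd ℓ p i) * dd Γ i (sd ℓ p i) = 1 := by
  rcases sd_spec ℓ p i with h1 | ⟨t, -, h2, h3⟩
  · exact absurd h1 h
  · rw [h3, dd_lt, h2, if_pos rfl]; split_ifs <;> norm_num

variable (ℓ) in
open Classical in
/-- cube coordinates as continuous functions -/
noncomputable def lam (p : Γ.A) (μ : Γ.A → ℝ) (i : Fin 3) : ℝ :=
  dd Γ i (sd ℓ p i) * ∑ h ∈ Finset.univ.image (q p (sd ℓ p)), μ h * (dd Γ i h - dd Γ i p)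

theorem lam_cont (p : Γ.A) (i : Fin 3) : Continuous fun μ => lam ℓ p μ i := by
  unfold lam
  fun_prop

open Classical in
theorem lam_cb (p : Γ.A) (x : Fin 3 → ℝ) (i : Fin 3) :
    lam ℓ p (cb p (sd ℓ p) x) i = if sd ℓ p i = 1 then 0 else x i := by
  unfold lam
  rw [cb_ev p _ x _ (dd_mul i)]
  have : x 0 * dd Γ i (sd ℓ p 0) + x 1 * dd Γ i (sd ℓ p 1) + x 2 * dd Γ i (sd ℓ p 2) =
      x i * dd Γ i (sd ℓ p i) := by
    rw [← Fin.sum_univ_three (fun j => x j * dd Γ i (sd ℓ p j)), Finset.sum_eq_single i]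
    · intro j _ hj; rw [dd_sd_ne p hj, mul_zero]
    · simp
  rw [this]
  split_ifs with h
  · rw [h, dd_one, zero_mul]
  · rw [mul_left_comm, dd_sd_self p h, mul_one]

theorem C_nf {p : Γ.A} {μ : Γ.A → ℝ} (hμ : μ ∈ C ℓ p) :
    (∀ i, lam ℓ p μ i ∈ Icc (0 : ℝ) 1) ∧ (∀ i, sd ℓ p i = 1 → lam ℓ p μ i = 0) ∧
      cb p (sd ℓ p) (lam ℓ p μ) = μ := by
  obtain ⟨x, hx, rfl⟩ := hμ
  refine ⟨fun i => ?_, fun i hi => by rw [lam_cb, if_pos hi], cb_congr p fun i => ?_⟩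
  · rw [lam_cb]; split_ifs
    · simp
    · exact hx i (mem_univ _)
  · by_cases h : sd ℓ p i = 1
    · right; simp [h]
    · left; simp [lam_cb, h]

/-- clamp -/
noncomputable def cl (x : ℝ) : ℝ := max 0 (min 1 x)

theorem cl_mem (x : ℝ) : cl x ∈ Icc (0 : ℝ) 1 :=
  ⟨le_max_left _ _, max_le zero_le_one (min_le_left _ _)⟩

theorem cl_eq {x : ℝ} (hx : x ∈ Icc (0 : ℝ) 1) : cl x = x := by
  rw [cl, min_eq_right hx.2, max_eq_right hx.1]

variable (ℓ) in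
/-- the largest coordinate -/
noncomputable def mx (p : Γ.A) (μ : Γ.A → ℝ) : ℝ :=
  max (lam ℓ p μ 0) (max (lam ℓ p μ 1) (lam ℓ p μ 2))

theorem le_mx (p : Γ.A) (μ : Γ.A → ℝ) (i : Fin 3) : lam ℓ p μ i ≤ mx ℓ p μ := by
  fin_cases i
  · exact le_max_left _ _
  · exact (le_max_left _ _).trans (le_max_right _ _)
  · exact (le_max_right _ _).trans (le_max_right _ _)

theorem mx_eq (p : Γ.A) (μ : Γ.A → ℝ) : ∃ i, mx ℓ p μ = lam ℓ p μ i := by
  unfold mx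
  rcases max_choice (lam ℓ p μ 0) (max (lam ℓ p μ 1) (lam ℓ p μ 2)) with h | h
  · exact ⟨0, h⟩
  · rcases max_choice (lam ℓ p μ 1) (lam ℓ p μ 2) with h' | h'
    · exact ⟨1, h.trans h'⟩
    · exact ⟨2, h.trans h'⟩

variable (ℓ) in
/-- pushing away from the top vertex -/
noncomputable def R (p : Γ.A) (z : (Γ.A → ℝ) × ℝ) : Γ.A → ℝ :=
  cb p (sd ℓ p) fun i => cl (lam ℓ p z.1 i + z.2 * (1 - mx ℓ p z.1))

theorem R_cont (p : Γ.A) : Continuous (R ℓ p) := by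
  refine (cb_cont _ _).comp (continuous_pi fun i => ?_)
  have := fun i => (lam_cont (ℓ := ℓ) p i).comp (continuous_fst (X := Γ.A → ℝ) (Y := ℝ))
  unfold cl mx
  exact continuous_const.max (continuous_const.min ((this i).add (continuous_snd.mul
    (continuous_const.sub ((this 0).max ((this 1).max (this 2)))))))

theorem R_mem (p : Γ.A) (z : (Γ.A → ℝ) × ℝ) : R ℓ p z ∈ C ℓ p :=
  ⟨_, fun _ _ => cl_mem _, rfl⟩

theorem R_zero {p : Γ.A} {μ : Γ.A → ℝ} (hμ : μ ∈ C ℓ p) : R ℓ p (μ, 0) = μ := by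
  obtain ⟨h1, -, h3⟩ := C_nf hμ
  simp only [R, zero_mul, add_zero, cl_eq (h1 _)]
  exact h3

theorem R_fix {p : Γ.A} {μ : Γ.A → ℝ} (hμ : μ ∈ C ℓ p) (h0 : μ p = 0) (t : ℝ) :
    R ℓ p (μ, t) = μ := by
  obtain ⟨h1, -, h3⟩ := C_nf hμ
  have hm : mx ℓ p μ = 1 := by
    obtain ⟨j, hj⟩ := mx_eq (ℓ := ℓ) p μ
    refine le_antisymm (hj ▸ (h1 j).2) (not_lt.1 fun hlt => ?_)
    have n1 : ∀ i, 1 - lam ℓ p μ i ≠ 0 := fun i => by linarith [le_mx (ℓ := ℓ) p μ i]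
    have := cb_ne (p := p) (s := sd ℓ p) h1 (b := (false, false, false))
      (mul_ne_zero (mul_ne_zero (n1 0) (n1 1)) (n1 2))
    rw [h3] at this
    exact this (by simpa [q, P] using h0)
  simp only [R, hm, sub_self, mul_zero, add_zero, cl_eq (h1 _)]
  exact h3

theorem R_one (hℓ : Γ.Len ℓ) {p : Γ.A} (hp : p ≠ 1) {μ : Γ.A → ℝ} (hμ : μ ∈ C ℓ p) {h : Γ.A}
    (H : R ℓ p (μ, 1) h ≠ 0) : ℓ h < ℓ p := by
  obtain ⟨h1, h2, -⟩ := C_nf hμ
  have : ∃ i, sd ℓ p i ≠ 1 ∧ mx ℓ p μ = lam ℓ p μ i := by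
    obtain ⟨j, hj⟩ := mx_eq (ℓ := ℓ) p μ
    by_cases hs : sd ℓ p j = 1
    · obtain ⟨t, ht⟩ := hℓ.desc p hp
      refine ⟨Γ.rk t.1, ?_, le_antisymm ?_ (le_mx _ _ _)⟩
      · rw [sd_eq hℓ ht]; intro h; rw [h, mul_one] at ht; exact lt_irrefl _ ht
      · rw [hj, h2 j hs]; exact (h1 _).1
    · exact ⟨j, hs, hj⟩
  obtain ⟨i, hi, hm⟩ := this
  obtain ⟨b, hb, rfl⟩ := cb_supp H
  refine (q_low hℓ p b).resolve_left fun hq => ?_
  have h3 := w_ne hb i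
  have h4 := hq i
  simp only [hm, one_mul, add_sub_cancel, cl_eq (right_mem_Icc.2 zero_le_one)] at h3
  revert h3 h4
  cases bb b i
  · simp [W]
  · exact fun h4 _ => hi h4

theorem P_lt (b : Bool) {s : Γ.A} (hs : s = 1 ∨ ∃ t, s = Γ.lt t) :
    P b s = 1 ∨ ∃ t, P b s = Γ.lt t := by
  cases b
  · left; rfl
  · exact hs

end B2

open B2 in
theorem jobB2 (h : JobTEL) : JobB2 := by
  intro V _ _ Γ ℓ hℓ hP
  classical
  have hx₀ : dl (1 : Γ.A) ∈ Γ.Es := by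
    obtain ⟨τ, -⟩ := hP.vtx (Classical.arbitrary V)
    have := cb_mem (1 : Γ.A) τ (fun _ => true) (x := fun _ => 0) (by simp)
    simpa [cb] using this
  let B : ℕ → Set Γ.Es := fun n => {μ | ∀ g, μ.1 g ≠ 0 → ℓ g ≤ n}
  have hU : ∀ g : Γ.A, IsOpen {ν : Γ.Es | ν.1 g ≠ 0} := fun g =>
    isOpen_ne_fun ((continuous_apply g).comp continuous_subtype_val) continuous_const
  refine h Γ.Es B ⟨_, hx₀⟩ (fun m n hmn μ hμ g hg => (hμ g hg).trans hmn) (fun μ => ?_) ?_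
    fun n => ?_
  · obtain ⟨g, hg⟩ := exists_ne μ.2
    refine ⟨ℓ g + 3, mem_of_superset ((hU g).mem_nhds hg) fun ν hν g' hg' => ?_⟩
    obtain ⟨τ, ε, x, -, e⟩ := reb3 ν.2 hν
    rw [e] at hg'
    obtain ⟨b, -, rfl⟩ := cb_supp hg'
    have a := fun g b t => le_step hℓ g (P_lt b (Or.inr ⟨t, rfl⟩))
    unfold q
    refine (a _ _ _).trans (Nat.add_le_add_right (k := 1) (m := ℓ g + 2) ?_)
    refine (a _ _ _).trans (Nat.add_le_add_right (k := 1) (m := ℓ g + 1) ?_)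
    exact a _ _ _
  · ext μ
    constructor
    · intro hμ
      obtain ⟨g, hg⟩ := exists_ne μ.2
      have hg1 : g = 1 := hℓ.eq_one g (Nat.le_zero.1 (hμ g hg))
      subst hg1
      obtain ⟨x, -, e⟩ := mem_C hℓ μ.2 hg fun g' hg' => (hμ g' hg').trans (Nat.zero_le _)
      have hs : ∀ i, sd ℓ (1 : Γ.A) i = 1 := fun i =>
        (sd_spec ℓ 1 i).resolve_right fun ⟨t, ht, _⟩ => by rw [hℓ.one] at ht; omega
      refine Subtype.ext ?_
      rw [← e]; simp [cb, hs]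
    · rintro rfl g hg
      rw [dl_ne hg, hℓ.one]
  · let R' : Γ.A → Γ.Es × ℝ → Γ.Es := fun p z => ⟨R ℓ p (z.1.1, z.2), C_sub hP hℓ p (R_mem _ _)⟩
    have R'c : ∀ p, Continuous (R' p) := fun p =>
      ((R_cont p).comp (by fun_prop : Continuous fun z : Γ.Es × ℝ => (z.1.1, z.2))).subtype_mk _
    let H : Γ.Es × ℝ → Γ.Es := fun z =>
      if hz : ∃ p, ℓ p = n + 1 ∧ z.1.1 p ≠ 0 then R' hz.choose z else z.1
    have hB : ∀ μ ∈ B n, ∀ t, H (μ, t) = μ := fun μ hμ t =>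
      dif_neg fun ⟨p, h1, h2⟩ => by have := hμ p h2; omega
    have hC : ∀ p, ℓ p = n + 1 → ∀ μ : Γ.Es, μ.1 ∈ C ℓ p → ∀ t, H (μ, t) = R' p (μ, t) := by
      intro p hp μ hμ t
      by_cases hz : ∃ p, ℓ p = n + 1 ∧ μ.1 p ≠ 0
      · have e : hz.choose = p := (C_supp hℓ hμ hz.choose_spec.2).resolve_right
          (by rw [hz.choose_spec.1, hp]; exact lt_irrefl _)
        simp only [H, dif_pos hz, e]
      · simp only [H, dif_neg hz]
        refine Subtype.ext (R_fix hμ ?_ t).symm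
        by_contra h0
        exact hz ⟨p, hp, h0⟩
    have cov : ∀ μ ∈ B (n + 1), μ ∈ B n ∨ ∃ p, ℓ p = n + 1 ∧ μ.1 ∈ C ℓ p := by
      intro μ hμ
      by_cases hz : ∃ p, ℓ p = n + 1 ∧ μ.1 p ≠ 0
      · obtain ⟨p, h1, h2⟩ := hz
        exact Or.inr ⟨p, h1, mem_C hℓ μ.2 h2 fun g hg => h1 ▸ hμ g hg⟩
      · left
        intro g hg
        have h1 := hμ g hg
        have h2 : ℓ g ≠ n + 1 := fun h => hz ⟨g, h, hg⟩
        omega
    refine ⟨H, ?_, fun μ hμ => ?_, fun μ hμ => ?_, fun μ hμ t _ => ?_, fun μ hμ t _ => hB μ hμ t⟩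
    · let D : {p // ℓ p = n + 1} → Set Γ.Es := fun p => Subtype.val ⁻¹' C ℓ p.1
      have Dc : ∀ p, IsClosed (D p) := fun p => (C_closed _).preimage continuous_subtype_val
      have Dl : LocallyFinite D := by
        intro μ
        obtain ⟨g, hg⟩ := exists_ne μ.2
        refine ⟨_, (hU g).mem_nhds hg, ?_⟩
        let T : Set Γ.A := insert 1 (range Γ.lt)
        have hT : T.Finite := (finite_range _).insert _
        refine Finite.of_finite_image (f := Subtype.val) ?_ Subtype.val_injective.injOn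
        refine (((hT.prod (hT.prod hT))).image
          fun e : Γ.A × Γ.A × Γ.A => g * e.2.2⁻¹ * e.2.1⁻¹ * e.1⁻¹).subset ?_
        rintro _ ⟨p, ⟨ν, ⟨x, -, e⟩, hν⟩, rfl⟩
        have hν : ν.1 g ≠ 0 := hν
        rw [← e] at hν
        obtain ⟨b, -, hb⟩ := cb_supp hν
        have m : ∀ c i, P c (sd ℓ p.1 i) ∈ T := fun c i => by
          rcases P_lt c (s := sd ℓ p.1 i) ((sd_spec ℓ p.1 i).imp_right
            fun ⟨t, _, _, ht⟩ => ⟨t, ht⟩) with h | ⟨t, h⟩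
          · exact Or.inl h
          · exact Or.inr ⟨t, h.symm⟩
        exact ⟨(P b.1 (sd ℓ p.1 0), P b.2.1 (sd ℓ p.1 1), P b.2.2 (sd ℓ p.1 2)),
          ⟨m b.1 0, m b.2.1 1, m b.2.2 2⟩, by simp [hb, q]⟩
      have Bc : IsClosed (B n) := by
        have : B n = ⋂ g, ⋂ _ : n < ℓ g, {ν : Γ.Es | ν.1 g ≠ 0}ᶜ := by
          ext μ
          simp only [B, mem_ofPred_eq, mem_iInter, mem_compl_iff]
          exact forall_congr' fun g => ⟨fun h h1 h2 => absurd (h h2) (not_le.2 h1),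
            fun h h1 => not_lt.1 fun h2 => h h2 h1⟩
        rw [this]
        exact isClosed_iInter fun g => isClosed_iInter fun _ => (hU g).isClosed_compl
      have c1 : ContinuousOn H (B n ×ˢ univ) :=
        continuous_fst.continuousOn.congr fun z hz => hB z.1 hz.1 z.2
      have Dl' := Dl.prod_right fun _ => (univ : Set ℝ)
      have c2 : ContinuousOn H (⋃ p, D p ×ˢ univ) :=
        Dl'.continuousOn_iUnion (fun p => (Dc p).prod isClosed_univ) fun p =>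
          (R'c p.1).continuousOn.congr fun z hz => hC p.1 p.2 z.1 hz.1 z.2
      refine (c1.union_of_isClosed c2 (Bc.prod isClosed_univ)
        (Dl'.isClosed_iUnion fun p => (Dc p).prod isClosed_univ)).mono fun z hz => ?_
      rcases cov z.1 hz.1 with h1 | ⟨p, h1, h2⟩
      · exact Or.inl ⟨h1, mem_univ _⟩
      · exact Or.inr (mem_iUnion.2 ⟨⟨p, h1⟩, h2, mem_univ _⟩)
    · rcases cov μ hμ with h1 | ⟨p, h1, h2⟩
      · exact hB μ h1 0
      · rw [hC p h1 μ h2]; exact Subtype.ext (R_zero h2)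
    · rcases cov μ hμ with h1 | ⟨p, h1, h2⟩
      · rw [hB μ h1]; exact h1
      · rw [hC p h1 μ h2]
        intro g hg
        have := R_one hℓ (p := p) (fun h => by rw [h, hℓ.one] at h1; omega) h2 hg
        omega
    · rcases cov μ hμ with h1 | ⟨p, h1, h2⟩
      · rw [hB μ h1]; exact hμ
      · rw [hC p h1 μ h2]
        intro g hg
        rcases C_supp hℓ (R_mem p _) hg with h | h
        · rw [h, h1]
        · omega

end Crest.Agent.EG
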