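import Crest.Agent.EG.DefsR

/-! Row 197, job B2: cubes as functions on the vertices. -/

set_option autoImplicit false

open Set

namespace Crest.Agent.EG.B2

open Gr

variable {V : Type} {Γ : Gr V}

open Classical in
/-- Dirac function -/
noncomputable def dl (q : Γ.A) : Γ.A → ℝ := Pi.single q 1

/-- translation -/
def tr (s : Γ.A) (μ : Γ.A → ℝ) : Γ.A → ℝ := fun h => μ (h * s⁻¹)

theorem dl_nonneg (q h : Γ.A) : 0 ≤ dl q h := by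
  classical
  simp only [dl, Pi.single_apply]; split_ifs <;> norm_num

@[simp] theorem dl_self (q : Γ.A) : dl q q = 1 := by simp [dl]

theorem dl_ne {q h : Γ.A} (H : dl q h ≠ 0) : h = q := by
  by_contra hn
  exact H (by simp [dl, hn])

theorem dl_mul (q h s : Γ.A) : dl q (h * s⁻¹) = dl (q * s) h := by
  classical
  simp only [dl, Pi.single_apply, mul_inv_eq_iff_eq_mul]

theorem tr_dl (q s : Γ.A) : tr s (dl q) = dl (q * s) := funext fun h => dl_mul q h s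

theorem sh_flip (s : Γ.A) (r : ℝ) (μ : Γ.A → ℝ) : Γ.sh s r μ = Γ.sh s⁻¹ (1 - r) (tr s μ) := by
  funext h; simp [sh, tr]; ring

theorem tr_sh {s t : Γ.A} (h : Commute s t) (r : ℝ) (μ : Γ.A → ℝ) :
    tr s (Γ.sh t r μ) = Γ.sh t r (tr s μ) := by
  funext g; simp [sh, tr, mul_assoc, h.inv_inv.eq]

@[simp] theorem sh_zero (s : Γ.A) (μ : Γ.A → ℝ) : Γ.sh s 0 μ = μ := by funext h; simp [sh]

@[simp] theorem sh_one (r : ℝ) (μ : Γ.A → ℝ) : Γ.sh 1 r μ = μ := by funext h; simp [sh]; ring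

theorem lt_not (v : V) (ε : Bool) : Γ.lt (v, !ε) = (Γ.lt (v, ε))⁻¹ := by
  cases ε <;> simp [Gr.lt]

theorem lt_comm {a b : V} (h : Γ.adj a b) (ε η : Bool) : Commute (Γ.lt (a, ε)) (Γ.lt (b, η)) := by
  have := Γ.gen_comm h
  cases ε <;> cases η <;> simp [Gr.lt, this]

theorem split {s : Γ.A} {r : ℝ} (hr : r ∈ Icc (0 : ℝ) 1) {ν : Γ.A → ℝ} {p : Γ.A}
    (h : Γ.sh s r ν p ≠ 0) : (r ∈ Ico (0 : ℝ) 1 ∧ ν p ≠ 0) ∨ (1 - r ∈ Ico (0 : ℝ) 1 ∧ tr s ν p ≠ 0) := by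
  by_cases h1 : (1 - r) * ν p = 0
  · right
    have h2 : r * ν (p * s⁻¹) ≠ 0 := by simpa [sh, h1] using h
    rw [mul_ne_zero_iff] at h2
    exact ⟨⟨by linarith [hr.2], by linarith [lt_of_le_of_ne hr.1 h2.1.symm]⟩, h2.2⟩
  · left
    rw [← ne_eq, mul_ne_zero_iff] at h1
    exact ⟨⟨hr.1, lt_of_le_of_ne hr.2 fun h => h1.1 (by simp [h])⟩, h1.2⟩

theorem reb1 {a : V} {g p : Γ.A} {ε : Bool} {x : ℝ} (hx : x ∈ Icc (0 : ℝ) 1)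
    (h : Γ.sh (Γ.lt (a, ε)) x (dl g) p ≠ 0) :
    ∃ ε', ∃ x' ∈ Ico (0 : ℝ) 1, Γ.sh (Γ.lt (a, ε)) x (dl g) = Γ.sh (Γ.lt (a, ε')) x' (dl p) := by
  rcases split hx h with ⟨h1, h2⟩ | ⟨h1, h2⟩
  · exact ⟨ε, x, h1, by rw [dl_ne h2]⟩
  · rw [tr_dl] at h2
    exact ⟨!ε, 1 - x, h1, by rw [sh_flip, tr_dl, lt_not, dl_ne h2]⟩

theorem reb2 {a b : V} (hab : Γ.adj a b) {g p : Γ.A} {ε η : Bool} {x y : ℝ}
    (hx : x ∈ Icc (0 : ℝ) 1) (hy : y ∈ Icc (0 : ℝ) 1)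
    (h : Γ.sh (Γ.lt (b, η)) y (Γ.sh (Γ.lt (a, ε)) x (dl g)) p ≠ 0) :
    ∃ ε' η', ∃ x' ∈ Ico (0 : ℝ) 1, ∃ y' ∈ Ico (0 : ℝ) 1,
      Γ.sh (Γ.lt (b, η)) y (Γ.sh (Γ.lt (a, ε)) x (dl g)) =
      Γ.sh (Γ.lt (b, η')) y' (Γ.sh (Γ.lt (a, ε')) x' (dl p)) := by
  rcases split hy h with ⟨h1, h2⟩ | ⟨h1, h2⟩
  · obtain ⟨ε', x', hx', e⟩ := reb1 hx h2
    exact ⟨ε', η, x', hx', y, h1, by rw [e]⟩
  · rw [tr_sh (lt_comm hab ε η).symm, tr_dl] at h2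
    obtain ⟨ε', x', hx', e⟩ := reb1 hx h2
    exact ⟨ε', !η, x', hx', 1 - y, h1, by
      rw [sh_flip (Γ.lt (b, η)), tr_sh (lt_comm hab ε η).symm, tr_dl, lt_not, e]⟩

/-- a cube based at `p` with edge directions `s` -/
noncomputable def cb (p : Γ.A) (s : Fin 3 → Γ.A) (x : Fin 3 → ℝ) : Γ.A → ℝ :=
  Γ.sh (s 2) (x 2) (Γ.sh (s 1) (x 1) (Γ.sh (s 0) (x 0) (dl p)))

/-- vertices of a triangle -/
def vt (τ : Γ.Tri) : Fin 3 → V := ![τ.a, τ.b, τ.c]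

theorem rk_vt (τ : Γ.Tri) (i : Fin 3) : Γ.rk (vt τ i) = i := by
  fin_cases i
  · exact τ.2.2.2.2.1
  · exact τ.2.2.2.2.2.1
  · exact τ.2.2.2.2.2.2

theorem reb3 {μ : Γ.A → ℝ} (hμ : μ ∈ Γ.Es) {p : Γ.A} (h : μ p ≠ 0) :
    ∃ (τ : Γ.Tri) (ε : Fin 3 → Bool) (x : Fin 3 → ℝ), (∀ i, x i ∈ Ico (0 : ℝ) 1) ∧
      μ = cb p (fun i => Γ.lt (vt τ i, ε i)) x := by
  obtain ⟨g, τ, x, y, z, hx, hy, hz, rfl⟩ := hμ
  have hab : Γ.adj τ.a τ.b := τ.2.1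
  have hbc : Γ.adj τ.b τ.c := τ.2.2.1
  have hac : Γ.adj τ.a τ.c := τ.2.2.2.1
  have e0 : Γ.cube g τ x y z = Γ.sh (Γ.lt (τ.c, true)) z (Γ.sh (Γ.lt (τ.b, true)) y
    (Γ.sh (Γ.lt (τ.a, true)) x (dl g))) := rfl
  rw [e0] at h ⊢
  rcases split hz h with ⟨h1, h2⟩ | ⟨h1, h2⟩
  · obtain ⟨ε', η', x', hx', y', hy', e⟩ := reb2 hab hx hy h2
    refine ⟨τ, ![ε', η', true], ![x', y', z], fun i => by fin_cases i <;> simpa, ?_⟩
    rw [e]; rfl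
  · rw [tr_sh (lt_comm hbc _ _).symm, tr_sh (lt_comm hac _ _).symm, tr_dl] at h2
    obtain ⟨ε', η', x', hx', y', hy', e⟩ := reb2 hab hx hy h2
    refine ⟨τ, ![ε', η', !true], ![x', y', 1 - z], fun i => by
      fin_cases i
      exacts [hx', hy', h1], ?_⟩
    rw [sh_flip (Γ.lt (τ.c, true)), tr_sh (lt_comm hbc _ _).symm, tr_sh (lt_comm hac _ _).symm,
      tr_dl, e, ← lt_not]
    rfl

theorem cb_mem (p : Γ.A) (τ : Γ.Tri) (ε : Fin 3 → Bool) {x : Fin 3 → ℝ}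
    (hx : ∀ i, x i ∈ Icc (0 : ℝ) 1) : cb p (fun i => Γ.lt (vt τ i, ε i)) x ∈ Γ.Es := by
  have hab : Γ.adj τ.a τ.b := τ.2.1
  have hbc : Γ.adj τ.b τ.c := τ.2.2.1
  have hac : Γ.adj τ.a τ.c := τ.2.2.2.1
  have fl : ∀ r ∈ Icc (0 : ℝ) 1, 1 - r ∈ Icc (0 : ℝ) 1 := fun r hr =>
    ⟨by linarith [hr.2], by linarith [hr.1]⟩
  have k1 : ∀ (p : Γ.A) (ε : Bool), ∀ x ∈ Icc (0 : ℝ) 1, ∃ g, ∃ x' ∈ Icc (0 : ℝ) 1,
      Γ.sh (Γ.lt (τ.a, ε)) x (dl p) = Γ.sh (Γ.lt (τ.a, true)) x' (dl g) := by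
    intro p ε x hx
    cases ε
    · exact ⟨_, 1 - x, fl x hx, by rw [sh_flip, tr_dl, ← lt_not]; rfl⟩
    · exact ⟨p, x, hx, rfl⟩
  have k2 : ∀ (p : Γ.A) (ε η : Bool), ∀ x ∈ Icc (0 : ℝ) 1, ∀ y ∈ Icc (0 : ℝ) 1,
      ∃ g, ∃ x' ∈ Icc (0 : ℝ) 1, ∃ y' ∈ Icc (0 : ℝ) 1,
      Γ.sh (Γ.lt (τ.b, η)) y (Γ.sh (Γ.lt (τ.a, ε)) x (dl p)) =
      Γ.sh (Γ.lt (τ.b, true)) y' (Γ.sh (Γ.lt (τ.a, true)) x' (dl g)) := by
    intro p ε η x hx y hy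
    cases η
    · obtain ⟨g, x', hx', e⟩ := k1 (p * Γ.lt (τ.b, false)) ε x hx
      exact ⟨g, x', hx', 1 - y, fl y hy, by
        rw [sh_flip (Γ.lt (τ.b, false)), tr_sh (lt_comm hab _ _).symm, tr_dl, ← lt_not, e]; rfl⟩
    · obtain ⟨g, x', hx', e⟩ := k1 p ε x hx
      exact ⟨g, x', hx', y, hy, by rw [e]⟩
  have e0 : cb p (fun i => Γ.lt (vt τ i, ε i)) x = Γ.sh (Γ.lt (τ.c, ε 2)) (x 2)
    (Γ.sh (Γ.lt (τ.b, ε 1)) (x 1) (Γ.sh (Γ.lt (τ.a, ε 0)) (x 0) (dl p))) := rfl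
  rw [e0]
  cases ε 2
  · obtain ⟨g, x', hx', y', hy', e⟩ := k2 (p * Γ.lt (τ.c, false)) (ε 0) (ε 1) _ (hx 0) _ (hx 1)
    refine ⟨g, τ, x', y', 1 - x 2, hx', hy', fl _ (hx 2), ?_⟩
    rw [sh_flip (Γ.lt (τ.c, false)), tr_sh (lt_comm hbc _ _).symm, tr_sh (lt_comm hac _ _).symm,
      tr_dl, ← lt_not, e]
    rfl
  · obtain ⟨g, x', hx', y', hy', e⟩ := k2 p (ε 0) (ε 1) _ (hx 0) _ (hx 1)
    exact ⟨g, τ, x', y', x 2, hx', hy', hx 2, by rw [e]; rfl⟩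

/-- weights -/
def W (b : Bool) (x : ℝ) : ℝ := if b then x else 1 - x

/-- factors -/
def P (b : Bool) (s : Γ.A) : Γ.A := if b then s else 1

/-- vertices of a cube -/
def q (p : Γ.A) (s : Fin 3 → Γ.A) (b : Bool × Bool × Bool) : Γ.A :=
  p * P b.1 (s 0) * P b.2.1 (s 1) * P b.2.2 (s 2)

/-- weight of a vertex -/
def w (x : Fin 3 → ℝ) (b : Bool × Bool × Bool) : ℝ := W b.1 (x 0) * W b.2.1 (x 1) * W b.2.2 (x 2)

theorem cb_eq (p : Γ.A) (s : Fin 3 → Γ.A) (x : Fin 3 → ℝ) (h : Γ.A) :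
    cb p s x h = ∑ b, w x b * dl (q p s b) h := by
  simp only [cb, sh, dl_mul, Fintype.sum_prod_type, Fintype.sum_bool, w, W, q, P, if_true,
    Bool.false_eq_true, if_false, mul_one]
  ring

theorem w_nonneg {x : Fin 3 → ℝ} (hx : ∀ i, x i ∈ Icc (0 : ℝ) 1) (b : Bool × Bool × Bool) :
    0 ≤ w x b := by
  have : ∀ b i, 0 ≤ W b (x i) := fun b i => by
    unfold W; split_ifs
    · exact (hx i).1
    · linarith [(hx i).2]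
  exact mul_nonneg (mul_nonneg (this _ _) (this _ _)) (this _ _)

theorem cb_ne {p : Γ.A} {s : Fin 3 → Γ.A} {x : Fin 3 → ℝ} (hx : ∀ i, x i ∈ Icc (0 : ℝ) 1)
    {b : Bool × Bool × Bool} (hb : w x b ≠ 0) : cb p s x (q p s b) ≠ 0 := by
  have := Finset.single_le_sum (f := fun c => w x c * dl (q p s c) (q p s b))
    (fun c _ => mul_nonneg (w_nonneg hx c) (dl_nonneg _ _)) (Finset.mem_univ b)
  rw [← cb_eq, dl_self, mul_one] at this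
  exact (lt_of_lt_of_le (lt_of_le_of_ne (w_nonneg hx b) hb.symm) this).ne'

theorem cb_supp {p : Γ.A} {s : Fin 3 → Γ.A} {x : Fin 3 → ℝ} {h : Γ.A} (H : cb p s x h ≠ 0) :
    ∃ b, w x b ≠ 0 ∧ h = q p s b := by
  rw [cb_eq] at H
  obtain ⟨b, -, hb⟩ := Finset.exists_ne_zero_of_sum_ne_zero H
  rw [mul_ne_zero_iff] at hb
  exact ⟨b, hb.1, dl_ne hb.2⟩

theorem cb_cont (p : Γ.A) (s : Fin 3 → Γ.A) : Continuous (cb p s) := by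
  refine continuous_pi fun h => ?_
  simp only [cb, sh]
  fun_prop

theorem cb_congr (p : Γ.A) {s s' : Fin 3 → Γ.A} {x x' : Fin 3 → ℝ}
    (h : ∀ i, (s i = s' i ∧ x i = x' i) ∨ ((s i = 1 ∨ x i = 0) ∧ (s' i = 1 ∨ x' i = 0))) :
    cb p s x = cb p s' x' := by
  have : ∀ i μ, Γ.sh (s i) (x i) μ = Γ.sh (s' i) (x' i) μ := by
    intro i μ
    rcases h i with ⟨h1, h2⟩ | ⟨h1 | h1, h2 | h2⟩ <;> simp [h1, h2]
  simp only [cb, this]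

theorem exists_ne {μ : Γ.A → ℝ} (hμ : μ ∈ Γ.Es) : ∃ h, μ h ≠ 0 := by
  obtain ⟨g, τ, x, y, z, hx, hy, hz, rfl⟩ := hμ
  have e0 : Γ.cube g τ x y z = cb g ![Γ.gen τ.a, Γ.gen τ.b, Γ.gen τ.c] ![x, y, z] := rfl
  have : ∀ x : ℝ, ∃ b, W b x ≠ 0 := fun x => by
    by_cases h : x = 0
    · exact ⟨false, by simp [W, h]⟩
    · exact ⟨true, by simp [W, h]⟩
  obtain ⟨b0, h0⟩ := this x
  obtain ⟨b1, h1⟩ := this y
  obtain ⟨b2, h2⟩ := this z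
  exact ⟨_, e0 ▸ cb_ne (b := (b0, b1, b2)) (fun i => by fin_cases i <;> simpa)
    (mul_ne_zero (mul_ne_zero h0 h1) h2)⟩

open Classical in
theorem cb_ev (p : Γ.A) (s : Fin 3 → Γ.A) (x : Fin 3 → ℝ) (d : Γ.A → ℝ)
    (hd : ∀ g h, d (g * h) = d g + d h) :
    ∑ h ∈ Finset.univ.image (q p s), cb p s x h * (d h - d p) =
      x 0 * d (s 0) + x 1 * d (s 1) + x 2 * d (s 2) := by
  have : ∀ b, ∑ h ∈ Finset.univ.image (q p s), w x b * dl (q p s b) h * (d h - d p) =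
      w x b * (d (q p s b) - d p) := by
    intro b
    rw [Finset.sum_eq_single (q p s b)]
    · simp
    · intro h _ hn
      rw [show dl (q p s b) h = 0 from by_contra fun H => hn (dl_ne H)]; simp
    · intro hn; exact absurd (Finset.mem_image_of_mem _ (Finset.mem_univ b)) hn
  have d1 : d 1 = 0 := by have := hd 1 1; simp only [mul_one] at this; linarith
  simp only [cb_eq, Finset.sum_mul]
  rw [Finset.sum_comm, Finset.sum_congr rfl fun b _ => this b]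
  simp only [Fintype.sum_prod_type, Fintype.sum_bool, w, W, q, P, if_true,
    Bool.false_eq_true, if_false, hd, d1]
  ring

theorem clique [Nonempty V] (hP : Γ.Pure) (S : Set V)
    (hS : ∀ u ∈ S, ∀ v ∈ S, u ≠ v → Γ.adj u v) : ∃ τ : Γ.Tri, ∀ v ∈ S, v = vt τ (Γ.rk v) := by
  have uq : ∀ u ∈ S, ∀ v ∈ S, Γ.rk u = Γ.rk v → u = v := fun u hu v hv h =>
    by_contra fun hn => Γ.ne u v (hS u hu v hv hn) h
  have fin : ∀ τ : Γ.Tri, (∀ v ∈ S, ∃ i, v = vt τ i) → ∀ v ∈ S, v = vt τ (Γ.rk v) := by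
    intro τ h v hv
    obtain ⟨i, hi⟩ := h v hv
    rw [hi, rk_vt]
  have abc : ∀ (τ : Γ.Tri) v, v = τ.a ∨ v = τ.b ∨ v = τ.c → ∃ i, v = vt τ i := by
    rintro τ v (h | h | h)
    exacts [⟨0, h⟩, ⟨1, h⟩, ⟨2, h⟩]
  by_cases h3 : ∃ a ∈ S, ∃ b ∈ S, ∃ c ∈ S, Γ.rk a = 0 ∧ Γ.rk b = 1 ∧ Γ.rk c = 2
  · obtain ⟨a, ha, b, hb, c, hc, ra, rb, rc⟩ := h3
    have n1 : a ≠ b := fun h => by rw [h, rb] at ra; exact absurd ra (by decide)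
    have n2 : b ≠ c := fun h => by rw [h, rc] at rb; exact absurd rb (by decide)
    have n3 : a ≠ c := fun h => by rw [h, rc] at ra; exact absurd ra (by decide)
    refine ⟨⟨(a, b, c), hS a ha b hb n1, hS b hb c hc n2, hS a ha c hc n3, ra, rb, rc⟩,
      fun v hv => uq v hv _ ?_ (rk_vt _ _).symm⟩
    generalize Γ.rk v = i
    fin_cases i
    exacts [ha, hb, hc]
  by_cases h2 : ∃ a ∈ S, ∃ b ∈ S, Γ.rk a < Γ.rk b
  · obtain ⟨a, ha, b, hb, hab⟩ := h2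
    have n1 : a ≠ b := fun h => by rw [h] at hab; exact lt_irrefl _ hab
    obtain ⟨τ, hτ⟩ := hP.edg ⟨(a, b), hS a ha b hb n1, hab⟩
    have hv : ∀ v ∈ S, v = a ∨ v = b := by
      intro v hv
      by_contra hn
      push Not at hn
      have r1 : Γ.rk v ≠ Γ.rk a := fun h => hn.1 (uq v hv a ha h)
      have r2 : Γ.rk v ≠ Γ.rk b := fun h => hn.2 (uq v hv b hb h)
      apply h3
      have : ∀ i j k : Fin 3, j < k → i ≠ j → i ≠ k →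
        (i = 0 ∧ j = 1 ∧ k = 2) ∨ (j = 0 ∧ i = 1 ∧ k = 2) ∨ (j = 0 ∧ k = 1 ∧ i = 2) := by decide
      rcases this _ _ _ hab r1 r2 with h | h | h
      exacts [⟨v, hv, a, ha, b, hb, h⟩, ⟨a, ha, v, hv, b, hb, h⟩, ⟨a, ha, b, hb, v, hv, h⟩]
    refine ⟨τ, fin τ fun v hv' => abc τ v ?_⟩
    rcases hτ with h | h | h <;> have h' := congrArg Subtype.val h <;>
      simp only [Tri.ab, Tri.bc, Tri.ac, Prod.mk.injEq] at h' <;>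
      rcases hv v hv' with rfl | rfl <;> simp [h'.1, h'.2]
  rcases S.eq_empty_or_nonempty with rfl | ⟨a, ha⟩
  · obtain ⟨τ, -⟩ := hP.vtx (Classical.arbitrary V)
    exact ⟨τ, by simp⟩
  · obtain ⟨τ, hτ⟩ := hP.vtx a
    refine ⟨τ, fin τ fun v hv => abc τ v ?_⟩
    have : v = a := uq v hv a ha (le_antisymm (not_lt.1 fun h => h2 ⟨a, ha, v, hv, h⟩)
      (not_lt.1 fun h => h2 ⟨v, hv, a, ha, h⟩))
    rwa [this]

end Crest.Agent.EG.B2
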