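import Mathlib
import Crest.Agent.GSC.TopoAlg

/-! Row 197 (S0300): basic algebra (holonomy of words, Fox chains, presentation-like complexes). -/

set_option autoImplicit false

namespace Crest.Agent.EG

open Crest.Agent.GSC.Topo (sev scl)

section Hol
variable {G P U : Type} [Group G] [Group U]

/-- the permutation of `G × U` given by a letter: `(g, c) ↦ (g * π s, c * θ g s)` -/
def holStep (π : FreeGroup P →* G) (θ : G → P → U) (s : P) : Equiv.Perm (G × U) where
  toFun p := (p.1 * π (FreeGroup.of s), p.2 * θ p.1 s)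
  invFun p := (p.1 * (π (FreeGroup.of s))⁻¹, p.2 * (θ (p.1 * (π (FreeGroup.of s))⁻¹) s)⁻¹)
  left_inv p := by simp
  right_inv p := by simp

/-- right action of the free group on `G × U` -/
def holAct (π : FreeGroup P →* G) (θ : G → P → U) (x : FreeGroup P) : Equiv.Perm (G × U) :=
  (FreeGroup.lift (fun s => (holStep π θ s)⁻¹) x)⁻¹

theorem holAct_mul (π : FreeGroup P →* G) (θ : G → P → U) (x y : FreeGroup P) (p : G × U) :
    holAct π θ (x * y) p = holAct π θ y (holAct π θ x p) := by
  simp [holAct]

/-- holonomy of the edge labelling `θ` along the word `x` read from the vertex `g` of the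
Cayley graph (the edge `(g, s)` goes from `g` to `g * π s`) -/
def hol (π : FreeGroup P →* G) (θ : G → P → U) (x : FreeGroup P) (g : G) : U :=
  (holAct π θ x (g, 1)).2

theorem holAct_eq (π : FreeGroup P →* G) (θ : G → P → U) (x : FreeGroup P) :
    ∀ (g : G) (c : U), holAct π θ x (g, c) = (g * π x, c * hol π θ x g) := by
  induction x using FreeGroup.induction_on with
  | C1 => intro g c; simp [holAct, hol]
  | of s => intro g c; simp [holAct, hol, holStep]
  | inv_of s _ => intro g c; simp [holAct, hol, holStep, Equiv.Perm.inv_def]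
  | mul x y hx hy =>
    intro g c
    rw [hol, holAct_mul, holAct_mul, hx, hy, hx, hy]
    simp [mul_assoc]

variable (π : FreeGroup P →* G) (θ : G → P → U)

@[simp] theorem hol_one (g : G) : hol π θ 1 g = 1 := by simp [hol, holAct]

@[simp] theorem hol_of (s : P) (g : G) : hol π θ (FreeGroup.of s) g = θ g s := by
  simp [hol, holAct, holStep]

theorem hol_mul (x y : FreeGroup P) (g : G) :
    hol π θ (x * y) g = hol π θ x g * hol π θ y (g * π x) := by
  rw [hol, holAct_mul, holAct_eq, holAct_eq]; simp

theorem hol_inv (x : FreeGroup P) (g : G) :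
    hol π θ x⁻¹ g = (hol π θ x (g * (π x)⁻¹))⁻¹ := by
  have := hol_mul π θ x⁻¹ x g
  simp only [inv_mul_cancel, hol_one, map_inv] at this
  exact eq_inv_of_mul_eq_one_left this.symm

/-- characterisation of `hol` -/
theorem hol_unique (H : FreeGroup P → G → U) (h1 : ∀ s g, H (FreeGroup.of s) g = θ g s)
    (h2 : ∀ x y g, H (x * y) g = H x g * H y (g * π x)) (x : FreeGroup P) :
    ∀ g, H x g = hol π θ x g := by
  have h0 : ∀ g, H 1 g = 1 := fun g => by
    have := h2 1 1 g
    simpa using this
  induction x using FreeGroup.induction_on with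
  | C1 => intro g; simp [h0]
  | of s => intro g; simp [h1]
  | inv_of s hs =>
    intro g
    have := h2 (FreeGroup.of s)⁻¹ (FreeGroup.of s) g
    rw [inv_mul_cancel, h0, map_inv] at this
    rw [hol_inv, ← hs]
    exact eq_inv_of_mul_eq_one_left this.symm
  | mul x y hx hy => intro g; rw [h2, hol_mul, hx, hy]

/-- naturality in the coefficient group -/
theorem map_hol {U' : Type} [Group U'] (φ : U →* U') (x : FreeGroup P) (g : G) :
    φ (hol π θ x g) = hol π (fun g s => φ (θ g s)) x g :=
  hol_unique π _ (fun x g => φ (hol π θ x g)) (by simp) (by simp [hol_mul]) x g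

/-- pull-back along a map of free groups -/
theorem hol_pull {Q : Type} (π' : FreeGroup Q →* G) (f : FreeGroup Q →* FreeGroup P)
    (hf : ∀ x, π (f x) = π' x) (x : FreeGroup Q) (g : G) :
    hol π θ (f x) g = hol π' (fun g s => hol π θ (f (FreeGroup.of s)) g) x g :=
  hol_unique π' _ (fun x g => hol π θ (f x) g) (by simp) (by simp [hol_mul, hf]) x g

/-- translation -/
theorem hol_shift (k : G) (x : FreeGroup P) (g : G) :
    hol π θ x (k * g) = hol π (fun g s => θ (k * g) s) x g :=
  hol_unique π _ (fun x g => hol π θ x (k * g)) (by simp) (by simp [hol_mul, mul_assoc]) x g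

/-- labels independent of the vertex -/
theorem hol_const (t : P → U) (x : FreeGroup P) (g : G) :
    hol π (fun _ s => t s) x g = FreeGroup.lift t x :=
  (hol_unique π _ (fun x _ => FreeGroup.lift t x) (by simp) (by simp) x g).symm

theorem hol_conj (u x : FreeGroup P) (hx : π x = 1) (g : G) :
    hol π θ (u * x * u⁻¹) g = hol π θ u g * hol π θ x (g * π u) * (hol π θ u g)⁻¹ := by
  rw [hol_mul, hol_mul, hol_inv]; simp [hx]

end Hol

section Cs
variable {G P A : Type} [Group G] [AddCommGroup A]

/-- additive holonomy: the sum of the 1-cochain `a` along the word `x` read from `g` -/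
def cs (π : FreeGroup P →* G) (a : G → P → A) (x : FreeGroup P) (g : G) : A :=
  Multiplicative.toAdd (hol π (fun g s => Multiplicative.ofAdd (a g s)) x g)

variable (π : FreeGroup P →* G) (a : G → P → A)

@[simp] theorem cs_one (g : G) : cs π a 1 g = 0 := by simp [cs]

@[simp] theorem cs_of (s : P) (g : G) : cs π a (FreeGroup.of s) g = a g s := by simp [cs]

theorem cs_mul (x y : FreeGroup P) (g : G) :
    cs π a (x * y) g = cs π a x g + cs π a y (g * π x) := by simp [cs, hol_mul]

theorem cs_inv (x : FreeGroup P) (g : G) : cs π a x⁻¹ g = - cs π a x (g * (π x)⁻¹) := by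
  simp [cs, hol_inv]

theorem cs_unique (H : FreeGroup P → G → A) (h1 : ∀ s g, H (FreeGroup.of s) g = a g s)
    (h2 : ∀ x y g, H (x * y) g = H x g + H y (g * π x)) (x : FreeGroup P) (g : G) :
    H x g = cs π a x g := by
  have := hol_unique π (fun g s => Multiplicative.ofAdd (a g s))
    (fun x g => Multiplicative.ofAdd (H x g)) (by simp [h1]) (by simp [h2]) x g
  simp only [cs, ← this, toAdd_ofAdd]

theorem map_cs {B : Type} [AddCommGroup B] (φ : A →+ B) (x : FreeGroup P) (g : G) :
    φ (cs π a x g) = cs π (fun g s => φ (a g s)) x g :=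
  cs_unique π _ (fun x g => φ (cs π a x g)) (by simp) (by simp [cs_mul]) x g

theorem cs_pull {Q : Type} (π' : FreeGroup Q →* G) (f : FreeGroup Q →* FreeGroup P)
    (hf : ∀ x, π (f x) = π' x) (x : FreeGroup Q) (g : G) :
    cs π a (f x) g = cs π' (fun g s => cs π a (f (FreeGroup.of s)) g) x g :=
  cs_unique π' _ (fun x g => cs π a (f x) g) (by simp) (by simp [cs_mul, hf]) x g

theorem cs_shift (k : G) (x : FreeGroup P) (g : G) :
    cs π a x (k * g) = cs π (fun g s => a (k * g) s) x g :=
  cs_unique π _ (fun x g => cs π a x (k * g)) (by simp) (by simp [cs_mul, mul_assoc]) x g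

theorem cs_add (b : G → P → A) (x : FreeGroup P) (g : G) :
    cs π (fun g s => a g s + b g s) x g = cs π a x g + cs π b x g :=
  (cs_unique π _ (fun x g => cs π a x g + cs π b x g) (by simp)
    (by intro x y g; simp only [cs_mul]; abel) x g).symm

theorem cs_sub (b : G → P → A) (x : FreeGroup P) (g : G) :
    cs π (fun g s => a g s - b g s) x g = cs π a x g - cs π b x g :=
  (cs_unique π _ (fun x g => cs π a x g - cs π b x g) (by simp)
    (by intro x y g; simp only [cs_mul]; abel) x g).symm

/-- coboundaries -/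
theorem cs_cob (u : G → A) (x : FreeGroup P) (g : G) :
    cs π (fun g s => u (g * π (FreeGroup.of s)) - u g) x g = u (g * π x) - u g :=
  (cs_unique π _ (fun x g => u (g * π x) - u g) (by simp)
    (by intro x y g; simp [mul_assoc]) x g).symm

theorem cs_conj (u x : FreeGroup P) (hx : π x = 1) (g : G) :
    cs π a (u * x * u⁻¹) g = cs π a x (g * π u) := by
  rw [cs_mul, cs_mul, cs_inv]; simp [hx]

end Cs

section Chains
variable {G P R : Type} [Group G]

/-- the 1-chain traced by the word `x` read from `g` (Fox calculus) -/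
noncomputable def fx (π : FreeGroup P →* G) (x : FreeGroup P) (g : G) : G × P →₀ ℤ :=
  cs π (fun g s => Finsupp.single (g, s) (1 : ℤ)) x g

/-- cellular boundary `C₁ → C₀` of the Cayley graph -/
noncomputable def d1 (π : FreeGroup P →* G) : (G × P →₀ ℤ) →ₗ[ℤ] (G →₀ ℤ) :=
  Finsupp.linearCombination ℤ fun p =>
    Finsupp.single (p.1 * π (FreeGroup.of p.2)) 1 - Finsupp.single p.1 1

/-- cellular boundary `C₂ → C₁` of the Cayley complex -/
noncomputable def d2 (π : FreeGroup P →* G) (r : R → FreeGroup P) :
    (G × R →₀ ℤ) →ₗ[ℤ] (G × P →₀ ℤ) :=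
  Finsupp.linearCombination ℤ fun p => fx π (r p.2) p.1

/-- The `G`-cover of the presentation complex of `⟨P | r⟩` is connected and acyclic
(it need not be simply connected). -/
structure Acyc (π : FreeGroup P →* G) (r : R → FreeGroup P) : Prop where
  surj : Function.Surjective π
  rel : ∀ ρ, π (r ρ) = 1
  ex : ∀ z, d1 π z = 0 → ∃ c, d2 π r c = z
  inj : ∀ c, d2 π r c = 0 → c = 0

/-- An aspherical presentation (asphericity in the form: every finitely supported integral
2-cochain is, on any finite set of faces, a coboundary). -/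
structure Asph (ψ : FreeGroup P →* G) (w : R → FreeGroup P) : Prop where
  surj : Function.Surjective ψ
  rel : ∀ j, ψ (w j) = 1
  ker : ∀ x, ψ x = 1 → x ∈ Subgroup.normalClosure (Set.range w)
  cob : ∀ (Φ : Finset (G × R)) (j : G × R), ∃ a : G → P → ℤ,
    (j ∈ Φ → cs ψ a (w j.2) j.1 = 1) ∧ ∀ f ∈ Φ, f ≠ j → cs ψ a (w f.2) f.1 = 0

/-- The scaled copy of the acyclic complex `L` inside the `G`-cover: for each relator `rel i` the
loop `rel i (X)` is a product of `N` far apart translates of a tile `ℓ i` and of far faces `n i`. -/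
def Geo {I : Type} (π : FreeGroup P →* G) (r : R → FreeGroup P) (rel : I → FreeGroup I) : Prop :=
  ∀ Ω : Finset G, ∃ (ℓ : I → List (FreeGroup P × R × Bool)) (ρ : I → R),
    (∀ i, scl π (ℓ i) (1, ρ i) ≠ 0) ∧
    (∀ i (α : G → P → ℤ), (∀ g s, g ∉ Ω → α g s = 0) → cs π α (sev r (ℓ i)) 1 = 0) ∧
    ∀ N : ℕ, ∃ (X : I → FreeGroup P) (u : I → Fin N → FreeGroup P)
      (n : I → List (FreeGroup P × R × Bool)),
      (∀ e, π (X e) = 1) ∧
      (∀ i k i' k', (i, k) ≠ (i', k') → ∀ p ∈ ℓ i, (π (u i' k'))⁻¹ * (π (u i k) * π p.1) ∉ Ω) ∧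
      (∀ i, ∀ p ∈ n i, ∀ i' k', (π (u i' k'))⁻¹ * π p.1 ∉ Ω) ∧
      ∀ i, FreeGroup.lift X (rel i) =
        (List.ofFn fun k => u i k * sev r (ℓ i) * (u i k)⁻¹).prod * sev r (n i)

theorem d1_fx (π : FreeGroup P →* G) (x : FreeGroup P) (g : G) :
    d1 π (fx π x g) = Finsupp.single (g * π x) 1 - Finsupp.single g 1 := by
  have := map_cs π (fun g s => Finsupp.single (g, s) (1 : ℤ)) (d1 π).toAddMonoidHom x g
  rw [fx, ← cs_cob π (fun g => Finsupp.single g (1 : ℤ)) x g]
  simpa [d1] using this

/-- pairing of a cochain with the Fox chain -/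
theorem cs_eq_fx {A : Type} [AddCommGroup A] (π : FreeGroup P →* G) (a : G → P → A)
    (x : FreeGroup P) (g : G) :
    cs π a x g = Finsupp.linearCombination ℤ (fun p : G × P => a p.1 p.2) (fx π x g) := by
  have := map_cs π (fun g s => Finsupp.single (g, s) (1 : ℤ))
    (Finsupp.linearCombination ℤ (fun p : G × P => a p.1 p.2)).toAddMonoidHom x g
  simpa [fx] using this.symm

end Chains

end Crest.Agent.EG
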