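import Crest.Agent.EG.DefsA

/-! Row 197, job CH: chain-level comparison data. -/

set_option autoImplicit false

namespace Crest.Agent.EG

open Crest.Agent.GSC.Topo (sev scl)
open Finsupp

namespace CH

variable {G P R : Type} [Group G]

/-- translation of chains -/
noncomputable def tr {X : Type} (g : G) : (G × X →₀ ℤ) →ₗ[ℤ] (G × X →₀ ℤ) :=
  lmapDomain ℤ ℤ fun p => (g * p.1, p.2)

theorem tr_single {X : Type} (g : G) (p : G × X) (n : ℤ) :
    tr g (single p n) = single (g * p.1, p.2) n := by simp [tr]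

theorem tr_apply {X : Type} (g : G) (c : G × X →₀ ℤ) (x : X) : tr g c (1, x) = c (g⁻¹, x) := by
  have : ((1 : G), x) = (fun p : G × X => (g * p.1, p.2)) (g⁻¹, x) := by simp
  rw [this, tr, lmapDomain_apply, mapDomain_apply]
  rintro ⟨a, b⟩ ⟨c, d⟩ h
  simpa using h

theorem fx_tr (π : FreeGroup P →* G) (x : FreeGroup P) (g k : G) :
    fx π x (g * k) = tr g (fx π x k) := by
  have := map_cs π (fun g s => single (g, s) (1 : ℤ)) (tr g).toAddMonoidHom x k
  rw [fx, cs_shift, fx]
  simpa [tr_single] using this.symm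

theorem d2_tr (π : FreeGroup P →* G) (r : R → FreeGroup P) (g : G) (c : G × R →₀ ℤ) :
    d2 π r (tr g c) = tr g (d2 π r c) := by
  have : d2 π r ∘ₗ tr g = tr g ∘ₗ d2 π r := by
    refine Finsupp.lhom_ext' fun p => LinearMap.ext_ring ?_
    simp [tr_single, d2, fx_tr]
  exact LinearMap.congr_fun this c

end CH

open CH in
theorem jobCH : JobCH := by
  intro G P₀ R₀ P R _ _ _ π r ψ w hA hS
  classical
  let _ := Fintype.ofFinite P₀
  let _ := Fintype.ofFinite R₀
  choose f₀ hf₀ using fun s : P₀ => hS.surj (π (FreeGroup.of s))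
  choose φ₀ hφ₀ using fun s : P => hA.surj (ψ (FreeGroup.of s))
  let f : FreeGroup P₀ →* FreeGroup P := FreeGroup.lift f₀
  let φ : FreeGroup P →* FreeGroup P₀ := FreeGroup.lift φ₀
  have hf : ∀ x, ψ (f x) = π x := fun x =>
    DFunLike.congr_fun (show ψ.comp f = π from FreeGroup.ext_hom _ _ fun s => by simp [f, hf₀]) x
  have hφ : ∀ x, π (φ x) = ψ x := fun x =>
    DFunLike.congr_fun (show π.comp φ = ψ from FreeGroup.ext_hom _ _ fun s => by simp [φ, hφ₀]) x
  have hm : ∀ σ, ∃ l, sev w l = f (r σ) := fun σ => by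
    obtain ⟨c, l, h, -⟩ := GSC.Topo.Ex.of_mem (pi := ψ) (hS.ker (f (r σ)) (by rw [hf, hA.rel]))
    exact ⟨l, h⟩
  choose m hm using hm
  choose φ₂ hφ₂ using fun j => hA.ex (fx π (φ (w j)) 1) (by simp [d1_fx, hφ, hS.rel])
  choose h hh using fun s => hA.ex (fx π (φ (f (FreeGroup.of s)) * (FreeGroup.of s)⁻¹) 1)
    (by simp [d1_fx, hφ, hf])
  have L : ∀ (l : List (FreeGroup P × R × Bool)) (g : G),
      d2 π r (l.map fun p => (if p.2.2 then (1 : ℤ) else -1) • tr (g * ψ p.1) (φ₂ p.2.1)).sum =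
        fx π (φ (sev w l)) g := by
    intro l g
    induction l with
    | nil => simp [sev, fx]
    | cons p l ih =>
      obtain ⟨u, j, b⟩ := p
      have e : sev w ((u, j, b) :: l) = u * (if b then w j else (w j)⁻¹) * u⁻¹ * sev w l := by
        simp [sev]
      have h1 : π (φ (if b then w j else (w j)⁻¹)) = 1 := by
        split_ifs <;> simp [hφ, hS.rel]
      rw [List.map_cons, List.sum_cons, map_add, ih, e, map_mul, map_mul, map_mul, map_inv, fx, fx,
        cs_mul, cs_conj _ _ _ _ h1, map_smul, d2_tr, hφ₂, ← fx_tr, mul_one]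
      congr 1
      · cases b <;> simp [fx, cs_inv, hφ, hS.rel]
      · simp [h1]
  have key : ∀ g σ, ((m σ).map fun p =>
      (if p.2.2 then (1 : ℤ) else -1) • tr (g * ψ p.1) (φ₂ p.2.1)).sum =
      single (g, σ) 1 + cs π (fun g s => tr g (h s)) (r σ) g := by
    intro g σ
    rw [← sub_eq_zero]
    apply hA.inj
    have e1 := map_cs π (fun g s => tr g (h s)) (d2 π r).toAddMonoidHom (r σ) g
    simp only [LinearMap.toAddMonoidHom_coe, d2_tr, hh, ← fx_tr, mul_one] at e1
    have e2 : ∀ g s, fx π (φ (f (FreeGroup.of s)) * (FreeGroup.of s)⁻¹) g =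
        fx π (φ (f (FreeGroup.of s))) g - single (g, s) 1 := fun g s => by
      simp [fx, cs_mul, cs_inv, hφ, hf, sub_eq_add_neg]
    have e3 := cs_pull π (fun g s => single (g, s) (1 : ℤ)) π (φ.comp f)
      (fun x => by simp [hφ, hf]) (r σ) g
    rw [map_sub, map_add, L, hm, e1]
    simp only [e2, cs_sub]
    simp only [MonoidHom.comp_apply] at e3
    simp only [fx, e3, d2, linearCombination_single, one_smul]
    abel
  let J : Finset R := Finset.univ.biUnion fun σ => ((m σ).map fun p => p.2.1).toFinset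
  refine ⟨f, m, (J.biUnion fun j => (φ₂ j).support.image fun p => p.1⁻¹) ∪
    (Finset.univ.biUnion fun s => (h s).support.image fun p => p.1⁻¹),
    fun ρ p => if p.2 ∈ J then φ₂ p.2 (p.1⁻¹, ρ) else 0, fun ρ g s => h s (g⁻¹, ρ), hf, hm,
    fun ρ g j hg => ?_, fun ρ g s hg => ?_, fun ρ g σ => ?_⟩
  · simp only
    split_ifs with hj
    · by_contra hn
      exact hg (Finset.mem_union_left _ (Finset.mem_biUnion.2 ⟨j, hj,
        Finset.mem_image.2 ⟨_, mem_support_iff.2 hn, inv_inv _⟩⟩))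
    · rfl
  · by_contra hn
    exact hg (Finset.mem_union_right _ (Finset.mem_biUnion.2 ⟨s, Finset.mem_univ _,
      Finset.mem_image.2 ⟨_, mem_support_iff.2 hn, inv_inv _⟩⟩))
  · have e := congrArg (applyAddHom ((1 : G), ρ)) (key g σ)
    rw [map_add, map_cs, map_list_sum, List.map_map] at e
    simp only [applyAddHom_apply, tr_apply] at e
    rw [← e]
    congr 1
    refine List.map_congr_left fun p hp => ?_
    have : p.2.1 ∈ J := Finset.mem_biUnion.2 ⟨σ, Finset.mem_univ _,
      List.mem_toFinset.2 (List.mem_map_of_mem hp)⟩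
    cases hb : p.2.2 <;> simp [this, tr_apply, hb]

end Crest.Agent.EG
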