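import Crest.Agent.EG.DefsT

/-! Row 197 (S0300), job COC: locally constant Čech cocycles on simply connected spaces. -/

set_option autoImplicit false

open Set Topology Filter unitInterval

namespace Crest.Agent.EG

namespace COCx

theorem exists_sec {E Y : Type} [TopologicalSpace E] [TopologicalSpace Y] [SimplyConnectedSpace Y]
    {p : E → Y} (cov : IsCoveringMap p) (e₀ : E) :
    ∃ s : Y → E, (∀ y, p (s y) = y) ∧ ∀ ω : C(I, Y), Continuous fun a => s (ω a) := by
  let c : ∀ y, Path.Homotopic.Quotient (p e₀) y := fun y =>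
    Path.Homotopic.Quotient.mk (PathConnectedSpace.somePath (p e₀) y)
  let s : Y → E := fun y => (cov.monodromy (c y) ⟨e₀, rfl⟩ : E)
  have hs : ∀ y, p (s y) = y := fun y => (cov.monodromy (c y) ⟨e₀, rfl⟩).2
  have key : ∀ {x y : E} (_ : Path x y), s (p x) = x → s (p y) = y := by
    intro x y Γ hx
    have h1 := cov.monodromy_map (Path.Homotopic.Quotient.mk Γ)
    have h2 : cov.monodromy (c (p x)) ⟨e₀, rfl⟩ = ⟨x, rfl⟩ := Subtype.ext hx
    rw [← h2, ← cov.monodromy_trans_apply, Subsingleton.elim (Path.Homotopic.Quotient.trans _ _)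
      (c (p y))] at h1
    exact congrArg Subtype.val h1
  refine ⟨s, hs, fun ω => ?_⟩
  let Γ := cov.liftPath ω (s (ω 0)) (hs _).symm
  have h1 : ∀ a, p (Γ a) = ω a := fun a => congrFun (cov.liftPath_lifts ω _ (hs _).symm) a
  have h0 : Γ 0 = s (ω 0) := cov.liftPath_zero ω _ (hs _).symm
  have : (fun a => s (ω a)) = Γ := by
    funext t
    rw [← h1]
    refine key (x := Γ 0) ⟨⟨fun u => Γ (t * u), Γ.continuous.comp ?_⟩, by simp, by simp⟩ ?_
    · exact Continuous.subtype_mk (by fun_prop) _
    · rw [h1, h0]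
  rw [this]
  exact Γ.continuous

end COCx

theorem jobCOC : JobCOC := by
  intro Y Γ ι _ _ _ U γ hU hc hγ
  letI : TopologicalSpace Γ := ⊥
  have : DiscreteTopology Γ := ⟨rfl⟩
  choose idx hidx using hc
  let Z : FiberBundleCore ι Y Γ :=
    { baseSet := U
      isOpen_baseSet := hU
      indexAt := idx
      mem_baseSet_at := hidx
      coordChange := fun i j y c => c * ((γ i y)⁻¹ * γ j y)
      coordChange_self := fun i x _ v => by simp
      continuousOn_coordChange := fun i j => by
        rintro ⟨y, c⟩ ⟨⟨hi, hj⟩, -⟩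
        refine ContinuousAt.continuousWithinAt ?_
        have h1 : ∀ᶠ q : Y × Γ in 𝓝 (y, c), (γ i q.1)⁻¹ * γ j q.1 = (γ i y)⁻¹ * γ j y :=
          (continuous_fst.tendsto (y, c)).eventually (hγ i j y hi hj)
        have h2 : ∀ᶠ q : Y × Γ in 𝓝 (y, c), q.2 = c :=
          (continuous_snd.tendsto (y, c)).eventually ((isOpen_discrete {c}).mem_nhds rfl)
        refine (continuousAt_const (y := c * ((γ i y)⁻¹ * γ j y))).congr ?_
        filter_upwards [h1, h2] with q q1 q2
        rw [q1, q2]
      coordChange_comp := fun i j k x _ v => by simp [mul_assoc] }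
  have cov : IsCoveringMap Z.proj := FiberBundle.isCoveringMap
  obtain ⟨y₀⟩ : Nonempty Y := inferInstance
  obtain ⟨s, hs, hω⟩ := COCx.exists_sec cov ⟨y₀, (1 : Γ)⟩
  refine ⟨fun y => (show Γ from (s y).2) * (γ (idx y) y)⁻¹, fun ω i a ha => ?_⟩
  have key : ∀ y, (show Γ from (s y).2) * (γ (idx y) y)⁻¹ * γ i y = (Z.localTriv i (s y)).2 := by
    intro y
    have h : (s y).1 = y := hs y
    show _ = (show Γ from (s y).2) * ((γ (idx (s y).1) (s y).1)⁻¹ * γ i (s y).1)
    generalize (show Γ from (s y).2) = c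
    rw [h, mul_assoc]
  have hcont : ContinuousAt (fun a => (Z.localTriv i (s (ω a))).2) a := by
    have h1 : s (ω a) ∈ (Z.localTriv i).source := by
      show Z.proj (s (ω a)) ∈ U i
      rw [hs]; exact ha
    exact continuous_snd.continuousAt.comp
      (ContinuousAt.comp (f := fun a => s (ω a))
        ((Z.localTriv i).toOpenPartialHomeomorph.continuousAt h1) (hω ω).continuousAt)
  simp only [key]
  exact hcont.eventually ((isOpen_discrete {(Z.localTriv i (s (ω a))).2}).mem_nhds rfl)

end Crest.Agent.EG
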