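import Crest.Agent.EG.DefsT

/-! Row 197 (S0300): job CW. -/

set_option autoImplicit false

open Set Topology Filter unitInterval Metric

namespace Crest.Agent.EG

theorem cw_exH : ∃ H : ℂ ≃ₜ (Fin 2 → ℝ), (∀ z, ‖H z‖ < 1 ↔ ‖z‖ < 1) ∧ ∀ z, ‖H z‖ ≤ 1 ↔ ‖z‖ ≤ 1 := by
  let L : ℂ ≃L[ℝ] (Fin 2 → ℝ) := Complex.basisOneI.equivFunL
  have hc : Convex ℝ (L '' ball (0 : ℂ) 1) := (convex_ball _ _).linear_image L.toLinearEquiv.toLinearMap
  have ho : IsOpen (L '' ball (0 : ℂ) 1) := L.toHomeomorph.isOpenMap _ isOpen_ball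
  have hb : Bornology.IsBounded (L '' ball (0 : ℂ) 1) :=
    L.toContinuousLinearMap.lipschitz.isBounded_image isBounded_ball
  obtain ⟨h, h1, h2, -⟩ := exists_homeomorph_image_interior_closure_frontier_eq_unitBall hc
    (by rw [ho.interior_eq]; exact ⟨L 0, 0, by simp, rfl⟩) hb
  rw [ho.interior_eq] at h1
  have hcl : closure (L '' ball (0 : ℂ) 1) = L '' closedBall 0 1 := by
    have := L.toHomeomorph.image_closure (ball (0 : ℂ) 1)
    rw [closure_ball _ one_ne_zero] at this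
    exact this.symm
  rw [hcl] at h2
  refine ⟨L.toHomeomorph.trans h, fun z => ?_, fun z => ?_⟩
  · rw [← mem_ball_zero_iff, ← mem_ball_zero_iff, ← h1]
    constructor
    · rintro ⟨_, ⟨w, hw, rfl⟩, e⟩
      have := L.injective (h.injective e)
      exact this ▸ hw
    · intro hz
      exact ⟨_, ⟨z, hz, rfl⟩, rfl⟩
  · rw [← mem_closedBall_zero_iff, ← mem_closedBall_zero_iff, ← h2]
    constructor
    · rintro ⟨_, ⟨w, hw, rfl⟩, e⟩
      have := L.injective (h.injective e)
      exact this ▸ hw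
    · intro hz
      exact ⟨_, ⟨z, hz, rfl⟩, rfl⟩

theorem cw_exC : ∃ c : C(ℂ, Fin 2 → ℝ), (∀ z, ‖c z‖ ≤ 1) ∧ (∀ z, ‖z‖ < 1 → ‖c z‖ < 1) ∧
    (∀ z, ‖z‖ = 1 → ‖c z‖ = 1) ∧ (∀ z z', ‖z‖ < 1 → ‖z'‖ < 1 → c z = c z' → z = z') ∧
    (∀ w, ‖w‖ < 1 → ∃ z, ‖z‖ < 1 ∧ c z = w) ∧ ∀ w, ‖w‖ ≤ 1 → ∃ z, ‖z‖ ≤ 1 ∧ c z = w := by
  obtain ⟨H, h1, h2⟩ := cw_exH
  have hm : ∀ z, (0 : ℝ) < max 1 ‖H z‖ := fun z => lt_max_of_lt_left one_pos
  let c : C(ℂ, Fin 2 → ℝ) := ⟨fun z => (max 1 ‖H z‖)⁻¹ • H z, by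
    refine Continuous.smul (Continuous.inv₀ (by fun_prop) fun z => (hm z).ne') H.continuous⟩
  have hc : ∀ z, ‖z‖ ≤ 1 → c z = H z := fun z hz => by
    show (max 1 ‖H z‖)⁻¹ • H z = H z
    rw [max_eq_left ((h2 z).2 hz)]; simp
  refine ⟨c, fun z => ?_, fun z hz => ?_, fun z hz => ?_, fun z z' hz hz' e => ?_, fun w hw => ?_,
    fun w hw => ?_⟩
  · show ‖(max 1 ‖H z‖)⁻¹ • H z‖ ≤ 1
    rw [norm_smul, norm_inv, Real.norm_of_nonneg (hm z).le, inv_mul_le_iff₀ (hm z), mul_one]
    exact le_max_right _ _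
  · rw [hc z hz.le]; exact (h1 z).2 hz
  · rw [hc z hz.le]
    exact le_antisymm ((h2 z).2 hz.le) (not_lt.1 fun h => ((h1 z).1 h).ne hz)
  · rw [hc z hz.le, hc z' hz'.le] at e; exact H.injective e
  · have : ‖H.symm w‖ < 1 := (h1 _).1 (by simpa using hw)
    exact ⟨H.symm w, this, by rw [hc _ this.le]; simp⟩
  · have : ‖H.symm w‖ ≤ 1 := (h2 _).1 (by simpa using hw)
    exact ⟨H.symm w, this, by rw [hc _ this]; simp⟩

/-- the parametrisation of `[-1,1]` -/
noncomputable def cwq (x : I) : Fin 1 → ℝ := fun _ => 2 * (x : ℝ) - 1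

theorem cwq_norm (x : I) : ‖cwq x‖ = |2 * (x : ℝ) - 1| := by
  unfold cwq; rw [pi_norm_const]; rfl

theorem cwq_le (x : I) : ‖cwq x‖ ≤ 1 := by
  rw [cwq_norm, abs_le]; constructor <;> linarith [x.2.1, x.2.2]

theorem cwq_lt (x : I) (h0 : x ≠ 0) (h1 : x ≠ 1) : ‖cwq x‖ < 1 := by
  have a : (0 : ℝ) < x := lt_of_le_of_ne x.2.1 fun h => h0 (Subtype.ext h.symm)
  have b : (x : ℝ) < 1 := lt_of_le_of_ne x.2.2 fun h => h1 (Subtype.ext h)
  rw [cwq_norm, abs_lt]; constructor <;> linarith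

theorem cwq_inj {x y : I} (h : cwq x = cwq y) : x = y := by
  have := congrFun h 0
  simp only [cwq] at this
  exact Subtype.ext (by linarith)

theorem cwq_surj (w : Fin 1 → ℝ) (hw : ‖w‖ ≤ 1) : ∃ x, cwq x = w := by
  have := (norm_le_pi_norm w 0).trans hw
  rw [Real.norm_eq_abs, abs_le] at this
  refine ⟨⟨(w 0 + 1) / 2, by linarith [this.1], by linarith [this.2]⟩, ?_⟩
  funext i
  rw [Subsingleton.elim i 0]
  simp only [cwq]; ring

theorem cwq_cont : Continuous cwq := by unfold cwq; fun_prop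

theorem jobCW : JobCW := by
  intro X _ _ _ hdim
  classical
  obtain ⟨c, c1, c2, c3, c4, c5, c6⟩ := cw_exC
  let V := RelCWComplex.cell (univ : Set X) 0
  let S := RelCWComplex.cell (univ : Set X) 1
  let R := RelCWComplex.cell (univ : Set X) 2
  let vt : V → X := fun v => RelCWComplex.map 0 v ![]
  let ed : S → C(I, X) := fun e => ⟨fun x => RelCWComplex.map 1 e (cwq x),
    (RelCWComplex.continuousOn 1 e).comp_continuous cwq_cont fun x => by simpa using cwq_le x⟩
  let fc : R → C(ℂ, X) := fun f => ⟨fun z => RelCWComplex.map 2 f (c z),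
    (RelCWComplex.continuousOn 2 f).comp_continuous c.continuous fun z => by simpa using c1 z⟩
  have hfr : ∀ (e : S) (x : I), ‖cwq x‖ = 1 → ∃ v, ed e x = vt v := by
    intro e x hx
    obtain ⟨J, hJ⟩ := CWComplex.cellFrontier_subset_finite_closedCell (C := (univ : Set X)) 1 e
    have := hJ ⟨cwq x, by simpa using hx, rfl⟩
    simp only [mem_iUnion] at this
    obtain ⟨m, hm, j, -, hj⟩ := this
    obtain rfl : m = 0 := by omega
    rw [RelCWComplex.closedCell_zero_eq_singleton] at hj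
    exact ⟨j, hj⟩
  have h0 : ∀ e : S, ∃ v, ed e 0 = vt v := fun e => hfr e 0 (by rw [cwq_norm]; simp)
  have h1 : ∀ e : S, ∃ v, ed e 1 = vt v := fun e => hfr e 1 (by rw [cwq_norm]; norm_num)
  choose s hs using h0
  choose t ht using h1
  -- interpretation of normal forms
  let P : V ⊕ (S × I) ⊕ (R × ℂ) → Prop := fun q =>
    match q with
    | .inl _ => True
    | .inr (.inl (_, x)) => x ≠ 0 ∧ x ≠ 1
    | .inr (.inr (_, z)) => ‖z‖ < 1
  let ev : V ⊕ (S × I) ⊕ (R × ℂ) → X := fun q =>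
    match q with
    | .inl v => vt v
    | .inr (.inl (e, x)) => ed e x
    | .inr (.inr (f, z)) => fc f z
  have m0 : ∀ v, vt v ∈ RelCWComplex.openCell (C := (univ : Set X)) 0 v := fun v => by
    rw [RelCWComplex.openCell_zero_eq_singleton]; rfl
  have m1 : ∀ e x, x ≠ 0 → x ≠ 1 → ed e x ∈ RelCWComplex.openCell (C := (univ : Set X)) 1 e :=
    fun e x a b => ⟨cwq x, by simpa using cwq_lt x a b, rfl⟩
  have m2 : ∀ f z, ‖z‖ < 1 → fc f z ∈ RelCWComplex.openCell (C := (univ : Set X)) 2 f :=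
    fun f z a => ⟨c z, by simpa using c2 z a, rfl⟩
  have key : ∀ {n m : ℕ} {i : RelCWComplex.cell (univ : Set X) n}
      {j : RelCWComplex.cell (univ : Set X) m} {y : X}, y ∈ RelCWComplex.openCell n i →
      y ∈ RelCWComplex.openCell m j →
      (⟨n, i⟩ : Σ n, RelCWComplex.cell (univ : Set X) n) = ⟨m, j⟩ := by
    intro n m i j y hi hj
    by_contra hne
    exact Set.disjoint_left.1 (RelCWComplex.disjoint_openCell_of_ne hne) hi hj
  have inj : ∀ {n : ℕ} (i : RelCWComplex.cell (univ : Set X) n) {a b : Fin n → ℝ}, ‖a‖ < 1 → ‖b‖ < 1 →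
      RelCWComplex.map n i a = RelCWComplex.map n i b → a = b := by
    intro n i a b ha hb e
    refine (RelCWComplex.map n i).injOn ?_ ?_ e
    · rw [RelCWComplex.source_eq]; simpa using ha
    · rw [RelCWComplex.source_eq]; simpa using hb
  have uniq : ∀ q q', P q → P q' → ev q = ev q' → q = q' := by
    rintro (v | ⟨e, x⟩ | ⟨f, z⟩) (v' | ⟨e', x'⟩ | ⟨f', z'⟩) hq hq' e
    · have := key (m0 v) (by have := m0 v'; exact (show vt v = vt v' from e) ▸ this)
      simp only [Sigma.mk.injEq, heq_eq_eq, true_and] at this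
      rw [this]
    · have := key (m0 v) (by have := m1 e' x' hq'.1 hq'.2; exact (show vt v = ed e' x' from e) ▸ this)
      simp at this
    · have := key (m0 v) (by have := m2 f' z' hq'; exact (show vt v = fc f' z' from e) ▸ this)
      simp at this
    · have := key (m1 _ x hq.1 hq.2) (by have := m0 v'; exact (show _ = vt v' from e) ▸ this)
      simp at this
    · rename_i e0
      have := key (m1 e0 x hq.1 hq.2)
        (by have := m1 e' x' hq'.1 hq'.2; exact (show ed e0 x = ed e' x' from e) ▸ this)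
      simp only [Sigma.mk.injEq, heq_eq_eq, true_and] at this
      subst this
      rw [cwq_inj (inj e0 (cwq_lt x hq.1 hq.2) (cwq_lt x' hq'.1 hq'.2) e)]
    · rename_i e0
      have := key (m1 e0 x hq.1 hq.2)
        (by have := m2 f' z' hq'; exact (show ed e0 x = fc f' z' from e) ▸ this)
      simp at this
    · have := key (m2 f z hq) (by have := m0 v'; exact (show fc f z = vt v' from e) ▸ this)
      simp at this
    · have := key (m2 f z hq)
        (by have := m1 e' x' hq'.1 hq'.2; exact (show fc f z = ed e' x' from e) ▸ this)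
      simp at this
    · have := key (m2 f z hq) (by have := m2 f' z' hq'; exact (show fc f z = fc f' z' from e) ▸ this)
      simp only [Sigma.mk.injEq, heq_eq_eq, true_and] at this
      subst this
      rw [c4 z z' hq hq' (inj f (c2 z hq) (c2 z' hq') e)]
  have cover : ∀ y, (∃ v, y = vt v) ∨ (∃ e x, x ≠ 0 ∧ x ≠ 1 ∧ y = ed e x) ∨
      ∃ f z, ‖z‖ < 1 ∧ y = fc f z := by
    intro y
    have : y ∈ ⋃ (n : ℕ) (j : RelCWComplex.cell (univ : Set X) n), RelCWComplex.openCell n j := by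
      rw [CWComplex.iUnion_openCell_eq_complex]; trivial
    simp only [mem_iUnion] at this
    obtain ⟨n, j, hj⟩ := this
    by_cases hn : 2 < n
    · exact ((hdim n hn).false j).elim
    · have : n = 0 ∨ n = 1 ∨ n = 2 := by omega
      rcases this with rfl | rfl | rfl
      · rw [RelCWComplex.openCell_zero_eq_singleton] at hj
        exact .inl ⟨j, hj⟩
      · obtain ⟨w, hw, rfl⟩ := hj
        have hw' : ‖w‖ < 1 := by simpa using hw
        obtain ⟨x, rfl⟩ := cwq_surj w hw'.le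
        refine .inr (.inl ⟨j, x, ?_, ?_, rfl⟩)
        · rintro rfl; rw [cwq_norm] at hw'; simp at hw'
        · rintro rfl; rw [cwq_norm] at hw'; norm_num at hw'
      · obtain ⟨w, hw, rfl⟩ := hj
        obtain ⟨z, hz, rfl⟩ := c5 w (by simpa using hw)
        exact .inr (.inr ⟨j, z, hz, rfl⟩)
  have exq : ∀ y, ∃ q, P q ∧ ev q = y := by
    intro y
    rcases cover y with ⟨v, rfl⟩ | ⟨e, x, a, b, rfl⟩ | ⟨f, z, a, rfl⟩
    · exact ⟨.inl v, trivial, rfl⟩
    · exact ⟨.inr (.inl (e, x)), ⟨a, b⟩, rfl⟩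
    · exact ⟨.inr (.inr (f, z)), a, rfl⟩
  choose nf hP hev using exq
  refine ⟨V, S, R, ⟨{
    vt := vt, ed := ed, fc := fc, s := s, t := t, ed0 := hs, ed1 := ht, nf := nf
    nf_vt := fun v => uniq _ (.inl v) (hP _) trivial (hev _)
    nf_ed := fun e x a b => uniq _ (.inr (.inl (e, x))) (hP _) ⟨a, b⟩ (hev _)
    nf_fc := fun f z a => uniq _ (.inr (.inr (f, z))) (hP _) a (hev _)
    cover := cover
    fin := ?_
    weak := ?_ }⟩⟩
  · intro f
    obtain ⟨J, hJ⟩ := CWComplex.cellFrontier_subset_finite_closedCell (C := (univ : Set X)) 2 f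
    refine ⟨J 0, J 1, fun z hz => ?_⟩
    have := hJ ⟨c z, by simpa using c3 z hz, rfl⟩
    simp only [mem_iUnion] at this
    obtain ⟨m, hm, j, hjJ, hj⟩ := this
    have : m = 0 ∨ m = 1 := by omega
    rcases this with rfl | rfl
    · rw [RelCWComplex.closedCell_zero_eq_singleton] at hj
      exact .inl ⟨j, hjJ, hj⟩
    · obtain ⟨w, hw, e⟩ := hj
      obtain ⟨x, rfl⟩ := cwq_surj w (by simpa using hw)
      exact .inr ⟨j, hjJ, x, e.symm⟩
  · intro A hA1 hA2
    rw [CWComplex.closed (univ : Set X) A (subset_univ _)]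
    intro n j
    by_cases hn : 2 < n
    · exact ((hdim n hn).false j).elim
    · have : n = 0 ∨ n = 1 ∨ n = 2 := by omega
      rcases this with rfl | rfl | rfl
      · rw [RelCWComplex.closedCell_zero_eq_singleton]
        exact ((finite_singleton _).inter_of_right A).isClosed
      · have : A ∩ RelCWComplex.closedCell 1 j = ed j '' (ed j ⁻¹' A) := by
          ext y
          constructor
          · rintro ⟨hy, w, hw, rfl⟩
            obtain ⟨x, rfl⟩ := cwq_surj w (by simpa using hw)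
            exact ⟨x, hy, rfl⟩
          · rintro ⟨x, hx, rfl⟩
            exact ⟨hx, cwq x, by simpa using cwq_le x, rfl⟩
        rw [this]
        exact ((hA1 j).isCompact.image (ed j).continuous).isClosed
      · have : A ∩ RelCWComplex.closedCell 2 j = fc j '' {z : ℂ | ‖z‖ ≤ 1 ∧ fc j z ∈ A} := by
          ext y
          constructor
          · rintro ⟨hy, w, hw, rfl⟩
            obtain ⟨z, hz, rfl⟩ := c6 w (by simpa using hw)
            exact ⟨z, ⟨hz, hy⟩, rfl⟩
          · rintro ⟨z, hz, rfl⟩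
            exact ⟨hz.2, c z, by simpa using c1 z, rfl⟩
        rw [this]
        refine (IsCompact.image ?_ (fc j).continuous).isClosed
        exact (isCompact_closedBall (0 : ℂ) 1).of_isClosed_subset (hA2 j) fun z hz => by
          simpa using hz.1

end Crest.Agent.EG
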