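import Crest.Agent.EG.Lift

/-! Row 197 (S0300), job CONN: attaching words are edge loops; connectedness. -/

set_option autoImplicit false

open Set Topology Filter unitInterval

namespace Crest.Agent.EG

namespace ConnX

open LiftX

section Paths
variable {V S : Type} {s t : S → V}

theorem path_append : ∀ (l l' : List (S × Bool)) (a b c : V), IsPath s t a l b → IsPath s t b l' c →
    IsPath s t a (l ++ l') c
  | [], _, _, _, _, h, k => by cases h; exact k
  | (_, true) :: l, l', _, b, c, h, k => ⟨h.1, path_append l l' _ b c h.2 k⟩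
  | (_, false) :: l, l', _, b, c, h, k => ⟨h.1, path_append l l' _ b c h.2 k⟩

theorem reach_symm : ∀ (l : List (S × Bool)) (a b : V), IsPath s t a l b → ∃ l', IsPath s t b l' a
  | [], _, _, h => ⟨[], h.symm⟩
  | (e, true) :: l, _, b, h => by
    obtain ⟨l', h'⟩ := reach_symm l _ b h.2
    exact ⟨_, path_append l' [(e, false)] _ _ _ h' ⟨rfl, h.1⟩⟩
  | (e, false) :: l, _, b, h => by
    obtain ⟨l', h'⟩ := reach_symm l _ b h.2
    exact ⟨_, path_append l' [(e, true)] _ _ _ h' ⟨rfl, h.1⟩⟩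

theorem step_iff (b : V) (c : FreeGroup S) (e : S) :
    (∃ l, IsPath s t b l (s e) ∧ FreeGroup.mk l = c) ↔
      ∃ l, IsPath s t b l (t e) ∧ FreeGroup.mk l = c * FreeGroup.of e := by
  constructor
  · rintro ⟨l, h, rfl⟩
    exact ⟨_, path_append l [(e, true)] _ _ _ h ⟨rfl, rfl⟩, by rw [← FreeGroup.mul_mk]; rfl⟩
  · rintro ⟨l, h, h'⟩
    refine ⟨_, path_append l [(e, false)] _ _ _ h ⟨rfl, rfl⟩, ?_⟩
    rw [← FreeGroup.mul_mk, h']
    exact mul_inv_cancel_right c (FreeGroup.of e)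

end Paths

variable {X V S R : Type} [TopologicalSpace X] (K : CW2 X V S R) (v₀ : V)

/-- base vertex on the 1-skeleton -/
def bs1 (y : X) : V :=
  match K.nf y with
  | .inl v => v
  | .inr (.inl (e, _)) => K.s e
  | .inr (.inr _) => v₀

/-- base vertex -/
noncomputable def bs (y : X) : V :=
  match K.nf y with
  | .inr (.inr (f, _)) => bs1 K v₀ (K.fc f 1)
  | _ => bs1 K v₀ y

theorem bs1_vt (v : V) : bs1 K v₀ (K.vt v) = v := by simp only [bs1, K.nf_vt]

theorem bs1_ed (e : S) (x : I) (h0 : x ≠ 0) (h1 : x ≠ 1) : bs1 K v₀ (K.ed e x) = K.s e := by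
  simp only [bs1, K.nf_ed e x h0 h1]

theorem bs_sk1 {y : X} (hy : y ∈ K.sk1) : bs K v₀ y = bs1 K v₀ y := by
  rcases sk1_nf K hy with ⟨v, rfl⟩ | ⟨e, x, h0, h1, rfl⟩
  · simp only [bs, K.nf_vt]
  · simp only [bs, K.nf_ed e x h0 h1]

theorem bs_fc (f : R) (z : ℂ) (hz : ‖z‖ < 1) : bs K v₀ (K.fc f z) = bs1 K v₀ (K.fc f 1) := by
  simp only [bs, K.nf_fc f z hz]

theorem along [T2Space X] (hS : JobSEC) (h : R → I → FreeGroup S) (hW : K.Wd h) (f : R) (θ : I) :
    ∃ l, IsPath K.s K.t (bs1 K v₀ (K.fc f 1)) l (bs1 K v₀ (K.att f θ)) ∧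
      FreeGroup.mk l = h f θ := by
  classical
  set b := bs1 K v₀ (K.fc f 1) with hb
  have hc : Continuous fun θ => decide (∃ l, IsPath K.s K.t b l (bs1 K v₀ (K.att f θ)) ∧
      FreeGroup.mk l = h f θ) := by
    refine hS X V S R K I Bool (K.att f) (h f) (att_sk1 K f) (hW f).2
      (fun c v => decide (∃ l, IsPath K.s K.t b l v ∧ FreeGroup.mk l = c))
      (fun c e => ContinuousMap.const I
        (decide (∃ l, IsPath K.s K.t b l (K.s e) ∧ FreeGroup.mk l = c))) ?_ ?_ _ ?_ ?_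
    · intro c e
      rfl
    · intro c e
      exact decide_eq_decide.2 (step_iff b c e)
    · intro a v ha
      rw [ha, bs1_vt]
    · intro a e x h0 h1 ha
      rw [ha, bs1_ed K v₀ e x h0 h1]
      rfl
  have := PreconnectedSpace.constant inferInstance hc (x := θ) (y := 0)
  refine (decide_eq_decide.1 this).2 ⟨[], ?_, (hW f).1.symm⟩
  rw [att_apply, circ_zero]
  exact rfl

theorem closed_Q [T2Space X] (hS : JobSEC) (h : R → I → FreeGroup S) (hW : K.Wd h) (Q : V → Prop)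
    (hQ : ∀ a l b, IsPath K.s K.t a l b → (Q a ↔ Q b)) : IsClosed {y | Q (bs K v₀ y)} := by
  apply K.weak
  · intro e
    have : ∀ x, Q (bs K v₀ (K.ed e x)) ↔ Q (K.s e) := by
      intro x
      rw [bs_sk1 K v₀ (.inr ⟨e, x, rfl⟩)]
      by_cases h0 : x = 0
      · rw [h0, K.ed0, bs1_vt]
      by_cases h1 : x = 1
      · rw [h1, K.ed1, bs1_vt]
        exact hQ _ [(e, false)] _ ⟨rfl, rfl⟩
      rw [bs1_ed K v₀ e x h0 h1]
    simp only [preimage_ofPred_eq, this]
    exact isClosed_const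
  · intro f
    have : {z : ℂ | ‖z‖ ≤ 1 ∧ K.fc f z ∈ {y | Q (bs K v₀ y)}} =
        {z : ℂ | ‖z‖ ≤ 1} ∩ {_z | Q (bs1 K v₀ (K.fc f 1))} := by
      ext z
      simp only [mem_ofPred_eq, mem_inter_iff]
      refine and_congr_right fun hz => ?_
      rcases hz.eq_or_lt with h1 | h1
      · obtain ⟨θ, rfl⟩ := circ_surj z h1
        obtain ⟨l, hl, -⟩ := along K v₀ hS h hW f θ
        rw [← att_apply, bs_sk1 K v₀ (att_sk1 K f θ)]
        exact (hQ _ l _ hl).symm
      · rw [bs_fc K v₀ f z h1]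
    rw [this]
    exact (isClosed_le continuous_norm continuous_const).inter isClosed_const

end ConnX

open ConnX LiftX in
theorem jobCONN (hS : JobSEC) : JobCONN := by
  intro X V S R _ _ K h hW
  refine ⟨fun f => ?_, fun _ v v' => ?_⟩
  · obtain ⟨v₀⟩ : Nonempty V := by
      rcases att_sk1 K f 0 with ⟨v, -⟩ | ⟨e, -⟩
      exacts [⟨v⟩, ⟨K.s e⟩]
    obtain ⟨l, h1, h2⟩ := along K v₀ hS h hW f 1
    rw [att_apply, circ_one] at h1
    exact ⟨_, l, h1, h2⟩
  · have hQ : ∀ a l b, IsPath K.s K.t a l b →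
        ((∃ l, IsPath K.s K.t v l a) ↔ ∃ l, IsPath K.s K.t v l b) := by
      intro a l b hl
      constructor
      · rintro ⟨l', h'⟩
        exact ⟨_, path_append _ _ _ _ _ h' hl⟩
      · rintro ⟨l', h'⟩
        obtain ⟨l'', h''⟩ := reach_symm _ _ _ hl
        exact ⟨_, path_append _ _ _ _ _ h' h''⟩
    have h1 := closed_Q K v hS h hW _ hQ
    have h2 := closed_Q K v hS h hW _ fun a l b hl => not_congr (hQ a l b hl)
    have hcl : IsClopen {y | ∃ l, IsPath K.s K.t v l (bs K v y)} :=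
      ⟨h1, isClosed_compl_iff.1 h2⟩
    have hv : ∀ w, bs K v (K.vt w) = w := fun w => by
      rw [bs_sk1 K v (.inl ⟨w, rfl⟩), bs1_vt]
    have := hcl.eq_univ ⟨K.vt v, [], (hv v).symm⟩
    have h3 : K.vt v' ∈ {y | ∃ l, IsPath K.s K.t v l (bs K v y)} := this ▸ mem_univ _
    simpa [hv] using h3

end Crest.Agent.EG
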