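import Crest.Agent.EG.DefsA

/-! Row 197: the job DEG (equivariant mod 2 degree). -/

set_option autoImplicit false

open Set MeasureTheory Topology Filter

namespace Crest.Agent.EG

namespace DEGx

variable {E : Type} [NormedAddCommGroup E] [NormedSpace ℝ E]

/-- `a` on the `+1` eigenspace, `b` on the `-1` eigenspace -/
noncomputable def Am (σ : E →L[ℝ] E) (a b : ℝ) : E →L[ℝ] E :=
  ((a + b) / 2) • ContinuousLinearMap.id ℝ E + ((a - b) / 2) • σ

theorem Am_apply (σ : E →L[ℝ] E) (a b : ℝ) (y : E) :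
    Am σ a b y = ((a + b) / 2) • y + ((a - b) / 2) • σ y := rfl

theorem Am_Am {σ : E →L[ℝ] E} (hσ : ∀ z, σ (σ z) = z) (a b c d : ℝ) (y : E) :
    Am σ a b (Am σ c d y) = Am σ (a * c) (b * d) y := by
  simp only [Am_apply, map_add, map_smul, hσ]
  module

theorem Am_one (σ : E →L[ℝ] E) (y : E) : Am σ 1 1 y = y := by simp [Am_apply]

/-- the perturbation -/
noncomputable def Q (σ : E →L[ℝ] E) (ℓ : E →L[ℝ] ℝ) (y z : E) : E := Am σ (ℓ z ^ 2) (ℓ z ^ 3) y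

theorem Q_cd (σ : E →L[ℝ] E) (ℓ : E →L[ℝ] ℝ) (y : E) : ContDiff ℝ 1 (Q σ ℓ y) := by
  unfold Q
  simp only [Am_apply]
  fun_prop

theorem Q_zero (σ : E →L[ℝ] E) (ℓ : E →L[ℝ] ℝ) (y z : E) (h : ℓ z = 0) :
    Q σ ℓ y z = 0 ∧ fderiv ℝ (Q σ ℓ y) z = 0 := by
  refine ⟨by simp [Q, Am_apply, h], ?_⟩
  have e : Q σ ℓ y = fun z => (ℓ z * ℓ z) • Am σ 1 (ℓ z) y := by
    funext z; simp only [Q, Am_apply]; module
  have h1 : HasFDerivAt (fun z => ℓ z * ℓ z) (0 : E →L[ℝ] ℝ) z := by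
    have := ℓ.hasFDerivAt.fun_mul (ℓ.hasFDerivAt (x := z))
    rwa [h, zero_smul, add_zero] at this
  have h2 : DifferentiableAt ℝ (fun z => Am σ 1 (ℓ z) y) z := by
    simp only [Am_apply]; fun_prop
  have := h1.fun_smul h2.hasFDerivAt
  rw [e]
  simpa [h] using this.fderiv

theorem step [FiniteDimensional ℝ E] {σ : E →L[ℝ] E} (hσ : ∀ z, σ (σ z) = z) (ℓ : E →L[ℝ] ℝ)
    {U : Set E} {g : E → E} {g' : E → E →L[ℝ] E}
    (hg : ∀ z ∈ U, HasFDerivAt g (g' z) z) {r : ℝ} (hr : 0 < r) :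
    ∃ y : E, ‖y‖ < r ∧ ∀ z ∈ U, ℓ z ≠ 0 → g z = Q σ ℓ y z →
      Function.Injective (g' z - fderiv ℝ (Q σ ℓ y) z) := by
  borelize E
  let μ : Measure E := Measure.addHaar
  let H : E → E := fun z => Am σ (ℓ z ^ 2)⁻¹ (ℓ z ^ 3)⁻¹ (g z)
  have hH : ∀ z ∈ U, ℓ z ≠ 0 → DifferentiableAt ℝ H z := by
    intro z hz hl
    have := (hg z hz).differentiableAt
    simp only [H, Am_apply]
    have h2 : ℓ z ^ 2 ≠ 0 := pow_ne_zero _ hl
    have h3 : ℓ z ^ 3 ≠ 0 := pow_ne_zero _ hl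
    fun_prop (disch := assumption)
  let S : Set E := {z | z ∈ U ∧ ℓ z ≠ 0 ∧ (fderiv ℝ H z).det = 0}
  have hS : μ (H '' S) = 0 := addHaar_image_eq_zero_of_det_fderivWithin_eq_zero μ
    (f' := fun z => fderiv ℝ H z) (fun z hz => (hH z hz.1 hz.2.1).hasFDerivAt.hasFDerivWithinAt)
    fun z hz => hz.2.2
  obtain ⟨y, hy, hy'⟩ : ∃ y ∈ Metric.ball (0 : E) r, y ∉ H '' S := by
    by_contra hc
    push Not at hc
    exact (Metric.measure_ball_pos μ 0 hr).ne' (measure_mono_null hc hS)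
  refine ⟨y, by simpa using hy, fun z hz hl e => ?_⟩
  have h2 : ∀ z, ℓ z ≠ 0 → ∀ v, Am σ (ℓ z ^ 2) (ℓ z ^ 3) (Am σ (ℓ z ^ 2)⁻¹ (ℓ z ^ 3)⁻¹ v) = v := by
    intro z hl v
    rw [Am_Am hσ, mul_inv_cancel₀ (pow_ne_zero _ hl), mul_inv_cancel₀ (pow_ne_zero _ hl), Am_one]
  have h3 : ∀ v, Am σ (ℓ z ^ 2)⁻¹ (ℓ z ^ 3)⁻¹ (Am σ (ℓ z ^ 2) (ℓ z ^ 3) v) = v := by
    intro v
    rw [Am_Am hσ, inv_mul_cancel₀ (pow_ne_zero _ hl), inv_mul_cancel₀ (pow_ne_zero _ hl), Am_one]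
  have hHz : H z = y := by simp only [H, e, Q, h3]
  have hdet : (fderiv ℝ H z).det ≠ 0 := fun h => hy' ⟨z, ⟨hz, hl, h⟩, hHz⟩
  have hc : DifferentiableAt ℝ (fun z => Am σ (ℓ z ^ 2) (ℓ z ^ 3)) z := by
    unfold Am; fun_prop
  have d1 := hc.hasFDerivAt.clm_apply ((hH z hz hl).hasFDerivAt.sub_const y)
  have d2 := (hg z hz).sub ((Q_cd σ ℓ y).differentiable one_ne_zero z).hasFDerivAt
  have ev : (g - Q σ ℓ y) =ᶠ[𝓝 z] fun z => Am σ (ℓ z ^ 2) (ℓ z ^ 3) (H z - y) := by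
    filter_upwards [ℓ.continuous.continuousAt.eventually_ne hl] with z' hz'
    simp only [map_sub, H, h2 z' hz', Q, Pi.sub_apply]
  have := d2.unique (d1.congr_of_eventuallyEq ev)
  rw [this, hHz, sub_self, map_zero, add_zero]
  have i1 : Function.Injective (Am σ (ℓ z ^ 2) (ℓ z ^ 3)) := Function.LeftInverse.injective h3
  have i2 : Function.Injective (fderiv ℝ H z) :=
    (LinearMap.equivOfDetNeZero (fderiv ℝ H z : E →ₗ[ℝ] E) hdet).injective
  exact i1.comp i2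

theorem perturb [FiniteDimensional ℝ E] {τ σ : E →L[ℝ] E} (hσ : ∀ z, σ (σ z) = z)
    {U : Set E} {f : E → E} {f' : E → E →L[ℝ] E}
    (hf : ∀ z ∈ U, HasFDerivAt f (f' z) z) {C : Set E} (hC : IsCompact C)
    (Ls : List (E →L[ℝ] ℝ)) (hL : ∀ ℓ ∈ Ls, ∀ z, ℓ (τ z) = -ℓ z) :
    ∀ ε > 0, ∃ P : E → E, ContDiff ℝ 1 P ∧ (∀ z, P (τ z) = σ (P z)) ∧ (∀ z ∈ C, ‖P z‖ ≤ ε) ∧
      (∀ z, (∀ ℓ ∈ Ls, ℓ z = 0) → P z = 0 ∧ fderiv ℝ P z = 0) ∧
      ∀ z ∈ U, (∃ ℓ ∈ Ls, ℓ z ≠ 0) → f z = P z → Function.Injective (f' z - fderiv ℝ P z) := by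
  induction Ls with
  | nil => exact fun ε hε => ⟨0, contDiff_const, by simp, by simp [hε.le], by simp, by simp⟩
  | cons ℓ Ls ih =>
    intro ε hε
    obtain ⟨P, h1, h2, h3, h4, h5⟩ := ih (fun ℓ h => hL ℓ (List.mem_cons_of_mem _ h)) (ε / 2)
      (by positivity)
    have hP := h1.differentiable one_ne_zero
    have hc : Continuous fun z => Am σ (ℓ z ^ 2) (ℓ z ^ 3) := by unfold Am; fun_prop
    obtain ⟨M, hM⟩ := hC.exists_bound_of_continuousOn hc.continuousOn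
    obtain ⟨y, hy, hy'⟩ := step hσ ℓ (g := f - P) (g' := fun z => f' z - fderiv ℝ P z)
      (fun z hz => (hf z hz).sub (hP z).hasFDerivAt) (r := ε / 2 / (|M| + 1)) (by positivity)
    have hQ := (Q_cd σ ℓ y).differentiable one_ne_zero
    have hd : ∀ z, fderiv ℝ (P + Q σ ℓ y) z = fderiv ℝ P z + fderiv ℝ (Q σ ℓ y) z := fun z =>
      fderiv_add (hP z) (hQ z)
    refine ⟨P + Q σ ℓ y, h1.add (Q_cd σ ℓ y), fun z => ?_, fun z hz => ?_, fun z hz => ?_,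
      fun z hz hz' e => ?_⟩
    · simp only [Pi.add_apply, h2, map_add, Q, hL ℓ List.mem_cons_self, Am_apply, map_smul, hσ]
      module
    · have a1 : ‖Q σ ℓ y z‖ ≤ (|M| + 1) * (ε / 2 / (|M| + 1)) :=
        (ContinuousLinearMap.le_opNorm _ _).trans (mul_le_mul
          ((hM z hz).trans (by linarith [le_abs_self M])) hy.le (norm_nonneg _) (by positivity))
      rw [mul_div_cancel₀ _ (by positivity)] at a1
      have := norm_add_le (P z) (Q σ ℓ y z)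
      have := h3 z hz
      simp only [Pi.add_apply]; linarith
    · obtain ⟨a1, a2⟩ := h4 z fun ℓ h => hz ℓ (List.mem_cons_of_mem _ h)
      obtain ⟨a3, a4⟩ := Q_zero σ ℓ y z (hz ℓ List.mem_cons_self)
      simp [hd, a1, a2, a3, a4]
    · rw [hd, ← sub_sub]
      by_cases hl : ℓ z = 0
      · obtain ⟨a3, a4⟩ := Q_zero σ ℓ y z hl
        rw [a4, sub_zero]
        refine h5 z hz ?_ (by simpa [a3] using e)
        obtain ⟨ℓ', h, h'⟩ := hz'
        rcases List.mem_cons.1 h with rfl | h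
        · exact absurd hl h'
        · exact ⟨ℓ', h, h'⟩
      · exact hy' z hz hl (by simp [e])

theorem odd_card {T : Type} {Z : Set T} (hZ : Z.Finite) (τ : T → T) (hτ : ∀ z, τ (τ z) = z)
    (h1 : ∀ z ∈ Z, τ z ∈ Z) {z₀ : T} (h0 : z₀ ∈ Z) (h2 : τ z₀ = z₀)
    (h3 : ∀ z ∈ Z, τ z = z → z = z₀) : Odd Z.ncard := by
  classical
  have hs : ∑ _z ∈ hZ.toFinset.erase z₀, (1 : ZMod 2) = 0 := by
    refine Finset.sum_involution (fun z _ => τ z) (fun _ _ => rfl) ?_ ?_ fun z _ => hτ z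
    · intro z hz _ e
      simp only [Finset.mem_erase, Finite.mem_toFinset] at hz
      exact hz.1 (h3 z hz.2 e)
    · intro z hz
      simp only [Finset.mem_erase, Finite.mem_toFinset] at hz ⊢
      exact ⟨fun e => hz.1 (by rw [← hτ z, e, h2]), h1 z hz.2⟩
  rw [Finset.sum_const, nsmul_one, ZMod.natCast_eq_zero_iff_even] at hs
  rw [ncard_eq_toFinset_card Z hZ, ← Finset.card_erase_add_one (hZ.mem_toFinset.2 h0)]
  exact hs.add_one

end DEGx

open DEGx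

theorem jobDEG (h : JobDEG1) : JobDEG := by
  intro E _ _ _ 𝒰 F F' hH τ σ hτ hσ heq z₀ hz₀ hF₀ hτ₀ hinj huniq
  obtain ⟨𝒦, hK, hZK, hKU⟩ := exists_compact_between hH.cpt hH.op fun p hp => hp.1
  have hbad : IsCompact (((𝒦 ∩ {p | p.1 ∈ Icc (0 : ℝ) 1}) \ interior 𝒦) ∪
      ((𝒦 ∩ {p | p.1 = 0}) \ (fun p : ℝ × E => ((0 : ℝ), τ p.2)) ⁻¹' interior 𝒦)) := by
    refine IsCompact.union (IsCompact.diff (hK.inter_right ?_) isOpen_interior)
      (IsCompact.diff (hK.inter_right ?_) (isOpen_interior.preimage (by fun_prop)))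
    · exact isClosed_Icc.preimage continuous_fst
    · exact isClosed_eq continuous_fst continuous_const
  obtain ⟨ε, hε, hε'⟩ := hbad.exists_forall_le' (f := fun p => ‖F p‖) (a := 0)
    ((hH.cont.mono (by rintro p (hp | hp) <;> exact hKU hp.1.1)).norm) (by
      rintro ⟨s, z⟩ (⟨⟨a1, a2⟩, a3⟩ | ⟨⟨a1, a2⟩, a3⟩) <;> refine norm_pos_iff.2 fun e => a3 ?_
      · exact hZK ⟨hKU a1, a2, e⟩
      · obtain rfl : s = 0 := a2
        obtain ⟨b1, b2⟩ := heq z (hKU a1)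
        exact hZK ⟨b1, by simp, by rw [b2, e, map_zero]⟩)
  let b := Module.finBasis ℝ E
  let Ls : List (E →L[ℝ] ℝ) := List.ofFn fun i =>
    (LinearMap.toContinuousLinearMap (b.coord i)).comp (ContinuousLinearMap.id ℝ E - τ)
  have hLs : ∀ z, (∀ ℓ ∈ Ls, ℓ z = 0) ↔ τ z = z := fun z => by
    simp only [Ls, List.mem_ofFn, forall_exists_index, forall_apply_eq_imp_iff]
    refine ⟨fun h => (sub_eq_zero.1 (b.forall_coord_eq_zero_iff.1 h)).symm, fun h i => by simp [h]⟩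
  obtain ⟨P, h1, h2, h3, h4, h5⟩ := perturb (τ := τ) hσ (U := {z | (0, z) ∈ 𝒰})
    (f := fun z => F (0, z)) (f' := fun z => F' (0, z))
    (fun z hz => hH.der (0, z) hz) (hK.image continuous_snd) Ls (by
      intro ℓ hℓ z
      obtain ⟨i, rfl⟩ := List.mem_ofFn.1 hℓ
      simp [hτ]) (ε / 2) (by positivity)
  have hP := h1.differentiable one_ne_zero
  let G : ℝ × E → E := fun p => F p - (1 - p.1) • P p.2
  let G' : ℝ × E → E →L[ℝ] E := fun p => F' p - (1 - p.1) • fderiv ℝ P p.2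
  have hGc : ContinuousOn G 𝒰 := hH.cont.sub (by have := h1.continuous; fun_prop)
  have hsm : ∀ p ∈ 𝒦, p.1 ∈ Icc (0 : ℝ) 1 → G p = 0 → ‖F p‖ < ε := by
    intro p hp hs e
    have := h3 p.2 ⟨p, hp, rfl⟩
    rw [sub_eq_zero.1 e, norm_smul, Real.norm_of_nonneg (by linarith [hs.2])]
    nlinarith [hs.1, hs.2, norm_nonneg (P p.2)]
  have hG : Hty (interior 𝒦) G G' := by
    have hsub : interior 𝒦 ⊆ 𝒰 := interior_subset.trans hKU
    refine ⟨isOpen_interior, hGc.mono hsub, (hH.cont'.mono hsub).sub ?_, fun p hp =>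
      (hH.der p (hsub hp)).sub ((hP p.2).hasFDerivAt.const_smul (1 - p.1)), ?_⟩
    · have := h1.continuous_fderiv one_ne_zero
      fun_prop
    · have : {p | p ∈ interior 𝒦 ∧ p.1 ∈ Icc (0 : ℝ) 1 ∧ G p = 0} =
          (𝒦 ∩ G ⁻¹' {0}) ∩ {p | p.1 ∈ Icc (0 : ℝ) 1} := by
        ext p
        refine ⟨fun hp => ⟨⟨interior_subset hp.1, hp.2.2⟩, hp.2.1⟩, fun hp => ⟨?_, hp.2, hp.1.2⟩⟩
        by_contra hc
        exact (hε' p (Or.inl ⟨⟨hp.1.1, hp.2⟩, hc⟩)).not_gt (hsm p hp.1.1 hp.2 hp.1.2)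
      rw [this]
      exact (hK.of_isClosed_subset ((hGc.mono hKU).preimage_isClosed_of_isClosed hK.isClosed
        isClosed_singleton) inter_subset_left).inter_right (isClosed_Icc.preimage continuous_fst)
  have hfix : ∀ z, (0, z) ∈ interior 𝒦 → G (0, z) = 0 → τ z = z → z = z₀ := by
    intro z a1 a2 a3
    exact huniq z (hKU (interior_subset a1)) (by simpa [G, (h4 z ((hLs z).2 a3)).1] using a2) a3
  have hreg : ∀ z, (0, z) ∈ interior 𝒦 → G (0, z) = 0 → Function.Injective (G' (0, z)) := by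
    intro z a1 a2
    by_cases a3 : τ z = z
    · obtain rfl := hfix z a1 a2 a3
      simpa [G', (h4 z ((hLs z).2 a3)).2] using hinj
    · have := h5 z (hKU (interior_subset a1)) (by
        by_contra hc
        push Not at hc
        exact a3 ((hLs z).1 hc)) (by simpa [G, sub_eq_zero] using a2)
      simpa [G'] using this
  have hfin : {z | (0, z) ∈ interior 𝒦 ∧ G (0, z) = 0}.Finite := by
    have hc : IsCompact {z | (0, z) ∈ interior 𝒦 ∧ G (0, z) = 0} := by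
      have := (hG.cpt.inter_right (isClosed_eq continuous_fst (continuous_const (y := 0)))).image
        continuous_snd
      convert this using 1
      ext z
      constructor
      · exact fun hz => ⟨(0, z), ⟨⟨hz.1, by simp, hz.2⟩, rfl⟩, rfl⟩
      · rintro ⟨⟨s, z⟩, ⟨hz, hs⟩, rfl⟩
        obtain rfl : s = 0 := hs
        exact ⟨hz.1, hz.2.2⟩
    refine hc.finite (isDiscrete_iff_nhdsNE.2 fun z hz => ?_)
    obtain ⟨K, -, hK'⟩ := LinearMap.exists_antilipschitzWith (G' (0, z) : E →ₗ[ℝ] E)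
      (LinearMap.ker_eq_bot.2 (hreg z hz.1 hz.2))
    have := (hG.der (0, z) hz.1).eventually_ne (c := 0) ⟨K, hK'⟩
    rw [inf_principal_eq_bot]
    filter_upwards [this] with z' hz' hz''
    exact hz' hz''.2
  obtain ⟨z, a1, a2⟩ := h E _ G G' hG hfin (odd_card hfin τ hτ (z₀ := z₀) (by
      rintro z ⟨a1, a2⟩
      obtain ⟨-, b2⟩ := heq z (hKU (interior_subset a1))
      refine ⟨?_, ?_⟩
      · by_contra hc
        exact (hε' (0, z) (Or.inr ⟨⟨interior_subset a1, rfl⟩, hc⟩)).not_gt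
          (hsm _ (interior_subset a1) (by simp) a2)
      · have : F (0, z) = P z := by simpa [G, sub_eq_zero] using a2
        simp [G, b2, h2, this])
    ⟨hZK ⟨hz₀, by simp, hF₀⟩, by simp [G, hF₀, (h4 z₀ ((hLs z₀).2 hτ₀)).1]⟩ hτ₀
    fun z hz => hfix z hz.1 hz.2) hreg
  exact ⟨z, hKU (interior_subset a1), by simpa [G] using a2⟩

end Crest.Agent.EG
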