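import Crest.Agent.EG.DEG1a

/-! Row 197, job DEG1: mod 2 degree. -/

set_option autoImplicit false

open Set MeasureTheory Filter Topology Metric

namespace Crest.Agent.EG

namespace DEG1

variable {E : Type} [NormedAddCommGroup E] [NormedSpace ℝ E] [FiniteDimensional ℝ E]

theorem lemE [MeasurableSpace E] [BorelSpace E] (μ : Measure E) [μ.IsAddHaarMeasure]
    {U A : Set E} (hU : IsOpen U) (hA : IsCompact A) (hAU : A ⊆ U) {f : E → E}
    {f' : E → E →L[ℝ] E} (hf : ∀ z ∈ U, HasFDerivAt f (f' z) z) (hf' : ContinuousOn f' U)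
    (S : Finset E) (hS : ∀ z ∈ A, f z = 0 → z ∈ S) (hS0 : ∀ z ∈ S, f z = 0)
    (hSA : ∀ z ∈ S, z ∈ interior A) (hodd : Odd S.card)
    (hinj : ∀ z ∈ S, Function.Injective (f' z)) :
    ∀ᶠ ε in 𝓝[>] (0 : ℝ), ∀ φ : E → ℝ, Continuous φ → (∀ y, 0 ≤ φ y) → 0 < φ 0 →
      (∀ y, ε ≤ ‖y‖ → φ y = 0) → ∫ z in A, φ (f z) * (f' z).det ∂μ ≠ 0 := by
  classical
  have hfc : ContinuousOn f A := fun z hz =>
    (hf z (hAU hz)).continuousAt.continuousWithinAt
  have hdet : ∀ z ∈ S, (f' z).det ≠ 0 := by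
    intro z hz h0
    exact (LinearMap.det_eq_zero_iff_ker_ne_bot.1 h0) (LinearMap.ker_eq_bot.2 (hinj z hz))
  let σ : E → ℤ := fun z => if 0 < (f' z).det then 1 else -1
  have hball : ∀ z : E, ∀ N ∈ 𝓝 z, ∀ᶠ r in 𝓝[>] (0 : ℝ), ball z r ⊆ N := by
    intro z N hN
    exact (eventually_ball_subset hN).filter_mono nhdsWithin_le_nhds
  have hloc : ∀ z ∈ S, ∀ᶠ r in 𝓝[>] (0 : ℝ), ball z r ⊆ A ∧ InjOn f (ball z r) ∧
      (∀ x ∈ ball z r, (f' x).det = (σ z : ℝ) * |(f' x).det|) ∧ f '' ball z r ∈ 𝓝 (0 : E) := by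
    intro z hz
    have hzU : U ∈ 𝓝 z := hU.mem_nhds (hAU (interior_subset (hSA z hz)))
    have hc : ContinuousAt f' z := hf'.continuousAt hzU
    have hs : HasStrictFDerivAt f (f' z) z :=
      hasStrictFDerivAt_of_hasFDerivAt_of_continuousAt (by filter_upwards [hzU] using hf) hc
    have hs' : HasStrictFDerivAt f
        ((f' z).toContinuousLinearEquivOfDetNeZero (hdet z hz) : E →L[ℝ] E) z := by
      simpa using hs
    have hcd : ContinuousAt (fun x => (f' x).det) z :=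
      ContinuousLinearMap.continuous_det.continuousAt.comp hc
    have hsign : ∀ᶠ x in 𝓝 z, (f' x).det = (σ z : ℝ) * |(f' x).det| := by
      by_cases hp : 0 < (f' z).det
      · filter_upwards [hcd.eventually (lt_mem_nhds hp)] with x hx
        simp [σ, hp, abs_of_pos hx]
      · have hn : (f' z).det < 0 := lt_of_le_of_ne (not_lt.1 hp) (hdet z hz)
        filter_upwards [hcd.eventually (gt_mem_nhds hn)] with x hx
        simp [σ, hp, abs_of_neg hx]
    have hsrc := (hs'.toOpenPartialHomeomorph f).open_source.mem_nhds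
      hs'.mem_toOpenPartialHomeomorph_source
    filter_upwards [hball z _ (mem_interior_iff_mem_nhds.1 (hSA z hz)), hball z _ hsign,
      hball z _ hsrc, self_mem_nhdsWithin] with r h1 h2 h3 h4
    refine ⟨h1, (hs'.toOpenPartialHomeomorph f).injOn.mono h3, h2, ?_⟩
    rw [← hS0 z hz, ← hs'.map_nhds_eq_of_equiv]
    exact image_mem_map (ball_mem_nhds z h4)
  have hdisj : ∀ z ∈ S, ∀ᶠ r in 𝓝[>] (0 : ℝ), ∀ z' ∈ S, z ≠ z' → Disjoint (ball z r) (ball z' r) := by
    intro z _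
    refine (Finset.eventually_all S).2 fun z' _ => ?_
    by_cases h : z = z'
    · simp [h]
    have hd : 0 < dist z z' / 2 := by have := dist_pos.2 h; positivity
    filter_upwards [nhdsWithin_le_nhds (gt_mem_nhds hd)] with r hr _
    exact ball_disjoint_ball (by linarith)
  obtain ⟨r, ⟨hr1, hr2⟩, hr0⟩ := ((((Finset.eventually_all S).2 hloc).and
    ((Finset.eventually_all S).2 hdisj)).and self_mem_nhdsWithin).exists
  have hr0 : 0 < r := hr0
  set O : Set E := ⋃ z ∈ S, ball z r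
  have hO : IsOpen O := isOpen_biUnion fun z _ => isOpen_ball
  have hOA : O ⊆ A := iUnion₂_subset fun z hz => (hr1 z hz).1
  have hcl : IsClosed (f '' (A \ O)) := ((hA.diff hO).image_of_continuousOn
    (hfc.mono diff_subset)).isClosed
  have h0 : (f '' (A \ O))ᶜ ∈ 𝓝 (0 : E) := by
    refine hcl.isOpen_compl.mem_nhds ?_
    rintro ⟨z, ⟨hz1, hz2⟩, hz3⟩
    exact hz2 (mem_biUnion (hS z hz1 hz3) (mem_ball_self hr0))
  filter_upwards [hball 0 _ h0, (Finset.eventually_all S).2 fun z hz => hball 0 _ (hr1 z hz).2.2.2]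
    with ε h1 h2 φ hφ hφ0 hφ1 hφ2
  have hφ3 : ∀ y, y ∉ ball (0 : E) ε → φ y = 0 := fun y hy => hφ2 y (by simpa using hy)
  have hc : 0 < ∫ y, φ y ∂μ :=
    hφ.integral_pos_of_hasCompactSupport_nonneg_nonzero
      (HasCompactSupport.intro (isCompact_closedBall (0 : E) ε)
        fun y hy => hφ3 y fun h => hy (ball_subset_closedBall h)) hφ0 hφ1.ne'
  have hint : IntegrableOn (fun z => φ (f z) * (f' z).det) A μ :=
    ContinuousOn.integrableOn_compact hA ((hφ.comp_continuousOn hfc).mul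
      (ContinuousLinearMap.continuous_det.comp_continuousOn (hf'.mono hAU)))
  rw [setIntegral_eq_of_subset_of_forall_sdiff_eq_zero hA.measurableSet hOA
    (fun z hz => by rw [hφ3 _ fun h => h1 h (mem_image_of_mem f hz), zero_mul]),
    integral_biUnion_finset S (fun z _ => measurableSet_ball)
      (fun z hz z' hz' h => hr2 z hz z' hz' h) (fun z hz => hint.mono_set (hr1 z hz).1)]
  have hz : ∀ z ∈ S, ∫ x in ball z r, φ (f x) * (f' x).det ∂μ = (σ z : ℝ) * ∫ y, φ y ∂μ := by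
    intro z hz
    obtain ⟨a1, a2, a3, a4⟩ := hr1 z hz
    have := integral_image_eq_integral_abs_det_fderiv_smul μ measurableSet_ball
      (fun x hx => (hf x (hAU (a1 hx))).hasFDerivWithinAt) a2 φ
    rw [setIntegral_eq_integral_of_forall_compl_eq_zero
      (fun y hy => hφ3 y fun h => hy (h2 z hz h))] at this
    rw [this, ← integral_const_mul]
    refine setIntegral_congr_fun measurableSet_ball fun x hx => ?_
    simp only [smul_eq_mul]
    conv_lhs => rw [a3 x hx]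
    ring
  rw [Finset.sum_congr rfl hz, ← Finset.sum_mul, ← Int.cast_sum]
  refine mul_ne_zero ?_ hc.ne'
  intro h
  have h : ∑ z ∈ S, σ z = 0 := by exact_mod_cast h
  have h' : ((∑ z ∈ S, σ z : ℤ) : ZMod 2) = (S.card : ZMod 2) := by
    rw [Int.cast_sum, Finset.card_eq_sum_ones, Nat.cast_sum]
    refine Finset.sum_congr rfl fun z _ => ?_
    simp only [σ]
    split_ifs <;> decide
  rw [h, (ZMod.natCast_eq_one_iff_odd).2 hodd] at h'
  exact absurd h' (by decide)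

theorem slice {𝒰 : Set (ℝ × E)} {F : ℝ × E → E} {F' : ℝ × E → E →L[ℝ] E} (H : Hty 𝒰 F F')
    {s : ℝ} {z : E} (hz : (s, z) ∈ 𝒰) : ContDiffAt ℝ 1 (fun z => F (s, z)) z := by
  have hc : Continuous fun z : E => (s, z) := by fun_prop
  refine contDiffAt_one_iff.2 ⟨fun z => F' (s, z), {z | (s, z) ∈ 𝒰},
    (H.op.preimage hc).mem_nhds hz, H.cont'.comp hc.continuousOn fun _ h => h,
    fun x hx => H.der (s, x) hx⟩

theorem lemD (h : JobNL) [MeasurableSpace E] [BorelSpace E] (μ : Measure E) [μ.IsAddHaarMeasure]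
    {𝒰 : Set (ℝ × E)} {F : ℝ × E → E} {F' : ℝ × E → E →L[ℝ] E} (H : Hty 𝒰 F F')
    {𝒦 : Set (ℝ × E)} (hK : IsCompact 𝒦) (hKU : 𝒦 ⊆ 𝒰) {ε : ℝ} (hε : 0 < ε) {s₀ : ℝ}
    (hb : ∀ z, (s₀, z) ∈ 𝒦 → ‖F (s₀, z)‖ ≤ 2 * ε → (s₀, z) ∈ interior 𝒦)
    {ψ : E → E} (hψ : ContDiff ℝ 1 ψ) (hψ0 : ∀ y, ε ≤ ‖y‖ → (fderiv ℝ ψ y).det = 0) :
    ∀ᶠ s in 𝓝 s₀,
      ∫ z in {z | (s, z) ∈ 𝒦}, (fderiv ℝ ψ (F (s, z))).det * (F' (s, z)).det ∂μ =
      ∫ z in {z | (s₀, z) ∈ 𝒦}, (fderiv ℝ ψ (F (s₀, z))).det * (F' (s₀, z)).det ∂μ := by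
  have hc : ∀ s : ℝ, Continuous fun z : E => (s, z) := fun s => by fun_prop
  have hA : ∀ s : ℝ, IsCompact {z | (s, z) ∈ 𝒦} := fun s =>
    (hK.image continuous_snd).of_isClosed_subset (hK.isClosed.preimage (hc s))
      fun z hz => ⟨_, hz, rfl⟩
  have hFK : ContinuousOn F 𝒦 := H.cont.mono hKU
  set K₀ : Set E := {z | (s₀, z) ∈ 𝒦} ∩ (fun z => ‖F (s₀, z)‖) ⁻¹' Iic (2 * ε)
  have hK₀ : IsCompact K₀ :=
    (hA s₀).of_isClosed_subset (ContinuousOn.preimage_isClosed_of_isClosed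
      (hFK.comp (hc s₀).continuousOn fun _ h => h).norm (hA s₀).isClosed isClosed_Iic)
      inter_subset_left
  obtain ⟨K₁, hK₁, h01, h1W⟩ := exists_compact_between hK₀
    (isOpen_interior.preimage (hc s₀) : IsOpen {z | (s₀, z) ∈ interior 𝒦})
    fun z hz => hb z hz.1 hz.2
  obtain ⟨K₂, hK₂, h12, h2W⟩ := exists_compact_between hK₁
    (isOpen_interior.preimage (hc s₀) : IsOpen {z | (s₀, z) ∈ interior 𝒦}) h1W
  obtain ⟨χ, hχ, hχ1, hχ0, hχI⟩ := cutoff hK₀.isClosed h01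
  have ev1 : ∀ᶠ s in 𝓝 s₀, ∀ z ∈ K₂, (s, z) ∈ 𝒦 ∧ ‖F (s, z) - F (s₀, z)‖ < ε := by
    refine hK₂.eventually_forall_of_forall_eventually fun z hz => ?_
    have hz' : 𝒦 ∈ 𝓝 (s₀, z) := mem_interior_iff_mem_nhds.1 (h2W hz)
    have c1 : ContinuousAt F (s₀, z) := hFK.continuousAt hz'
    have c2 : ContinuousAt (fun p : ℝ × E => F (s₀, p.2)) (s₀, z) :=
      ContinuousAt.comp (f := fun p : ℝ × E => (s₀, p.2)) (g := F) c1 (by fun_prop)
    have c3 := (c1.sub c2).norm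
    have := c3.eventually (gt_mem_nhds (show ‖F (s₀, z) - F (s₀, z)‖ < ε by simpa using hε))
    filter_upwards [hz', this] with p hp1 hp2
    exact ⟨hp1, hp2⟩
  have ev2 : ∀ᶠ s in 𝓝 s₀, ∀ z, (s, z) ∈ 𝒦 → ‖F (s, z)‖ ≤ ε → z ∈ K₁ := by
    set C : Set (ℝ × E) := (𝒦 ∩ (fun p => ‖F p‖) ⁻¹' Iic ε) ∩ Prod.snd ⁻¹' (interior K₁)ᶜ
    have hC : IsCompact C :=
      (hK.of_isClosed_subset (ContinuousOn.preimage_isClosed_of_isClosed hFK.norm hK.isClosed
        isClosed_Iic) inter_subset_left).inter_right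
        (isOpen_interior.isClosed_compl.preimage continuous_snd)
    have : (Prod.fst '' C)ᶜ ∈ 𝓝 s₀ := by
      refine (hC.image continuous_fst).isClosed.isOpen_compl.mem_nhds ?_
      rintro ⟨⟨s, z⟩, ⟨⟨p1, p2⟩, p3⟩, rfl⟩
      refine p3 (h01 ⟨p1, ?_⟩)
      simp only [mem_preimage, mem_Iic] at p2 ⊢
      linarith
    filter_upwards [this] with s hs z h1 h2
    by_contra h3
    exact hs ⟨(s, z), ⟨⟨h1, h2⟩, fun h => h3 (interior_subset h)⟩, rfl⟩
  have red : ∀ s, (∀ z ∈ K₂, (s, z) ∈ 𝒦) → (∀ z, (s, z) ∈ 𝒦 → ‖F (s, z)‖ ≤ ε → z ∈ K₁) →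
      ∫ z in {z | (s, z) ∈ 𝒦}, (fderiv ℝ ψ (F (s, z))).det * (F' (s, z)).det ∂μ =
      ∫ z in K₁, (fderiv ℝ ψ (F (s, z))).det * (F' (s, z)).det ∂μ := by
    intro s h1 h2
    refine setIntegral_eq_of_subset_of_forall_sdiff_eq_zero (hA s).measurableSet
      (fun z hz => h1 z (interior_subset (h12 hz))) fun z hz => ?_
    rw [hψ0 _ (le_of_not_ge fun h => hz.2 (h2 z hz.1 h)), zero_mul]
  have dcomp : ∀ (g : E → E) (z : E), ContDiffAt ℝ 1 g z →
      (fderiv ℝ (fun x => ψ (g x)) z).det = (fderiv ℝ ψ (g z)).det * (fderiv ℝ g z).det := by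
    intro g z hg
    have := fderiv_comp z (hψ.differentiable one_ne_zero (g z)) (hg.differentiableAt one_ne_zero)
    rw [show (fun x => ψ (g x)) = ψ ∘ g from rfl, this]
    exact LinearMap.det_comp _ _
  have e1 := ev1.self_of_nhds
  have e2 := ev2.self_of_nhds
  filter_upwards [ev1, ev2] with s h1 h2
  rw [red s (fun z hz => (h1 z hz).1) h2, red s₀ (fun z hz => (e1 z hz).1) e2]
  let g : E → E := fun z => F (s₀, z) + χ z • (F (s, z) - F (s₀, z))
  have hf₀ : ∀ z ∈ interior K₂, ContDiffAt ℝ 1 (fun z => F (s₀, z)) z := fun z hz =>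
    slice H (hKU (e1 z (interior_subset hz)).1)
  have hg : ∀ z ∈ interior K₂, ContDiffAt ℝ 1 g z := fun z hz =>
    (hf₀ z hz).add (hχ.contDiffAt.smul
      ((slice H (hKU (h1 z (interior_subset hz)).1)).sub (hf₀ z hz)))
  have key := lemA h μ isOpen_interior hK₁ h12 (u := fun z => ψ (g z))
    (v := fun z => ψ (F (s₀, z))) (fun z hz => hψ.contDiffAt.comp z (hg z hz))
    (fun z hz => hψ.contDiffAt.comp z (hf₀ z hz)) (fun z _ hz => by simp [g, hχ0 z hz])
  refine Eq.trans ?_ (key.trans ?_)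
  · refine setIntegral_congr_fun hK₁.measurableSet fun z hz => ?_
    have hz2 := h12 hz
    have hz3 := h1 z (interior_subset hz2)
    rw [dcomp g z (hg z hz2)]
    by_cases hzK : z ∈ K₀
    · have hev : g =ᶠ[𝓝 z] fun z => F (s, z) := by
        filter_upwards [hχ1.filter_mono (nhds_le_nhdsSet hzK)] with x hx
        simp [g, hx]
      rw [hev.fderiv_eq, hev.eq_of_nhds, (H.der (s, z) (hKU hz3.1)).fderiv]
    · have hbig : 2 * ε < ‖F (s₀, z)‖ := by
        by_contra hn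
        exact hzK ⟨(e1 z (interior_subset hz2)).1, not_lt.1 hn⟩
      have b1 : ε ≤ ‖F (s, z)‖ := by
        have := norm_sub_norm_le (F (s₀, z)) (F (s, z))
        rw [norm_sub_rev] at this
        linarith [hz3.2]
      have b2 : ε ≤ ‖g z‖ := by
        have t1 := norm_sub_norm_le (F (s₀, z)) (g z)
        have t2 : ‖F (s₀, z) - g z‖ ≤ ‖F (s, z) - F (s₀, z)‖ := by
          simp only [g, sub_add_cancel_left, norm_neg, norm_smul, Real.norm_eq_abs,
            abs_of_nonneg (hχI z).1]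
          exact mul_le_of_le_one_left (norm_nonneg _) (hχI z).2
        linarith [hz3.2]
      rw [hψ0 _ b1, hψ0 _ b2, zero_mul, zero_mul]
  · refine setIntegral_congr_fun hK₁.measurableSet fun z hz => ?_
    have hz2 := h12 hz
    rw [dcomp _ z (hf₀ z hz2), (H.der (s₀, z) (hKU (e1 z (interior_subset hz2)).1)).fderiv]

/-- a continuous function without zeros on a compact set is bounded below -/
theorem low {X : Type} [TopologicalSpace X] {B : Set X} (hB : IsCompact B) {F : X → E}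
    (hF : ContinuousOn F B) (h0 : ∀ p ∈ B, F p ≠ 0) :
    ∀ᶠ ε in 𝓝[>] (0 : ℝ), ∀ p ∈ B, 2 * ε < ‖F p‖ := by
  have : (F '' B)ᶜ ∈ 𝓝 (0 : E) := by
    refine (hB.image_of_continuousOn hF).isClosed.isOpen_compl.mem_nhds ?_
    rintro ⟨p, hp, h⟩
    exact h0 p hp h
  obtain ⟨δ, hδ, hδ'⟩ := Metric.mem_nhds_iff.1 this
  filter_upwards [nhdsWithin_le_nhds (gt_mem_nhds (half_pos hδ))] with ε hε p hp
  by_contra hn
  exact hδ' (show F p ∈ ball (0 : E) δ by simp; linarith [not_lt.1 hn]) (mem_image_of_mem F hp)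

end DEG1

open DEG1 in
theorem jobDEG1 (h : JobNL) : JobDEG1 := by
  intro E _ _ _ 𝒰 F F' H hfin hodd hinj
  borelize E
  let μ : Measure E := Measure.addHaar
  by_contra hno
  push Not at hno
  obtain ⟨𝒦, hK, hZK, hKU⟩ := exists_compact_between H.cpt H.op fun p hp => hp.1
  have hc : ∀ s : ℝ, Continuous fun z : E => (s, z) := fun s => by fun_prop
  have hA : ∀ s : ℝ, IsCompact {z | (s, z) ∈ 𝒦} := fun s =>
    (hK.image continuous_snd).of_isClosed_subset (hK.isClosed.preimage (hc s))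
      fun z hz => ⟨_, hz, rfl⟩
  have ev1 := low (B := (𝒦 \ interior 𝒦) ∩ Prod.fst ⁻¹' Icc (0 : ℝ) 1)
    ((hK.diff isOpen_interior).inter_right (isClosed_Icc.preimage continuous_fst))
    (H.cont.mono fun p hp => hKU hp.1.1) fun p hp h0 => hp.1.2 (hZK ⟨hKU hp.1.1, hp.2, h0⟩)
  have ev2 := low (hA 1) (F := fun z => F (1, z))
    (H.cont.comp (hc 1).continuousOn fun z hz => hKU hz) fun z hz => hno z (hKU hz)
  have ev3 := lemE μ (U := {z | ((0 : ℝ), z) ∈ 𝒰}) (H.op.preimage (hc 0)) (hA 0)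
    (fun z hz => hKU hz) (f := fun z => F (0, z)) (f' := fun z => F' (0, z))
    (fun z hz => H.der (0, z) hz) (H.cont'.comp (hc 0).continuousOn fun _ h => h) hfin.toFinset
    (fun z hz h0 => by simpa using ⟨hKU hz, h0⟩) (fun z hz => by
      simp only [Finite.mem_toFinset, mem_setOf_eq] at hz; exact hz.2)
    (fun z hz => by
      simp only [Finite.mem_toFinset, mem_setOf_eq] at hz
      have : (0, z) ∈ interior 𝒦 := hZK ⟨hz.1, by simp, hz.2⟩
      exact mem_interior_iff_mem_nhds.2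
        ((hc 0).continuousAt.preimage_mem_nhds (mem_interior_iff_mem_nhds.1 this)))
    (by rwa [← Set.ncard_eq_toFinset_card _ hfin]) (fun z hz => by
      simp only [Finite.mem_toFinset, mem_setOf_eq] at hz; exact hinj z hz.1 hz.2)
  obtain ⟨ε, ⟨⟨e1, e2⟩, e3⟩, hε⟩ := (((ev1.and ev2).and ev3).and self_mem_nhdsWithin).exists
  have hε : 0 < ε := hε
  obtain ⟨ψ, hψ, p1, p2, p3⟩ := lemB (E := E) hε
  let d : ℝ → ℝ := fun s =>
    ∫ z in {z | (s, z) ∈ 𝒦}, (fderiv ℝ ψ (F (s, z))).det * (F' (s, z)).det ∂μ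
  have hd : IsLocallyConstant fun s : Icc (0 : ℝ) 1 => d s := by
    refine (IsLocallyConstant.iff_eventually_eq _).2 fun s₀ => ?_
    have := lemD h μ H hK hKU hε (s₀ := s₀) (fun z hz hn => by
      by_contra hi
      exact absurd hn (not_le.2 (e1 _ ⟨⟨hz, hi⟩, s₀.2⟩))) hψ p3
    exact continuous_subtype_val.continuousAt.eventually this
  haveI : PreconnectedSpace (Icc (0 : ℝ) 1) := Subtype.preconnectedSpace isPreconnected_Icc
  have h01 : d 0 = d 1 := hd.apply_eq_of_preconnectedSpace ⟨0, by simp⟩ ⟨1, by simp⟩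
  have h1 : d 1 = 0 := by
    refine setIntegral_eq_zero_of_forall_eq_zero fun z hz => ?_
    rw [p3 _ (by linarith [e2 z hz]), zero_mul]
  exact e3 (fun y => (fderiv ℝ ψ y).det)
    (ContinuousLinearMap.continuous_det.comp (hψ.continuous_fderiv one_ne_zero)) p1 p2 p3
    (h01.trans h1)

end Crest.Agent.EG
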