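import Crest.Agent.EG.DefsA

/-! Row 197, job DEG1: auxiliary lemmas (cut-offs, the null Lagrangian identity, bump maps). -/

set_option autoImplicit false

open Set MeasureTheory Filter Topology
open scoped Manifold

namespace Crest.Agent.EG.DEG1

variable {E : Type} [NormedAddCommGroup E] [NormedSpace ℝ E] [FiniteDimensional ℝ E]

theorem cutoff {K T : Set E} (hK : IsClosed K) (h : K ⊆ interior T) :
    ∃ χ : E → ℝ, ContDiff ℝ 1 χ ∧ (∀ᶠ x in 𝓝ˢ K, χ x = 1) ∧ (∀ x ∉ T, χ x = 0) ∧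
      ∀ x, χ x ∈ Icc (0 : ℝ) 1 := by
  obtain ⟨f, h1, h2, h3⟩ :=
    exists_contMDiffMap_one_nhds_of_subset_interior (n := 1) 𝓘(ℝ, E) hK h
  exact ⟨f, f.contMDiff.contDiff, h1, h2, h3⟩

theorem lemA (h : JobNL) [MeasurableSpace E] [BorelSpace E] (μ : Measure E) [μ.IsAddHaarMeasure]
    {W K : Set E} (hW : IsOpen W) (hK : IsCompact K) (hKW : K ⊆ W) {u v : E → E}
    (hu : ∀ z ∈ W, ContDiffAt ℝ 1 u z) (hv : ∀ z ∈ W, ContDiffAt ℝ 1 v z)
    (huv : ∀ z ∈ W, z ∉ K → u z = v z) :
    ∫ z in K, (fderiv ℝ u z).det ∂μ = ∫ z in K, (fderiv ℝ v z).det ∂μ := by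
  rcases subsingleton_or_nontrivial E with hE | hE
  · simp [ContinuousLinearMap.det, LinearMap.det_eq_one_of_subsingleton]
  obtain ⟨K', hK', h1, h2⟩ := exists_compact_between hK hW hKW
  obtain ⟨η, hη, hη1, hη0, -⟩ := cutoff hK.isClosed h1
  have key : ∀ u : E → E, (∀ z ∈ W, ContDiffAt ℝ 1 u z) →
      ContDiff ℝ 1 (fun z => η z • u z) ∧ HasCompactSupport (fun z => η z • u z) ∧
      ∀ z ∈ K, fderiv ℝ (fun z => η z • u z) z = fderiv ℝ u z := by
    intro u hu
    refine ⟨contDiff_iff_contDiffAt.2 fun z => ?_, ?_, fun z hz => ?_⟩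
    · by_cases hz : z ∈ W
      · exact hη.contDiffAt.smul (hu z hz)
      · have : ∀ᶠ x in 𝓝 z, x ∉ K' := hK'.isClosed.isOpen_compl.mem_nhds fun h => hz (h2 h)
        refine (contDiffAt_const (c := (0 : E))).congr_of_eventuallyEq ?_
        filter_upwards [this] with x hx
        simp [hη0 x hx]
    · exact HasCompactSupport.intro hK' fun x hx => by simp [hη0 x hx]
    · apply Filter.EventuallyEq.fderiv_eq
      filter_upwards [hη1.filter_mono (nhds_le_nhdsSet hz)] with x hx
      simp [hx]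
  obtain ⟨u1, u2, u3⟩ := key u hu
  obtain ⟨v1, v2, v3⟩ := key v hv
  have int : ∀ w : E → E, ContDiff ℝ 1 w → HasCompactSupport w →
      Integrable (fun z => (fderiv ℝ w z).det) μ := by
    intro w w1 w2
    refine Continuous.integrable_of_hasCompactSupport
      (ContinuousLinearMap.continuous_det.comp (w1.continuous_fderiv one_ne_zero)) ?_
    exact (w2.fderiv ℝ).comp_left (g := fun A : E →L[ℝ] E => A.det)
      (by simp [ContinuousLinearMap.det])
  have e1 := integral_add_compl hK.measurableSet (int _ u1 u2)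
  have e2 := integral_add_compl hK.measurableSet (int _ v1 v2)
  rw [h E μ _ u1 u2] at e1
  rw [h E μ _ v1 v2] at e2
  have e3 : ∫ z in Kᶜ, (fderiv ℝ (fun z => η z • u z) z).det ∂μ =
      ∫ z in Kᶜ, (fderiv ℝ (fun z => η z • v z) z).det ∂μ := by
    refine setIntegral_congr_fun hK.measurableSet.compl fun z hz => ?_
    have : (fun z => η z • u z) =ᶠ[𝓝 z] (fun z => η z • v z) := by
      filter_upwards [hK.isClosed.isOpen_compl.mem_nhds hz] with x hx
      by_cases hxW : x ∈ W
      · rw [huv x hxW hx]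
      · simp [hη0 x fun h => hxW (h2 h)]
    simp only [this.fderiv_eq]
  rw [setIntegral_congr_fun hK.measurableSet (g := fun z => (fderiv ℝ u z).det)
    (fun z hz => by simp only [u3 z hz])] at e1
  rw [setIntegral_congr_fun hK.measurableSet (g := fun z => (fderiv ℝ v z).det)
    (fun z hz => by simp only [v3 z hz])] at e2
  linarith

theorem lemB {ε : ℝ} (hε : 0 < ε) : ∃ ψ : E → E, ContDiff ℝ 1 ψ ∧
    (∀ y, 0 ≤ (fderiv ℝ ψ y).det) ∧ 0 < (fderiv ℝ ψ 0).det ∧
    ∀ y, ε ≤ ‖y‖ → (fderiv ℝ ψ y).det = 0 := by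
  set n := Module.finrank ℝ E
  let e : E ≃L[ℝ] (Fin n → ℝ) := ContinuousLinearEquiv.ofFinrankEq (by simp [n])
  set C := ‖(e.symm : (Fin n → ℝ) →L[ℝ] E)‖
  have hC : 0 ≤ C := norm_nonneg _
  set r := ε / (C + 1)
  have hr : 0 < r := by positivity
  let b : ℝ → ℝ := fun x => max (r - |x|) 0
  have hb : Continuous b := by fun_prop
  let B : ℝ → ℝ := fun x => ∫ t in (0 : ℝ)..x, b t
  have hB : ∀ x, HasDerivAt B (b x) x := fun x => (hb.integral_hasStrictDerivAt 0 x).hasDerivAt
  have hB1 : ContDiff ℝ 1 B := by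
    rw [contDiff_one_iff_deriv]
    refine ⟨fun x => (hB x).differentiableAt, ?_⟩
    have : deriv B = b := funext fun x => (hB x).deriv
    rwa [this]
  let Ψ : (Fin n → ℝ) → (Fin n → ℝ) := fun y i => B (y i)
  have hΨ1 : ContDiff ℝ 1 Ψ := contDiff_pi.2 fun i => hB1.comp (contDiff_apply ℝ ℝ i)
  have hΨ : ∀ y, HasFDerivAt Ψ (ContinuousLinearMap.pi fun i =>
      (ContinuousLinearMap.toSpanSingleton ℝ (b (y i))).comp (ContinuousLinearMap.proj i)) y := by
    intro y
    refine hasFDerivAt_pi.2 fun i => ?_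
    exact HasFDerivAt.comp y (g := B) (f := fun f : Fin n → ℝ => f i) (hB (y i)).hasFDerivAt
      (hasFDerivAt_apply (𝕜 := ℝ) i y)
  have hdet : ∀ y, (fderiv ℝ (fun z => e.symm (Ψ (e z))) y).det = ∏ i, b (e y i) := by
    intro y
    have := (e.symm.hasFDerivAt.comp y ((hΨ (e y)).comp y e.hasFDerivAt)).fderiv
    have h2 : (fun z => e.symm (Ψ (e z))) = e.symm ∘ Ψ ∘ e := rfl
    rw [h2, this]
    have h3 := LinearMap.det_conj ((ContinuousLinearMap.pi fun i =>
      (ContinuousLinearMap.toSpanSingleton ℝ (b (e y i))).comp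
        (ContinuousLinearMap.proj i) : (Fin n → ℝ) →L[ℝ] (Fin n → ℝ)) :
        (Fin n → ℝ) →ₗ[ℝ] (Fin n → ℝ)) e.symm.toLinearEquiv
    refine Eq.trans ?_ (h3.trans ?_)
    · rfl
    · have := ContinuousLinearMap.det_pi
        (fun i => ContinuousLinearMap.toSpanSingleton ℝ (b (e y i)))
      simpa only [ContinuousLinearMap.det_toSpanSingleton] using this
  refine ⟨fun z => e.symm (Ψ (e z)), e.symm.contDiff.comp (hΨ1.comp e.contDiff), fun y => ?_, ?_,
    fun y hy => ?_⟩
  · rw [hdet]; exact Finset.prod_nonneg fun i _ => le_max_right _ _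
  · rw [hdet]; exact Finset.prod_pos fun i _ => by simp [b, hr]
  · rw [hdet]
    by_contra hne
    have h1 : ‖e y‖ ≤ r := by
      refine (pi_norm_le_iff_of_nonneg hr.le).2 fun i => ?_
      by_contra hi
      exact hne (Finset.prod_eq_zero (Finset.mem_univ i) (by
        rw [Real.norm_eq_abs] at hi
        simp only [b]; exact max_eq_right (by linarith [not_le.1 hi])))
    have h2 : ‖y‖ ≤ C * r := by
      have := (e.symm : (Fin n → ℝ) →L[ℝ] E).le_opNorm (e y)
      simp only [ContinuousLinearEquiv.coe_coe, ContinuousLinearEquiv.symm_apply_apply] at this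
      exact this.trans (by gcongr)
    have h3 : (C + 1) * r = ε := by simp only [r]; field_simp
    nlinarith

end Crest.Agent.EG.DEG1
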