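import Crest.Agent.EG.Basic

/-! Row 197 (S0300): analytic jobs (degree, the SU(2) system) and the algebraic core. -/

set_option autoImplicit false

open Set MeasureTheory Quaternion

namespace Crest.Agent.EG

open Crest.Agent.GSC.Topo (sev scl)

/-- **Job NL** (null Lagrangian). For small `t`, `id + t w` is an injective `C¹` map
(`w` Lipschitz) with `det (1 + t Dw) > 0`, surjective (contraction / `ApproximatesLinearOn`), and
the identity off a big closed ball `K ⊇ tsupport w`, so it maps `K` onto `K`. Change of variables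
(`integral_image_eq_integral_abs_det_fderiv_smul` with `f = 1`, or
`lintegral_abs_det_fderiv_eq_addHaar_image`) gives `∫_K det (1 + t Dw) = μ K` for all small `t`.
The left side is a polynomial in `t` of degree `≤ n = finrank` with top coefficient `∫ det Dw`
(e.g. `det (λ + A) = charpoly (-A) (λ)`, so `λ ↦ ∫_K det (λ + Dw)` is a polynomial equal to
`λ^n μ K` for large `λ`, hence at `λ = 0`). -/
def JobNL : Prop :=
  ∀ (E : Type) [NormedAddCommGroup E] [NormedSpace ℝ E] [FiniteDimensional ℝ E] [Nontrivial E]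
    [MeasurableSpace E] [BorelSpace E] (μ : Measure E) [μ.IsAddHaarMeasure] (w : E → E),
    ContDiff ℝ 1 w → HasCompactSupport w → ∫ x, (fderiv ℝ w x).det ∂μ = 0

/-- a homotopy `F (s, ·)`, `C¹` in the space variable, on an open set `𝒰`, whose zero set over
`[0,1]` is compact -/
structure Hty {E : Type} [NormedAddCommGroup E] [NormedSpace ℝ E] (𝒰 : Set (ℝ × E))
    (F : ℝ × E → E) (F' : ℝ × E → E →L[ℝ] E) : Prop where
  op : IsOpen 𝒰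
  cont : ContinuousOn F 𝒰
  cont' : ContinuousOn F' 𝒰
  der : ∀ p ∈ 𝒰, HasFDerivAt (fun z => F (p.1, z)) (F' p) p.2
  cpt : IsCompact {p | p ∈ 𝒰 ∧ p.1 ∈ Icc (0 : ℝ) 1 ∧ F p = 0}

/-- **Job DEG1** (from `JobNL`): mod 2 degree. WLOG `E` nontrivial (else trivial: `cpt` makes the
set of `s` closed and open in `[0,1]`); take coordinates `E ≃L (Fin n → ℝ)` (or just a basis).
`Z` = zero set, `𝒦` compact nbhd of `Z` in `𝒰`, `δ ≤ min ‖F‖` on `(𝒦 \ interior 𝒦) ∩ [0,1] × E`.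
Let `ψ y = (B (y i))_i`, `B' = b ≥ 0` a bump supported in `(-ε,ε)`, `φ = det Dψ = ∏ b (y i)`,
`c = ∫ φ > 0`. `d s = ∫_{z : (s,z) ∈ 𝒦} φ (F (s,z)) det F'(s,z)`. (1) `d` is locally constant on
`[0,1]`: for `s` near `s₀`, with `K₀ = {(s₀,z) ∈ 𝒦, ‖F‖ ≤ 2ε} ⊆ V ⋐ V'` open, cutoffs `χ = 1` near
`K₀`, `supp χ ⊆ V`, `η = 1` on `V`, `supp η ⊆ V'`; `G = F_{s₀} + χ (F_s - F_{s₀})`;
NL for `η ψ(G)` and `η ψ(F_{s₀})`, which agree off `supp χ`; `det D(ψ G) = φ(G) det DG` vanishes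
where `‖G‖ > ε` and `G = F_s` near `K₀`. (2) `d 0 = c · Σ_{zeros} sign det` for `ε` small (inverse
function theorem + change of variables at each zero), nonzero as the number of zeros is odd.
(3) no zero at `s = 1` and `ε` small give `d 1 = 0`. -/
def JobDEG1 : Prop :=
  ∀ (E : Type) [NormedAddCommGroup E] [NormedSpace ℝ E] [FiniteDimensional ℝ E]
    (𝒰 : Set (ℝ × E)) (F : ℝ × E → E) (F' : ℝ × E → E →L[ℝ] E), Hty 𝒰 F F' →
    {z | (0, z) ∈ 𝒰 ∧ F (0, z) = 0}.Finite → Odd {z | (0, z) ∈ 𝒰 ∧ F (0, z) = 0}.ncard →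
    (∀ z, (0, z) ∈ 𝒰 → F (0, z) = 0 → Function.Injective (F' (0, z))) →
    ∃ z, (1, z) ∈ 𝒰 ∧ F (1, z) = 0

/-- **Job DEG** (from `JobDEG1`): equivariant version (Gromes' perturbation). Take linear
functionals `ℓ_1..ℓ_m` with `ℓ_i ∘ τ = -ℓ_i` and common kernel `Fix τ` (coordinates of `z - τ z`).
`y⁺ = (y + σ y)/2`, `y⁻ = (y - σ y)/2`. `P_0 = 0`, `P_i = P_{i-1} + ℓ_i² y_i⁺ + ℓ_i³ y_i⁻`,
`G_i = F_0 - P_i` is equivariant; choose `y_i` small and a regular value of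
`H = G_{i-1}⁺/ℓ_i² + G_{i-1}⁻/ℓ_i³` on `{ℓ_i ≠ 0} ∩ 𝒰_0` (Sard:
`addHaar_image_eq_zero_of_det_fderiv_eq_zero`). At a zero of `G_i` with `ℓ_i ≠ 0`,
`DG_i = ℓ_i² DH⁺ + ℓ_i³ DH⁻` is injective; where `ℓ_i = 0` value and derivative of `G_i` are those of
`G_{i-1}`. So all zeros of `G = G_m` are regular and `z₀` is the only `τ`-fixed one. Shrink `𝒰` to the
interior `𝒰'` of a compact nbhd of the zero set, use `F - (1 - s) P`; for `P` small its zero set over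
`[0,1]` is compact in `𝒰'`, and the zeros at `s = 0` form a compact discrete (finite) `τ`-invariant
set with one fixed point, so odd. -/
def JobDEG : Prop :=
  ∀ (E : Type) [NormedAddCommGroup E] [NormedSpace ℝ E] [FiniteDimensional ℝ E]
    (𝒰 : Set (ℝ × E)) (F : ℝ × E → E) (F' : ℝ × E → E →L[ℝ] E), Hty 𝒰 F F' →
    ∀ (τ σ : E →L[ℝ] E), (∀ z, τ (τ z) = z) → (∀ z, σ (σ z) = z) →
    (∀ z, (0, z) ∈ 𝒰 → (0, τ z) ∈ 𝒰 ∧ F (0, τ z) = σ (F (0, z))) →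
    ∀ z₀ : E, (0, z₀) ∈ 𝒰 → F (0, z₀) = 0 → τ z₀ = z₀ → Function.Injective (F' (0, z₀)) →
    (∀ z, (0, z) ∈ 𝒰 → F (0, z) = 0 → τ z = z → z = z₀) →
    ∃ z, (1, z) ∈ 𝒰 ∧ F (1, z) = 0

/-- unit quaternions -/
abbrev S3 : Type := Metric.sphere (0 : ℍ[ℝ]) 1

/-- The finite `SU(2)` system produced by an aspherical presentation. -/
structure Sys {I Φ : Type} [Fintype I] (rel : I → FreeGroup I) (κ : Φ → FreeGroup Φ)
    (B : Φ → I → ℝ) (X : I → FreeGroup Φ) : Prop where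
  ab : ∀ f, Abelianization.of (κ f) = Abelianization.of (FreeGroup.of f)
  h1 : ∀ (t : Φ → S3) (ξ : I → ℍ[ℝ]), (∀ i, (ξ i).re = 0) → (∀ i, ‖ξ i‖ ≤ Real.pi) →
    (∀ f, ((FreeGroup.lift t (κ f) : S3) : ℍ[ℝ]) = NormedSpace.exp (∑ i, B f i • ξ i)) →
    ∀ i, ‖((FreeGroup.lift (fun e => FreeGroup.lift t (X e)) (rel i) : S3) : ℍ[ℝ]) -
      NormedSpace.exp (ξ i)‖ ≤ ‖ξ‖ / 100
  h2 : ∀ t : Φ → S3, (∀ f, FreeGroup.lift t (κ f) = 1) → ∀ e, FreeGroup.lift t (X e) = 1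

/-- a nontrivial representation of `⟨I | rel⟩` close to `1`, relators of length `≤ 3` -/
def Rep3 {I : Type} (rel : I → FreeGroup I) : Prop :=
  (∀ i, ∃ l : List (I × Bool), l.length ≤ 3 ∧ rel i = FreeGroup.mk l) ∧
  ∃ x : I → S3, (∀ i, FreeGroup.lift x (rel i) = 1) ∧ (∀ e, 4 / 5 ≤ (x e : ℍ[ℝ]).re) ∧
    ∃ e, x e ≠ 1

/-- **Job AN** (from `JobDEG`). `E = (Φ ⊕ I) → ℍ` (or a product), unknowns `t_f`, `ξ_i`. Extend words
polynomially to all of `ℍ`: `ev t l = ∏ (if b then t f else star (t f))` on lists (`κ f = mk (toWord ..)`),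
equal to `lift` for unit `t`. `p_{s,e} = (1 - s) + s x_e`. `F_s (t,ξ)_f = (normSq t_f - 1) +
im (exp (-Σ B f i ξ_i) κ_f(t))`, `F_s (t,ξ)_e = re ξ_e + im (star p_{s,e} * X_e(t))`,
`𝒰 = {‖ξ_i‖ < π, re (exp(-Bξ) κ_f) > 0, re (star p X_e) > 0}`; `F` is `ContDiff ℝ 1` jointly so `F'` is
the partial derivative. Zeros over `[0,1]` = {t unit, ξ imaginary, ‖ξ_i‖ ≤ π, κ_f = exp(Bξ),
X_e = p/‖p‖} (closed, bounded; there `‖X_e - 1‖² ≤ 2/5`, `‖rel_i(X) - 1‖ ≤ 1.9`, so by `h1`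
`exp ξ_i ≠ -1`, i.e. `‖ξ_i‖ < π`). Use `‖exp ξ - 1‖ = 2 sin(‖ξ‖/2) ≥ (2/π)‖ξ‖` for imaginary
`‖ξ‖ ≤ π` (`Quaternion.exp_of_re_eq_zero`): if all `rel_i(X) = 1` then `ξ = 0`. `τ = σ` = conjugation
by `i` in each coordinate. `τ`-fixed zero at `s = 0`: `ξ = 0`, `t_f` commute (lie in `ℝ + ℝ i`), so
`κ_f(t) = t_f = 1` by `ab`; `z₀ = (1, 0)`. Derivative at `z₀`: `(δt, δξ) ↦ (2 re δt_f +
im(δt_f - Bδξ), re δξ_e + im Σ_f n_{ef} δt_f)` (`n` exponent sums); the real matrix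
`M = n B` is injective: if `M θ = 0`, `‖θ‖ ≤ π`, put `ξ = θ i`, `t_f = exp (Bθ i)`, then `X = 1`, so
`θ = 0` by `h1`. A zero at `s = 1` has `X = x`, so `ξ = 0`, `κ = 1`, `X = 1` by `h2`: absurd. -/
def JobAN : Prop :=
  ∀ (I Φ : Type) [Fintype I] [Fintype Φ] (rel : I → FreeGroup I) (κ : Φ → FreeGroup Φ)
    (B : Φ → I → ℝ) (X : I → FreeGroup Φ), Rep3 rel → ¬ Sys rel κ B X

/-- chain-level comparison data between `⟨P₀ | r⟩` and `⟨P | w⟩` -/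
def Comp {G P₀ R₀ P R : Type} [Group G] (π : FreeGroup P₀ →* G) (r : R₀ → FreeGroup P₀)
    (ψ : FreeGroup P →* G) (w : R → FreeGroup P) : Prop :=
  ∃ (f : FreeGroup P₀ →* FreeGroup P) (m : R₀ → List (FreeGroup P × R × Bool)) (Ω : Finset G)
    (β : R₀ → G × R → ℤ) (α : R₀ → G → P₀ → ℤ),
    (∀ x, ψ (f x) = π x) ∧ (∀ σ, sev w (m σ) = f (r σ)) ∧
    (∀ ρ g j, g ∉ Ω → β ρ (g, j) = 0) ∧ (∀ ρ g s, g ∉ Ω → α ρ g s = 0) ∧
    ∀ ρ g σ, ((m σ).map fun p => (if p.2.2 then (1 : ℤ) else -1) * β ρ (g * ψ p.1, p.2.1)).sum =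
      Finsupp.single (g, σ) (1 : ℤ) (1, ρ) + cs π (α ρ) (r σ) g

/-- **Job CH**. Choose `f` with `ψ f = π`, `φ : F P → F P₀` with `π φ = ψ`, `m σ` by `Asph.ker` and
`Ex.of_mem`. By `Acyc.ex` and `d1_fx` choose `φ₂ j` with `d2 (φ₂ j) = fx (φ (w j)) 1` and `h s` with
`d2 (h s) = fx (φ (f s) * s⁻¹) 1`. With `tr g = Finsupp.mapDomain (fun p => (g * p.1, p.2))`
(`d2 ∘ tr g = tr g ∘ d2`, `fx x (g * k) = tr g (fx x k)`) apply `d2` (injective) to get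
`Σ_{p ∈ m σ} ± tr (g ψ p.1) (φ₂ p.2.1) = single (g,σ) 1 + cs (fun g s => tr g (h s)) (r σ) g`.
Evaluate at `(1, ρ)`: `β ρ (g,j) = φ₂ j (g⁻¹, ρ)` if `j` occurs in some `m σ`, else `0`;
`α ρ g s = h s (g⁻¹, ρ)`. -/
def JobCH : Prop :=
  ∀ (G P₀ R₀ P R : Type) [Group G] [Finite P₀] [Finite R₀] (π : FreeGroup P₀ →* G)
    (r : R₀ → FreeGroup P₀) (ψ : FreeGroup P →* G) (w : R → FreeGroup P),
    Acyc π r → Asph ψ w → Comp π r ψ w

/-- **Job MAIN** (helper2). -/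
def JobMAIN : Prop :=
  ∀ (G P₀ R₀ P R I : Type) [Group G] [Finite R₀] [Fintype I] (π : FreeGroup P₀ →* G)
    (r : R₀ → FreeGroup P₀) (ψ : FreeGroup P →* G) (w : R → FreeGroup P) (rel : I → FreeGroup I),
    (∀ σ, π (r σ) = 1) → Asph ψ w → Comp π r ψ w → Geo π r rel →
    ∃ (Φ : Type) (_ : Fintype Φ) (κ : Φ → FreeGroup Φ) (B : Φ → I → ℝ) (X : I → FreeGroup Φ),
      Sys rel κ B X

/-- **Job RES**. `0 → ℤ[G × R] → ℤ[G × P] → ℤ[G] → ℤ` (maps `d2`, `d1`, augmentation; `G` acts by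
left translation on the first factor; exact at `ℤ[G]` as `π` is onto, `d1_fx`; `d1 ∘ d2 = 0` by `rel`)
is a projective resolution of the trivial representation (`Rep.free`, or `Rep.ofMulAction`), so
`groupCohomologyIso A n P` gives vanishing for `n ≥ 3`. For trivial `A = ℤ`, `H² = 0` would make
`ℤ^P ≅ Hom_G(C₁, ℤ) → Hom_G(C₂, ℤ) ≅ ℤ^R` onto, forcing `card R ≤ card P`. -/
def JobRES : Prop :=
  ∀ (G P R : Type) [Group G] [Fintype P] [Fintype R] (π : FreeGroup P →* G)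
    (r : R → FreeGroup P), Acyc π r →
    (∀ (A : Rep ℤ G) (n : ℕ), 3 ≤ n → CategoryTheory.Limits.IsZero (groupCohomology A n)) ∧
    (Fintype.card P < Fintype.card R →
      ∃ A : Rep ℤ G, ¬ CategoryTheory.Limits.IsZero (groupCohomology A 2))

end Crest.Agent.EG
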