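import Crest.Agent.EG.DefsA
import Crest.Prelude.Def_ClassifyingComplex

/-! Row 197 (S0300): the right-angled Artin group, its Bestvina–Brady subgroup, and the complex `L`. -/

set_option autoImplicit false

open Set

namespace Crest.Agent.EG

open Crest.Agent.GSC.Topo (sev scl)

/-- a 3-coloured graph (its flag complex has dimension `≤ 2`) -/
structure Gr (V : Type) where
  adj : V → V → Prop
  symm : ∀ a b, adj a b → adj b a
  rk : V → Fin 3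
  ne : ∀ a b, adj a b → rk a ≠ rk b

namespace Gr
variable {V : Type} (Γ : Gr V)

/-- commutation relators -/
def rels : Set (FreeGroup V) :=
  {x | ∃ a b, Γ.adj a b ∧
    x = FreeGroup.of a * FreeGroup.of b * (FreeGroup.of a)⁻¹ * (FreeGroup.of b)⁻¹}

/-- the right-angled Artin group -/
abbrev A : Type := PresentedGroup Γ.rels

/-- generators -/
def gen (a : V) : Γ.A := PresentedGroup.of a

theorem gen_comm {a b : V} (h : Γ.adj a b) : Commute (Γ.gen a) (Γ.gen b) := by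
  have : PresentedGroup.mk Γ.rels
      (FreeGroup.of a * FreeGroup.of b * (FreeGroup.of a)⁻¹ * (FreeGroup.of b)⁻¹) = 1 :=
    PresentedGroup.one_of_mem ⟨a, b, h, rfl⟩
  simp only [map_mul, map_inv] at this
  exact commutatorElement_eq_one_iff_commute.1 this

/-- homomorphisms out of `A` -/
def lift {U : Type} [Group U] (f : V → U) (hf : ∀ a b, Γ.adj a b → Commute (f a) (f b)) :
    Γ.A →* U :=
  PresentedGroup.toGroup (f := f) (by
    rintro _ ⟨a, b, h, rfl⟩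
    simpa [commutatorElement_def] using commutatorElement_eq_one_iff_commute.2 (hf a b h))

@[simp] theorem lift_gen {U : Type} [Group U] (f : V → U)
    (hf : ∀ a b, Γ.adj a b → Commute (f a) (f b)) (a : V) : Γ.lift f hf (Γ.gen a) = f a :=
  PresentedGroup.toGroup.of _

/-- weighted exponent sum -/
def wt (c : V → ℤ) : Γ.A →* Multiplicative ℤ :=
  Γ.lift (fun a => Multiplicative.ofAdd (c a)) fun _ _ _ => Commute.all _ _

@[simp] theorem wt_gen (c : V → ℤ) (a : V) : Γ.wt c (Γ.gen a) = Multiplicative.ofAdd (c a) :=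
  Γ.lift_gen _ _ a

/-- height -/
def ht : Γ.A →* Multiplicative ℤ := Γ.wt fun _ => 1

@[simp] theorem ht_gen (a : V) : Γ.ht (Γ.gen a) = Multiplicative.ofAdd 1 := Γ.wt_gen _ a

/-- the Bestvina–Brady group -/
abbrev G : Type := Γ.ht.ker

/-- letters -/
def lt (t : V × Bool) : Γ.A := if t.2 then Γ.gen t.1 else (Γ.gen t.1)⁻¹

/-- the word length of `A` and its descending links -/
structure Len (ℓ : Γ.A → ℕ) : Prop where
  one : ℓ 1 = 0
  eq_one : ∀ g, ℓ g = 0 → g = 1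
  step : ∀ g t, ℓ (g * Γ.lt t) = ℓ g + 1 ∨ ℓ (g * Γ.lt t) + 1 = ℓ g
  desc : ∀ g, g ≠ 1 → ∃ t, ℓ (g * Γ.lt t) < ℓ g
  two : ∀ g s t, s ≠ t → ℓ (g * Γ.lt s) < ℓ g → ℓ (g * Γ.lt t) < ℓ g →
    Γ.adj s.1 t.1 ∧ ℓ (g * Γ.lt s * Γ.lt t) + 2 = ℓ g

/-- edges of the flag complex -/
def Ed : Type := {p : V × V // Γ.adj p.1 p.2 ∧ Γ.rk p.1 < Γ.rk p.2}

/-- triangles of the flag complex -/
def Tri : Type := {p : V × V × V // Γ.adj p.1 p.2.1 ∧ Γ.adj p.2.1 p.2.2 ∧ Γ.adj p.1 p.2.2 ∧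
  Γ.rk p.1 = 0 ∧ Γ.rk p.2.1 = 1 ∧ Γ.rk p.2.2 = 2}

instance [Finite V] : Finite Γ.Ed := by unfold Ed; infer_instance
instance [Finite V] : Finite Γ.Tri := by unfold Tri; infer_instance

variable {Γ}
/-- vertices and faces of a triangle -/
def Tri.a (τ : Γ.Tri) : V := τ.1.1
def Tri.b (τ : Γ.Tri) : V := τ.1.2.1
def Tri.c (τ : Γ.Tri) : V := τ.1.2.2
def Tri.ab (τ : Γ.Tri) : Γ.Ed := ⟨(τ.a, τ.b), τ.2.1, by
  simp only [Tri.a, Tri.b, τ.2.2.2.2.1, τ.2.2.2.2.2.1]; decide⟩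
def Tri.bc (τ : Γ.Tri) : Γ.Ed := ⟨(τ.b, τ.c), τ.2.2.1, by
  simp only [Tri.c, Tri.b, τ.2.2.2.2.2.2, τ.2.2.2.2.2.1]; decide⟩
def Tri.ac (τ : Γ.Tri) : Γ.Ed := ⟨(τ.a, τ.c), τ.2.2.2.1, by
  simp only [Tri.c, Tri.a, τ.2.2.2.2.2.2, τ.2.2.2.2.1]; decide⟩
variable (Γ)

/-- simplicial boundary maps of the flag complex -/
noncomputable def l1 : (Γ.Ed →₀ ℤ) →ₗ[ℤ] (V →₀ ℤ) :=
  Finsupp.linearCombination ℤ fun e => Finsupp.single e.1.2 1 - Finsupp.single e.1.1 1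

noncomputable def l2 : (Γ.Tri →₀ ℤ) →ₗ[ℤ] (Γ.Ed →₀ ℤ) :=
  Finsupp.linearCombination ℤ fun τ =>
    Finsupp.single τ.bc 1 - Finsupp.single τ.ac 1 + Finsupp.single τ.ab 1

/-- every simplex lies in a triangle -/
structure Pure : Prop where
  vtx : ∀ v, ∃ τ : Γ.Tri, v = τ.a ∨ v = τ.b ∨ v = τ.c
  edg : ∀ e : Γ.Ed, ∃ τ : Γ.Tri, e = τ.ab ∨ e = τ.bc ∨ e = τ.ac

/-- the flag complex is connected and acyclic -/
structure LAc : Prop where
  conn : ∀ a b, Relation.ReflTransGen Γ.adj a b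
  ex : ∀ y, Γ.l1 y = 0 → ∃ c, Γ.l2 c = y
  inj : ∀ c, Γ.l2 c = 0 → c = 0

/-- cellular chain complex of the cube complex of `A` (Koszul complex) -/
noncomputable def k1 : (Γ.A × V →₀ ℤ) →ₗ[ℤ] (Γ.A →₀ ℤ) :=
  Finsupp.linearCombination ℤ fun p =>
    Finsupp.single (p.1 * Γ.gen p.2) 1 - Finsupp.single p.1 1

noncomputable def k2 : (Γ.A × Γ.Ed →₀ ℤ) →ₗ[ℤ] (Γ.A × V →₀ ℤ) :=
  Finsupp.linearCombination ℤ fun p =>
    Finsupp.single (p.1, p.2.1.1) 1 + Finsupp.single (p.1 * Γ.gen p.2.1.1, p.2.1.2) 1 -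
      Finsupp.single (p.1 * Γ.gen p.2.1.2, p.2.1.1) 1 - Finsupp.single (p.1, p.2.1.2) 1

noncomputable def k3 : (Γ.A × Γ.Tri →₀ ℤ) →ₗ[ℤ] (Γ.A × Γ.Ed →₀ ℤ) :=
  Finsupp.linearCombination ℤ fun p =>
    (Finsupp.single (p.1 * Γ.gen p.2.a, p.2.bc) 1 - Finsupp.single (p.1, p.2.bc) 1) -
      (Finsupp.single (p.1 * Γ.gen p.2.b, p.2.ac) 1 - Finsupp.single (p.1, p.2.ac) 1) +
      (Finsupp.single (p.1 * Γ.gen p.2.c, p.2.ab) 1 - Finsupp.single (p.1, p.2.ab) 1)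

/-- generators of `G`: `(a, false) ↦ a o⁻¹` (edge `g → g a` at height `0`), `(a, true) ↦ o a o⁻²`
(edge `g o → g o a` at height `1`); the vertices `g, g o, g o²` are identified. -/
def pi0 (o : V) : FreeGroup (V × Bool) →* Γ.G :=
  FreeGroup.lift fun p =>
    ⟨if p.2 then Γ.gen o * Γ.gen p.1 * (Γ.gen o)⁻¹ * (Γ.gen o)⁻¹ else Γ.gen p.1 * (Γ.gen o)⁻¹, by
      rw [MonoidHom.mem_ker]; split_ifs <;> simp⟩

theorem pi0_false (o a : V) :
    (Γ.pi0 o (FreeGroup.of (a, false)) : Γ.A) = Γ.gen a * (Γ.gen o)⁻¹ := by simp [pi0]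

theorem pi0_true (o a : V) : (Γ.pi0 o (FreeGroup.of (a, true)) : Γ.A) =
    Γ.gen o * Γ.gen a * (Γ.gen o)⁻¹ * (Γ.gen o)⁻¹ := by simp [pi0]

/-- the square `g → g a → g a b ← g b ← g` based at height `0` -/
def sq (a b : V) : FreeGroup (V × Bool) :=
  FreeGroup.of (a, false) * FreeGroup.of (b, true) * (FreeGroup.of (a, true))⁻¹ *
    (FreeGroup.of (b, false))⁻¹

/-- relators: squares and the two tree edges -/
def r0 (o : V) : Γ.Ed ⊕ Bool → FreeGroup (V × Bool)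
  | .inl e => sq e.1.1 e.1.2
  | .inr i => FreeGroup.of (o, i)

/-- `tt x y`, with image `y x⁻¹` -/
def tt (x y : V) : FreeGroup (V × Bool) := FreeGroup.of (y, false) * (FreeGroup.of (x, false))⁻¹

/-- right multiplication by `(1 - r) + r s` in the group ring -/
def sh (s : Γ.A) (r : ℝ) (μ : Γ.A → ℝ) : Γ.A → ℝ := fun h => (1 - r) * μ h + r * μ (h * s⁻¹)

open Classical in
/-- the point with coordinates `(x, y, z)` of the cube `(g, τ)`, as a function on the vertices -/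
noncomputable def cube (g : Γ.A) (τ : Γ.Tri) (x y z : ℝ) : Γ.A → ℝ :=
  Γ.sh (Γ.gen τ.c) z (Γ.sh (Γ.gen τ.b) y (Γ.sh (Γ.gen τ.a) x (Pi.single g 1)))

/-- the cube complex of `A`, with the topology of pointwise convergence -/
def Es : Set (Γ.A → ℝ) :=
  {μ | ∃ g τ x y z, x ∈ Icc (0 : ℝ) 1 ∧ y ∈ Icc (0 : ℝ) 1 ∧ z ∈ Icc (0 : ℝ) 1 ∧ μ = Γ.cube g τ x y z}

end Gr

/-- **Job LEN** (pilings). A piling is `P : V → List (Option Bool)`; `push (a,ε) P` conses `some ε` on stack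
`a`, `none` on stacks `b ≠ a` with `¬ adj a b`. Inductive `R : piling → A → Prop`: `R ∅ 1`;
`R P g → (P a).head? ≠ some (some !ε) → R (push (a,ε) P) (g * lt (a,ε))`. Key lemma (induction on `R`): if
`R P g` and the head of `P a` is `some ε` then `P = push (a,ε) Q`, `R Q (g * (lt (a,ε))⁻¹)`, head of `Q a` is not
`some !ε` (if the last push was at `b ≠ a` then `adj a b` and the pushes commute). So `T (a,ε)` = pop if the head
of `P a` is `some !ε`, else push, gives permutations of `{P | ∃ g, R P g}`, `T (a,ε)` inverse to `T (a,!ε)`,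
commuting for adjacent vertices: a right action (`Gr.lift` of the inverses). `R (∅ · g) g`; `R ∅ g → g = 1`.
`ℓ g` = number of non-`none` beads of `∅ · g` (or carry the count in `R`). -/
def JobLEN : Prop := ∀ (V : Type) [Finite V] (Γ : Gr V), ∃ ℓ, Γ.Len ℓ

/-- **Job RF**. `ℓ` is the word length (`ℓ (g h) ≤ ℓ g + ℓ h`, `ℓ g⁻¹ = ℓ g`, balls finite). For `g ≠ 1` let
`K = {h | ℓ h + ℓ (g⁻¹ h) = ℓ g}` (finite, contains `1`, `g` and a geodesic). Local convexity: `h, h s, h t ∈ K`,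
`s, t` letters on adjacent vertices ⇒ `h s t ∈ K` (`two` for `ℓ` or for `ℓ (g⁻¹ ·)`; mixed case by `step`).
`σ_a h = h a` if `h a ∈ K`, else `h a^{-m}` (start of the `a`-run; runs are finite as `a` has infinite order:
`Gr.ht`). If `h, h b ∈ K`, `adj a b`, the `a`-runs of `h` and `h b` agree, so `σ_a`, `σ_b` commute; the right
action of `A` on `K` moves `1` to `g` along the geodesic. -/
def JobRF : Prop := ∀ (V : Type) [Finite V] (Γ : Gr V) (ℓ : Γ.A → ℕ), Γ.Len ℓ →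
  Group.ResiduallyFinite Γ.A

/-- **Job K2**: `H₂ = 0`. Square lemma: `ℓ (g a) - ℓ g = ℓ (g a b) - ℓ (g b)` (from `step`, `two`), so each square
has a unique farthest vertex `p`, and the squares with farthest vertex `p` correspond to pairs in
`D p = {t | ℓ (p t) < ℓ p}` (pairwise adjacent distinct vertices, so at most `3`, with distinct ranks). Induct on
(max level `n` of farthest vertices in `supp y`, number of squares of level `n`). At `p` of level `n`, an edge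
`{p, p t}`, `t ∈ D p`, lies only in squares of `supp y` with farthest vertex `p`, with coefficient `±1`.
If `|D p| = 3` subtract a multiple of `k3` of the cube at `p` (its other faces have lower level) to kill one
square (`k2 ∘ k3 = 0`); then each remaining square at `p` has an edge `{p, p t}` of its own, so coefficient `0`. -/
def JobK2 : Prop := ∀ (V : Type) (Γ : Gr V) (ℓ : Γ.A → ℕ), Γ.Len ℓ →
  (∀ x, Γ.k2 (Γ.k3 x) = 0) ∧ ∀ y, Γ.k2 y = 0 → ∃ x, Γ.k3 x = y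

/-- **Job X1**. (1) `k1 = d1 (PresentedGroup.mk _)`; with a section `p`, every `z` satisfies
`z = Σ z(g,s) • fx (p g * s * (p (g s))⁻¹) 1 + (Σ_g (k1 z)(g) • fx (p g) 1)`, and for `x` in the normal closure
`fx x 1 ∈ range k2` (closure induction, `cs_conj`; `fx [a,b] g = ± k2 (single (g, e) 1)`). (2) `H₀` = image of
`pi0` contains all `a b⁻¹`; `H = closure {a b⁻¹}` is normal in `A` (`c (a b⁻¹) c^{∓1}`: write `a b⁻¹` as a
product of `x y⁻¹` with `adj x y` by `conn`; `c⁻¹ x y⁻¹ c = (c⁻¹ x)(y⁻¹ c)` and `y⁻¹ x = x y⁻¹`), every element of `A` is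
`h o^k`, so `H = ker ht`. (3) direct. -/
def JobX1 : Prop := ∀ (V : Type) (Γ : Gr V) (o : V),
  (∀ z, Γ.k1 z = 0 → ∃ y, Γ.k2 y = z) ∧
  ((∀ a b, Relation.ReflTransGen Γ.adj a b) → Function.Surjective (Γ.pi0 o)) ∧
  ∀ ρ, Γ.pi0 o (Γ.r0 o ρ) = 1

/-- **Job X2** (from K2, X1 conclusions). Low part (same base point) of `k3 (g,τ)` is `-l2 τ`, top part (same
top vertex) is `l2 τ`; same for `k2` and `l1`. (X3) `k2 y = 0`, `y` at base height `0` ⇒ `y = k3 x`; if `x ≠ 0`, with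
`m ≤ M` the min/max base heights in `x`, `LAc.inj` gives `y ≠ 0` at heights `m` and `M + 1`: absurd. (X2') `k1 z = 0`,
`z` at heights `{0,1}` ⇒ `z = k2 y`; remove the lowest level `m < 0` of `y` (resp. highest `M > 0`) with `LAc.ex` and
`k3`. Transfer along `ι (g,(a,i)) = (g o^i, a)`: `mapDomain ι (fx (sq a b) g) = k2 (single (g,e) 1)`;
tree relators: apply `k1` and read heights `0`, `2` (inj); for `ex` subtract the tree edges first. -/
def JobX2 : Prop := ∀ (V : Type) (Γ : Gr V) (o : V), Γ.LAc →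
  (∀ x, Γ.k2 (Γ.k3 x) = 0) → (∀ y, Γ.k2 y = 0 → ∃ x, Γ.k3 x = y) →
  (∀ z, Γ.k1 z = 0 → ∃ y, Γ.k2 y = z) → Function.Surjective (Γ.pi0 o) →
  (∀ ρ, Γ.pi0 o (Γ.r0 o ρ) = 1) → Acyc (Γ.pi0 o) (Γ.r0 o)

/-- **Job TEL** (telescoping). `K_0 = const`, `K_{n+1} (x,t) = H_n (x, clamp (2^{n+2} t - 1))` for
`t ≤ 2^{-n-1}`, `K_n (H_n (x,1), t)` otherwise; `K_n (y,t) = y` for `t ≤ 2^{-n-1}`, so `K_{n+1} = K_n` on `B n`. -/
def JobTEL : Prop := ∀ (E : Type) [TopologicalSpace E] (B : ℕ → Set E) (x₀ : E), Monotone B →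
  (∀ x, ∃ n, B n ∈ nhds x) → B 0 = {x₀} →
  (∀ n, ∃ H : E × ℝ → E, ContinuousOn H (B (n + 1) ×ˢ Icc 0 1) ∧ (∀ x ∈ B (n + 1), H (x, 0) = x) ∧
    (∀ x ∈ B (n + 1), H (x, 1) ∈ B n) ∧ (∀ x ∈ B (n + 1), ∀ t ∈ Icc (0 : ℝ) 1, H (x, t) ∈ B (n + 1)) ∧
    ∀ x ∈ B n, ∀ t ∈ Icc (0 : ℝ) 1, H (x, t) = x) →
  ContractibleSpace E

/-- **Job B2** (includes TEL). `B n = {μ ∈ Es | μ h ≠ 0 → ℓ h ≤ n}`; `{ν | ν h > 0} ⊆ B (ℓ h + 3)`. On a cube `ℓ` is
affine (square lemma), so `μ ∈ B (n+1) \ B n` has exactly one `p`, `ℓ p = n + 1`, in its support and lies in the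
descending cube `C_p = {c_p λ}`, `c_p λ` = `sh t λ_t` for `t ∈ D p` applied to `δ_p` (`|D p| ≤ 3`, contained in a triangle
by `Pure`; `sh s⁻¹ r δ_p = sh s (1 - r) δ_{p s⁻¹}`; pad with `λ = 0`). `λ_t` is a finite sum of coefficients of `μ`
(continuous), `μ p = ∏ (1 - λ_t)`. Push `λ ↦ λ + τ (1 - max λ)` on `D p`; fixed when `max λ = 1`. Continuity on the
locally finite closed cover `B n`, `C_p` (only finitely many cubes contain a given vertex `h`). -/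
def JobB2 : Prop := ∀ (V : Type) [Finite V] [Nonempty V] (Γ : Gr V) (ℓ : Γ.A → ℕ), Γ.Len ℓ → Γ.Pure →
  ContractibleSpace Γ.Es

/-- **Job B1**. `G` acts on `Es` by `(g • μ) h = μ (g⁻¹ h)`; `X = Es / G`. `L_v μ = Σ_h μ h χ_v h` (`χ_v = wt (Pi.single v 1)`) is
continuous (near `μ₀` with `μ₀ h₀ > 0` supports lie in a fixed finite set) and `L_v (cube g τ x) = χ_v g + x_v`.
Wandering nbhd `{ν h₀ > 0, |L_v ν - L_v μ₀| < 1/2}` (`GSC.Topo.Wand.isQuotientCoveringMap` in GSC/TopoAtt, then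
`IsQuotientCoveringMap.fundamentalGroupEquiv`, `MulEquiv.inv'`). `X → (V → AddCircle 1) × ℝ`,
`μ ↦ (L_v μ mod 1, Σ_v L_v μ)` is continuous and injective (T2) and gives the normal form. Cells `ℤ`, `ℤ × V`,
`ℤ × Ed`, `ℤ × Tri` (`k ↦` base point `o^k`, coordinates `(1 + x)/2`); closed cells are locally finite (height in
`[k, k+3]`), so adapt `GSC.Topo.exists_cw` (GSC/TopoCW) using the plain `CWComplex` constructor and
`LocallyFinite.isClosed_iUnion`. -/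
def JobB1 : Prop := ∀ (V : Type) [Finite V] [Nonempty V] (Γ : Gr V), Γ.Pure →
  ContractibleSpace Γ.Es → Crest.Topology.HasClassifyingComplex Γ.G 3

/-- products of conjugates of relators at positions in `𝓟` -/
def FS {G P R : Type} [Group G] (π : FreeGroup P →* G) (r : R → FreeGroup P) (𝓟 : Set G) :
    Set (FreeGroup P) := {x | ∃ l, sev r l = x ∧ ∀ p ∈ l, π p.1 ∈ 𝓟}

/-- **Job GEO1**. `FS` is a subgroup normalised by `ker π`. Hexagon: for pairwise adjacent `a b c`, `t₁ = tt b a`,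
`t₂ = tt b c`, `[t₁,t₂] = ā b̄⁻¹ c̄ ā⁻¹ b̄ c̄⁻¹` is a product of conjugates of `sq a c` (position `1`), `sq b c` (position
`t₁`), `sq a b` (position `t₂`), and `sq y x = (sq x y)⁻¹`. (1) Staircase, induction on `h` (all `u`):
`t₁^{h+1} (t₂t₁⁻¹)^{h+1} = t₁ [t₁^h (t₂t₁⁻¹)^h] t₂ t₁⁻¹ ≡ t₁ t₂^{h+1} t₁⁻¹ ≡ t₂^{h+1}`. (2) Tile: rectangle lemma by double
induction tracking the coefficient of `(1, ρ)`, `ρ` the `(a,c)`-square: only the cell at the centre contributes `±1`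
(`(a b⁻¹)^i (c b⁻¹)^j = 1 ↔ i = j = 0` by `wt`). The boundary statement by `cs_conj`, `cs_mul` along powers. -/
def JobGEO1 : Prop := ∀ (V : Type) (Γ : Gr V) (o : V), (∀ ρ, Γ.pi0 o (Γ.r0 o ρ) = 1) →
  ∀ (a b c : V), Γ.adj a b → Γ.adj b c → Γ.adj a c →
  (∀ (h : ℕ) (u : FreeGroup (V × Bool)) (𝓟 : Set Γ.G),
    (∀ (i j : ℕ) (g : Γ.G), i + j ≤ h → (g : Γ.A) = Γ.pi0 o u *
      ((Γ.gen a * (Γ.gen b)⁻¹) ^ i * (Γ.gen c * (Γ.gen b)⁻¹) ^ j) → g ∈ 𝓟) →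
    u * (Gr.tt b a ^ h * Gr.tt a c ^ h * Gr.tt c b ^ h) * u⁻¹ ∈ FS (Γ.pi0 o) (Γ.r0 o) 𝓟) ∧
  ∀ D : ℕ, ∃ (ℓ : List (FreeGroup (V × Bool) × (Γ.Ed ⊕ Bool) × Bool)) (ρ : Γ.Ed ⊕ Bool),
    (Gr.tt b a ^ D * Gr.tt b c ^ D) * sev (Γ.r0 o) ℓ * (Gr.tt b a ^ D * Gr.tt b c ^ D)⁻¹ =
      Gr.tt b c ^ (2 * D + 1) * Gr.tt b a ^ (2 * D + 1) * (Gr.tt b c ^ (2 * D + 1))⁻¹ *
        (Gr.tt b a ^ (2 * D + 1))⁻¹ ∧
    scl (Γ.pi0 o) ℓ (1, ρ) ≠ 0 ∧
    (∀ p ∈ ℓ, ∃ i j : ℤ, |i| ≤ D + 1 ∧ |j| ≤ D + 1 ∧ (Γ.pi0 o p.1 : Γ.A) =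
      (Γ.gen a * (Γ.gen b)⁻¹) ^ i * (Γ.gen c * (Γ.gen b)⁻¹) ^ j) ∧
    ∀ α : Γ.G → V × Bool → ℤ, (∀ (g : Γ.G) s (i j : ℤ), (D ≤ |i| ∨ D ≤ |j|) → (g : Γ.A) =
      (Γ.gen a * (Γ.gen b)⁻¹) ^ i * (Γ.gen c * (Γ.gen b)⁻¹) ^ j → α g s = 0) →
      cs (Γ.pi0 o) α (sev (Γ.r0 o) ℓ) 1 = 0

/-! ### The complex `L`: barycentric subdivision of `K₅` with six pentagons.
Vertices `0..4` (vertices of `K₅`), `5..14` (edges of `K₅`), `15..20` (pentagons). -/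

/-- the barycentre of the edge `{a, b}` of `K₅` (junk on the diagonal) -/
def eps : Fin 5 → Fin 5 → Fin 21 :=
  ![![0, 5, 6, 7, 8], ![5, 0, 9, 10, 11], ![6, 9, 0, 12, 13], ![7, 10, 12, 0, 14], ![8, 11, 13, 14, 0]]

/-- the cyclically ordered vertices of the pentagons -/
def pv : Fin 6 → Fin 5 → Fin 5 :=
  ![![0, 1, 2, 3, 4], ![0, 1, 3, 4, 2], ![0, 1, 4, 2, 3], ![0, 2, 1, 4, 3], ![0, 2, 3, 1, 4],
    ![0, 3, 1, 2, 4]]

/-- incidences (smaller rank first) -/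
def incL : List (Fin 21 × Fin 21) :=
  [(0, 5), (0, 6), (0, 7), (0, 8), (0, 15), (0, 16), (0, 17), (0, 18), (0, 19), (0, 20), (1, 5),
   (1, 9), (1, 10), (1, 11), (1, 15), (1, 16), (1, 17), (1, 18), (1, 19), (1, 20), (2, 6), (2, 9),
   (2, 12), (2, 13), (2, 15), (2, 16), (2, 17), (2, 18), (2, 19), (2, 20), (3, 7), (3, 10), (3, 12),
   (3, 14), (3, 15), (3, 16), (3, 17), (3, 18), (3, 19), (3, 20), (4, 8), (4, 11), (4, 13), (4, 14),
   (4, 15), (4, 16), (4, 17), (4, 18), (4, 19), (4, 20), (5, 15), (5, 16), (5, 17), (6, 16), (6, 18),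
   (6, 19), (7, 17), (7, 18), (7, 20), (8, 15), (8, 19), (8, 20), (9, 15), (9, 18), (9, 20), (10, 16),
   (10, 19), (10, 20), (11, 17), (11, 18), (11, 19), (12, 15), (12, 17), (12, 19), (13, 16), (13, 17),
   (13, 20), (14, 15), (14, 16), (14, 18)]

/-- rank -/
def rkL (v : Fin 21) : Fin 3 := if v.val < 5 then 0 else if v.val < 15 then 1 else 2

/-- the graph `L` -/
def L : Gr (Fin 21) where
  adj a b := (a, b) ∈ incL ∨ (b, a) ∈ incL
  symm _ _ h := h.symm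
  rk := rkL
  ne := by
    have : ∀ p ∈ incL, rkL p.1 ≠ rkL p.2 := by decide +kernel
    rintro a b (h | h)
    · exact this _ h
    · exact (this _ h).symm

instance (a b : Fin 21) : Decidable (L.adj a b) := inferInstanceAs (Decidable (_ ∨ _))

/-- the pentagon relators in the generators `x₁₂, x₁₃, x₁₄, x₂₃, x₂₄, x₃₄` (indices `0..5`) -/
def relL : Fin 6 → List (Fin 6 × Bool) :=
  ![[(0, true), (3, true), (5, true)], [(1, true), (5, true), (4, false)],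
    [(2, true), (4, false), (3, true)], [(0, false), (2, true), (5, false)],
    [(3, true), (1, false), (2, true)], [(1, false), (0, true), (4, true)]]

/-- the relators -/
def rel (i : Fin 6) : FreeGroup (Fin 6) := FreeGroup.mk (relL i)

/-- **Job L**. `Rep3`: with `φ = goldenRatio`, `x 0 = (φ/2, (φ-1)/2, 0, 1/2)`, `x 1 = (φ/2, 1/2, (φ-1)/2, 0)`,
`x 2 = (φ/2, 1/2, (1-φ)/2, 0)`, `x 3 = (φ/2, 0, 1/2, (1-φ)/2)`, `x 4 = (φ/2, (φ-1)/2, 0, -1/2)`,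
`x 5 = (φ/2, 0, -1/2, (1-φ)/2)`. `LAc`: enumerate `Ed ≃ Fin 80`, `Tri ≃ Fin 60`; compute (Python) integer matrices
`H` (60×80), `C` (80×21) with `H ∂₂ = 1` and `∂₂ H + C ∂₁ = 1` and check with `decide +kernel` (or a sequence of
collapses / `omega`). `80 ≤ Nat.card Ed` may be replaced by any injection of `Fin 41`. -/
def JobL : Prop := L.Pure ∧ L.LAc ∧ Rep3 rel ∧ 41 ≤ Nat.card L.Ed

/-- **Job GEO** (from GEO1; `o = 0`). `χ_v = wt (Pi.single v 1)`; take `D > |χ_v g|` for all `g ∈ Ω`, `w = 2D+1`,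
`h = (N+1) w`. `E x y = tt x y ^ h` (`E y x = (E x y)⁻¹`, from `P_x = o^{-h} x^h` to `P_y`),
`Ê a b = E a (eps a b) * E (eps a b) b`, `X_{ab} = Ê 0 a Ê a b Ê b 0`; `lift X (rel i)` telescopes to the boundary
`∏_{j<10} E x_j x_{j+1}` of pentagon `i` (`x_0 = 0, x_1 = c = eps 0 (pv i 1), …`), centre `a = 15 + i`. Modulo
`FS far` (`far = {g | ∀ i' k', z_{i'k'}⁻¹ g ∉ Ω}`): `E x_j x_{j+1} ≡ E x_j a E a x_{j+1}` for `j ≥ 1` (GEO1(1) at base `P_{x_j}`), so the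
boundary `≡ E o c E c a E a o = t₂^h (t₁t₂⁻¹)^h t₁^{-h}` (`t₁ = tt o a`, `t₂ = tt o c`) `≡ t₂^w t₁^{Nw} t₂^{-w} t₁^{-Nw}` (GEO1(1) at base
`t₂^w`, size `Nw`, and at base `t₁^{Nw}`, size `w`) `= ∏_{k<N} t₁^{kw} [t₂^w, t₁^w] t₁^{-kw}`; `u i k = t₁^{kw} t₁^D t₂^D`, tile
from GEO1(2). Separation by `χ_a`, `χ_c`, `χ_o`, `χ_{15+i'}` (`z_{ik} = a^{kw+D} c^D o^{-kw-2D}`). -/
def JobGEO : Prop := (∀ ρ, L.pi0 0 (L.r0 0 ρ) = 1) → Geo (L.pi0 0) (L.r0 0) rel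

end Crest.Agent.EG
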