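import Crest.Agent.EG.Basic
import Crest.Prelude.Def_ClassifyingComplex

/-! Row 197 (S0300): from a 2-dimensional classifying complex to an aspherical presentation. -/

set_option autoImplicit false

open Set Topology Filter unitInterval

namespace Crest.Agent.EG

/-- A concrete interface for a CW complex of dimension `≤ 2` (only the values of `fc f` on the closed
unit disc matter). -/
structure CW2 (X : Type) [TopologicalSpace X] (V S R : Type) where
  vt : V → X
  ed : S → C(I, X)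
  fc : R → C(ℂ, X)
  s : S → V
  t : S → V
  ed0 : ∀ e, ed e 0 = vt (s e)
  ed1 : ∀ e, ed e 1 = vt (t e)
  nf : X → V ⊕ (S × I) ⊕ (R × ℂ)
  nf_vt : ∀ v, nf (vt v) = .inl v
  nf_ed : ∀ e x, x ≠ 0 → x ≠ 1 → nf (ed e x) = .inr (.inl (e, x))
  nf_fc : ∀ f z, ‖z‖ < 1 → nf (fc f z) = .inr (.inr (f, z))
  cover : ∀ y, (∃ v, y = vt v) ∨ (∃ e x, x ≠ 0 ∧ x ≠ 1 ∧ y = ed e x) ∨
    ∃ f z, ‖z‖ < 1 ∧ y = fc f z
  fin : ∀ f, ∃ (A : Finset V) (B : Finset S), ∀ z : ℂ, ‖z‖ = 1 →
    (∃ v ∈ A, fc f z = vt v) ∨ ∃ e ∈ B, ∃ x, fc f z = ed e x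
  weak : ∀ A : Set X, (∀ e, IsClosed (ed e ⁻¹' A)) →
    (∀ f, IsClosed {z : ℂ | ‖z‖ ≤ 1 ∧ fc f z ∈ A}) → IsClosed A

/-- the unit circle, parametrised by `[0,1]` -/
noncomputable def circ : C(I, ℂ) :=
  ⟨fun θ => Complex.exp (2 * Real.pi * (θ : ℝ) * Complex.I), by fun_prop⟩

theorem norm_circ (θ : I) : ‖circ θ‖ = 1 := by
  have := Complex.norm_exp_ofReal_mul_I (2 * Real.pi * (θ : ℝ))
  simpa [circ] using this

namespace CW2
variable {X V S R : Type} [TopologicalSpace X] (K : CW2 X V S R)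

/-- the 1-skeleton -/
def sk1 : Set X := {y | (∃ v, y = K.vt v) ∨ ∃ e x, y = K.ed e x}

/-- the attaching loop of a face -/
noncomputable def att (f : R) : C(I, X) := (K.fc f).comp circ

/-- chart function on the 1-skeleton minus the midpoints: `e` on the second half of `e`, else `1` -/
noncomputable def gU (y : X) : FreeGroup S :=
  match K.nf y with
  | .inr (.inl (e, x)) => if 1 / 2 < (x : ℝ) then FreeGroup.of e else 1
  | _ => 1

theorem gU_vt (v : V) : K.gU (K.vt v) = 1 := by simp [gU, K.nf_vt]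

theorem gU_ed (e : S) (x : I) (h0 : x ≠ 0) (h1 : x ≠ 1) :
    K.gU (K.ed e x) = if 1 / 2 < (x : ℝ) then FreeGroup.of e else 1 := by
  simp only [gU, K.nf_ed e x h0 h1]

/-- `h` records the edge word travelled by `ω` (valued in the 1-skeleton); a point in the open edge
`e` counts as sitting at the source of `e`. -/
def IsHol {A : Type} [TopologicalSpace A] (ω : A → X) (h : A → FreeGroup S) : Prop :=
  ∀ a, ((∀ e (x : I), (x : ℝ) = 1 / 2 → ω a ≠ K.ed e x) →
      ∀ᶠ a' in 𝓝 a, h a' * K.gU (ω a') = h a * K.gU (ω a)) ∧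
    ((∀ v, ω a ≠ K.vt v) → ∀ᶠ a' in 𝓝 a, h a' = h a)

/-- words along the attaching loops; the relator of the face `f` is `h f 1` -/
def Wd (h : R → I → FreeGroup S) : Prop := ∀ f, h f 0 = 1 ∧ K.IsHol (K.att f) (h f)

end CW2

/-- edge paths in a graph -/
def IsPath {V S : Type} (s t : S → V) : V → List (S × Bool) → V → Prop
  | v, [], v' => v = v'
  | v, (e, true) :: l, v' => s e = v ∧ IsPath s t (t e) l v'
  | v, (e, false) :: l, v' => t e = v ∧ IsPath s t (s e) l v'

/-- exponent sum of a word with weights `a` -/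
def ex {S : Type} (a : S → ℤ) (x : FreeGroup S) : ℤ :=
  Multiplicative.toAdd (FreeGroup.lift (fun s => Multiplicative.ofAdd (a s)) x)

/-- **Job CW**. `V, S, R` = cells of dimension `0, 1, 2`; `ed e x = map 1 e (fun _ => 2x - 1)`;
`fc f = map 2 f ∘ c` with `c : ℂ → (Fin 2 → ℝ)` continuous into the closed (sup-norm) ball, mapping the
closed disc homeomorphically (radially) onto the closed square, open disc onto open square.
`nf` by choice from disjointness of the open cells; `weak` from `CWComplex.closed`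
(`A ∩ closedCell` is the compact image of the closed preimage), `fin` from `mapsTo`. -/
def JobCW : Prop :=
  ∀ (X : Type) [TopologicalSpace X] [T2Space X] [CWComplex (univ : Set X)],
    (∀ n : ℕ, 2 < n → IsEmpty (RelCWComplex.cell (univ : Set X) n)) →
    ∃ V S R : Type, Nonempty (CW2 X V S R)

/-- **Job COC**: a locally constant Čech cocycle on a simply connected space. Build the covering with
`FiberBundleCore ι Y Γ` (`Γ` discrete, `coordChange i j y c = c * (γ i y)⁻¹ * γ j y`,
`FiberBundle.isCoveringMap`); the bijection `(c, y) ↦ ⟨y, c * γ (indexAt y) y⟩` identifies the total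
space with `Γ × Y`. `H y` = end point of the lift of any path from a base point (independent of the
path: `IsCoveringMap.liftPath_apply_one_eq_of_homotopicRel` / monodromy). For a path `ω`, the lift of
`ω` starting at `H (ω 0)` is `H ∘ ω` (restrict and concatenate). -/
def JobCOC : Prop :=
  ∀ (Y Γ ι : Type) [TopologicalSpace Y] [SimplyConnectedSpace Y] [Group Γ] (U : ι → Set Y)
    (γ : ι → Y → Γ), (∀ i, IsOpen (U i)) → (∀ y, ∃ i, y ∈ U i) →
    (∀ i j y, y ∈ U i → y ∈ U j → ∀ᶠ y' in 𝓝 y, (γ i y')⁻¹ * γ j y' = (γ i y)⁻¹ * γ j y) →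
    ∃ H : Y → Γ, ∀ (ω : C(I, Y)) i a, ω a ∈ U i →
      ∀ᶠ a' in 𝓝 a, H (ω a') * γ i (ω a') = H (ω a) * γ i (ω a)

/-- **Job HOL** (from `JobCOC`, applied to `Y = I`, `ω = id`, charts `ω⁻¹(non-midpoints)` with `gU ∘ ω` and
`ω⁻¹(non-vertices)` with `1`; normalise by left multiplication). Key lemma for HOL and SEC: a set
`A ⊆ sk1` with all `ed e ⁻¹' A` closed is closed in `X` (`weak`, `fin`, T2, compactness). -/
def JobHOL : Prop :=
  ∀ (X V S R : Type) [TopologicalSpace X] [T2Space X] (K : CW2 X V S R) (ω : C(I, X)),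
    (∀ a, ω a ∈ K.sk1) → ∃ h : I → FreeGroup S, h 0 = 1 ∧ K.IsHol ω h

/-- **Job SEC**: vertex/edge data give continuous sections. At `ω a₀ = ed e x₀` (interior) `h` is locally
constant and `ed e '' J` (`J ⊆ (0,1)` open) is open in `sk1`. At `ω a₀ = vt v`, `c = h a₀`, `W` an open nbhd
of `Zv c v`: `N = {vt v} ∪ {ed e x | s e = v, 0 < x < 1/2, Ze c e x ∈ W} ∪ {ed e x | t e = v,
1/2 < x < 1, Ze (c e⁻¹) e x ∈ W}` is open in `sk1`. -/
def JobSEC : Prop :=
  ∀ (X V S R : Type) [TopologicalSpace X] [T2Space X] (K : CW2 X V S R)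
    (A Z : Type) [TopologicalSpace A] [TopologicalSpace Z] (ω : C(A, X)) (h : A → FreeGroup S),
    (∀ a, ω a ∈ K.sk1) → K.IsHol ω h →
    ∀ (Zv : FreeGroup S → V → Z) (Ze : FreeGroup S → S → C(I, Z)),
    (∀ c e, Ze c e 0 = Zv c (K.s e)) → (∀ c e, Ze c e 1 = Zv (c * FreeGroup.of e) (K.t e)) →
    ∀ ζ : A → Z, (∀ a v, ω a = K.vt v → ζ a = Zv (h a) v) →
    (∀ a e x, x ≠ 0 → x ≠ 1 → ω a = K.ed e x → ζ a = Ze (h a) e x) → Continuous ζ

/-- **Job CONN** (from `JobSEC`). `bs y` = `v` for `y = vt v`, `s e` in the open edge `e`,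
`bs (fc f 1)` in the open face `f`. SEC with `Z = Prop` (or `Bool`) discrete, `Zv c v = ∃ l, IsPath b l v ∧
mk l = c`, `Ze` constant, shows: for every `θ` there is a path from `bs (att f 0)` to `bs (att f θ)` with
word `h f θ`. Second part: `{y | bs y reachable from v}` and its complement are closed by `weak`. -/
def JobCONN : Prop :=
  ∀ (X V S R : Type) [TopologicalSpace X] [T2Space X] (K : CW2 X V S R)
    (h : R → I → FreeGroup S), K.Wd h →
    (∀ f, ∃ b l, IsPath K.s K.t b l b ∧ FreeGroup.mk l = h f 1) ∧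
    (PreconnectedSpace X → ∀ v v', ∃ l, IsPath K.s K.t v l v')

/-- **Job SC** (from `JobCOC`). `Γ = F(S)/N`. `r y = fc f (z/‖z‖)` for `y = fc f z`, `0 < ‖z‖ < 1`, `r y = y` on
`sk1`. Charts: `U' = {y not a centre, r y not a midpoint}` with `[gU (r y)]`; `M' = {y not a centre, r y not
a vertex}` with `1`; the open faces `D_f` with `γ (fc f z) = [h f θ]⁻¹` for `z = ‖z‖ circ θ` (well defined in
`Γ` as `[h f 0] = [h f 1]`; any value at the centre). Openness and local constancy by `weak`: for `C`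
(relatively) closed in `sk1`, `r⁻¹ C ∪ centres` is closed; on `D_f` a set `fc f '' O`, `O` open in the open
disc, is open; `(θ, ρ) ↦ ρ circ θ` is a closed map. COC gives `H` with `H (vt (t e)) = H (vt (s e)) [e]`
(`ω = ed e`, connectedness of `[0,1/2)`, `(0,1)`, `(1/2,1]`). -/
def JobSC : Prop :=
  ∀ (X V S R : Type) [TopologicalSpace X] [T2Space X] [SimplyConnectedSpace X] (K : CW2 X V S R)
    (h : R → I → FreeGroup S), K.Wd h → ∀ v l, IsPath K.s K.t v l v →
    FreeGroup.mk l ∈ Subgroup.normalClosure (range fun f => h f 1)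

/-- **Job MU**. In `ℂ²` let `s z = (1 - ‖z‖, z) ≠ 0`, `P y` = orthogonal projection onto `ℂ s z` if
`y = fc j z`, `‖z‖ < 1`, and onto `ℂ (0,1)` otherwise (as a `2 × 2` matrix or a pair-valued formula
`P v = ⟨v, s⟩ s / ‖s‖²`); `P` is continuous by `weak`. `H : I × X → X` contraction, `H 0 = x₀`, `H 1 = id`,
`C' = C ∪ fc j (disc)`; by uniform continuity take `N` with `‖P (H ((k+1)/N, y)) - P (H (k/N, y))‖ < 1` on
`C'`. `v_0 ≠ 0` in the range of `P x₀`, `v_{k+1} y = P (H ((k+1)/N, y)) (v_k y)` is continuous, nonzero on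
`C'`, in the range of `P`. `μ` = second coordinate of `v_N`; `lam z = ⟨v_N (fc j z), s z⟩ / ‖s z‖²`. -/
def JobMU : Prop :=
  ∀ (X V S R : Type) [TopologicalSpace X] [T2Space X] [ContractibleSpace X] (K : CW2 X V S R)
    (j : R) (C : Set X), IsCompact C → ∃ (μ : C(X, ℂ)) (lam : C(ℂ, ℂ)),
    (∀ y ∈ C, (∀ z : ℂ, ‖z‖ < 1 → y ≠ K.fc j z) → μ y ≠ 0) ∧
    (∀ z : ℂ, ‖z‖ ≤ 1 → lam z ≠ 0) ∧ ∀ z : ℂ, ‖z‖ = 1 → μ (K.fc j z) = lam z * z

/-- **Job SURJ** (from `JobMU`, `JobSEC`). `C` = closed discs of `Φ ∪ {j}` and the closed edges given by `fin`.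
Vertex logs `ℓ v` (`exp (ℓ v) = μ (vt v)` when nonzero); for the finitely many edges in `C` a continuous
log `L e` of `μ ∘ ed e` with `L e 0 = ℓ (s e)`, `L e 1 = ℓ (t e) + 2πi a e` (lift through
`Complex.isCoveringMapOn_exp` / `Circle.isCoveringMap_exp`); other edges: segment, `a e = 0`. SEC with
`Zv c v = ℓ v + 2πi ex a c`, `Ze c e = L e + 2πi ex a c` gives a continuous log of `μ ∘ att f` with total
change `2πi ex a (h f 1)`. On the disc `μ ∘ fc f` (`f ≠ j`), resp. `lam`, has a log (use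
`θ, ρ ↦ ρ circ θ` as a null-homotopy, or lift on the disc); two continuous logs differ by a constant. -/
def JobSURJ : Prop :=
  ∀ (X V S R : Type) [TopologicalSpace X] [T2Space X] [ContractibleSpace X] (K : CW2 X V S R)
    (h : R → I → FreeGroup S), K.Wd h → ∀ (Φ : Finset R) (j : R), ∃ a : S → ℤ,
    ex a (h j 1) = 1 ∧ ∀ f ∈ Φ, f ≠ j → ex a (h f 1) = 0

/-- a labelling of the fibres of a covering by `G`, compatible with monodromy -/
structure Lab {G E X : Type} [Group G] [TopologicalSpace E] [TopologicalSpace X] (p : E → X)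
    (lb : G → X → E) : Prop where
  proj : ∀ g x, p (lb g x) = x
  inj : ∀ g g' x, lb g x = lb g' x → g = g'
  surj : ∀ y, ∃ g, lb g (p y) = y
  mono : ∀ ω : C(I, X), ∃ d : G, ∀ (g : G) (ω' : C(I, E)), (∀ a, p (ω' a) = ω a) →
    ω' 0 = lb g (ω 0) → ω' 1 = lb (g * d) (ω 1)

/-- **Job LAB**. Fix `e₀` over `x₀` and paths `c x` from `x₀` to `x` (`X` is path connected);
`lb g x` = monodromy of `e₀` along (loop of `g`) then `c x`; bijective on fibres as `E` is simply connected
(`IsCoveringMap.monodromy`, `injective_path_homotopic_map`); `d` = class of `c x · ω · (c y)⁻¹`. Mind the order of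
multiplication in `FundamentalGroup` (use `g⁻¹` if needed). -/
def JobLAB : Prop :=
  ∀ (G E X : Type) [Group G] [TopologicalSpace E] [TopologicalSpace X] [SimplyConnectedSpace E]
    (p : E → X), IsCoveringMap p → Function.Surjective p →
    ∀ x : X, Nonempty (FundamentalGroup X x ≃* G) → ∃ lb : G → X → E, Lab p lb

/-- **Job LIFT** (from `JobSEC`). `d e` from `Lab.mono (ed e)`; `vt' (g,v) = lb g (vt v)`, `ed' (g,e)` = lift of
`ed e` from `lb g (vt (s e))`; `Zf g y` = `vt' (g,v)` or `ed' (g,e) x` (open edge); `fc' (g,f)` = lift of `fc f`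
(`existsUnique_continuousMap_lifts`, `ℂ` simply connected) with value `Zf g (fc f 1)` at `1`. By SEC and
uniqueness of lifts `fc' (g,f) (circ θ) = Zf (g * lift d (h f θ)) (att f θ)`; `θ = 1` gives
`lift d (h f 1) = 1`. For fixed `x`, `g ↦ ed' (g,e) x` and `g ↦ fc' (g,f) z` are bijections onto the fibre
(monodromy along segments). `fin`: `h f` has finite range (locally in `{c, c e⁻¹ | e ∈ B}`, compactness).
`weak`: for a sheet `W'` over `W`, `p (W' \ A)` is open by `K.weak` since its preimage under a cell map is the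
union over `g` of the preimages of `W' \ A`. `gU' (ed' (g,e) x) = of (g,e)` on the second half. -/
def JobLIFT : Prop :=
  ∀ (G E X V S R : Type) [Group G] [TopologicalSpace E] [TopologicalSpace X] [T2Space X]
    (K : CW2 X V S R) (h : R → I → FreeGroup S), K.Wd h →
    ∀ (p : E → X) (lb : G → X → E), IsCoveringMap p → Lab p lb →
    T2Space E ∧ ∃ (d : S → G) (K' : CW2 E (G × V) (G × S) (G × R)),
      (∀ g e, K'.s (g, e) = (g, K.s e)) ∧ (∀ g e, K'.t (g, e) = (g * d e, K.t e)) ∧
      (∀ f, FreeGroup.lift d (h f 1) = 1) ∧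
      K'.Wd fun f θ => hol (FreeGroup.lift d) (fun g s => FreeGroup.of (g, s)) (h f.2 θ) f.1

/-- combinatorial 2-complex with several vertices whose `G`-cover is contractible -/
structure CP {G V S R : Type} [Group G] (s t : S → V) (d : S → G) (w : R → FreeGroup S)
    (v₀ : V) : Prop where
  loop : ∀ f, ∃ b l, IsPath s t b l b ∧ FreeGroup.mk l = w f
  rel : ∀ f, FreeGroup.lift d (w f) = 1
  conn : ∀ v g, ∃ l, IsPath s t v₀ l v ∧ FreeGroup.lift d (FreeGroup.mk l) = g
  sc : ∀ l, IsPath s t v₀ l v₀ → FreeGroup.lift d (FreeGroup.mk l) = 1 →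
    FreeGroup.mk l ∈ Subgroup.normalClosure (range w)
  cob : ∀ (Φ : Finset (G × R)) (j : G × R), ∃ a : G → S → ℤ,
    cs (FreeGroup.lift d) a (w j.2) j.1 = 1 ∧
      ∀ f ∈ Φ, f ≠ j → cs (FreeGroup.lift d) a (w f.2) f.1 = 0

/-- **Job GP**. Add relators `q v` (`v ≠ v₀`) = word of a path `v₀ → v` with label `1` (`q v₀ = 1`).
`ker`: `x ≡ φ x` modulo the `q`'s for `φ e = q (s e) e (q (t e))⁻¹`, and `φ x` is the word of a closed path at
`v₀`. `cob`: correct `a` (or `0`) by the coboundary `u (g d e, t e) - u (g, s e)` of a vertex function with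
`u (g, v₀) = 0`; along a path `b → b'` it sums to `u (g ψ l, b') - u (g, b)`. -/
def JobGP : Prop :=
  ∀ (G V S R : Type) [Group G] (s t : S → V) (d : S → G) (w : R → FreeGroup S) (v₀ : V),
    CP s t d w v₀ → ∃ (R' : Type) (w' : R' → FreeGroup S), Asph (FreeGroup.lift d) w'

/-- **Job TOP** (from CW, HOL, LAB, LIFT, CONN, SC, SURJ, GP). Choose `h` by HOL (`att f` lies in `sk1` by
`fin`), get `K'` on `E`. Paths in `K'` project to paths in `K` (label: path `(g,v) → (g',v')` has
`g' = g * lift d (mk l)`), paths in `K` lift; the word of the lift from `g` is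
`hol (lift d) (fun g s => of (g,s)) (mk l) g`, and `FreeGroup.map Prod.snd` of it is `mk l` (`map_hol`,
`hol_const`); `ex (uncurry a) (hol .. x g) = cs a x g` (`map_hol`). This gives `CP`, then GP. -/
def JobTOP : Prop :=
  ∀ (G : Type) [Group G], Crest.Topology.HasClassifyingComplex G 2 →
    ∃ (S R : Type) (ψ : FreeGroup S →* G) (w : R → FreeGroup S), Asph ψ w

end Crest.Agent.EG
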