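import Crest.Agent.EG.DefsR
import Crest.Agent.EG.DefsT

/-! Row 197 (S0300): assembly from the jobs. -/

set_option autoImplicit false

namespace Crest.Agent.EG

theorem final (hAN : JobAN) (hCH : JobCH) (hMAIN : JobMAIN) (hRES : JobRES) (hTOP : JobTOP)
    (hLEN : JobLEN) (hRF : JobRF) (hK2 : JobK2) (hX1 : JobX1) (hX2 : JobX2) (hB1 : JobB1)
    (hB2 : JobB2) (hL : JobL) (hGEO : JobGEO) :
    ∃ (G : Type) (_ : Group G),
      Group.FG G ∧ Group.ResiduallyFinite G ∧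
      (∀ (A : Rep ℤ G) (n : ℕ), 3 ≤ n → CategoryTheory.Limits.IsZero (groupCohomology A n)) ∧
      (∃ A : Rep ℤ G, ¬ CategoryTheory.Limits.IsZero (groupCohomology A 2)) ∧
      Crest.Topology.HasClassifyingComplex G 3 ∧ ¬ Crest.Topology.HasClassifyingComplex G 2 := by
  obtain ⟨hp, hac, hrep, hcard⟩ := hL
  obtain ⟨ℓ, hℓ⟩ := hLEN (Fin 21) L
  obtain ⟨hk1, hsurj, hrel⟩ := hX1 (Fin 21) L 0
  obtain ⟨hk23, hk2⟩ := hK2 (Fin 21) L ℓ hℓ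
  have hA : Acyc (L.pi0 0) (L.r0 0) := hX2 _ L 0 hac hk23 hk2 hk1 (hsurj hac.conn) hrel
  letI : Fintype L.Ed := Fintype.ofFinite _
  obtain ⟨h3, h2⟩ := hRES L.G _ _ (L.pi0 0) (L.r0 0) hA
  haveI := hRF _ L ℓ hℓ
  refine ⟨L.G, inferInstance, Group.fg_of_surjective hA.surj, inferInstance, h3, h2 ?_,
    hB1 _ L hp (hB2 _ L ℓ hℓ hp), fun h => ?_⟩
  · rw [Nat.card_eq_fintype_card] at hcard
    simp only [Fintype.card_prod, Fintype.card_fin, Fintype.card_bool, Fintype.card_sum]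
    omega
  · obtain ⟨S, R, ψ, w, hw⟩ := hTOP _ h
    obtain ⟨Φ, _, κ, B, X, hS⟩ := hMAIN L.G _ _ _ _ _ (L.pi0 0) (L.r0 0) ψ w rel hrel hw
      (hCH _ _ _ _ _ _ _ ψ w hA hw) (hGEO hrel)
    exact hAN _ Φ rel κ B X hrep hS

end Crest.Agent.EG
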