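import Crest.Agent.EG.DefsR

/-! Row 197, job GEO: the scaled copy of `L` in the `G`-cover. -/

set_option autoImplicit false

open Set

namespace Crest.Agent.EG

open Crest.Agent.GSC.Topo (sev scl)

namespace GEOx

section fs
variable {G P R : Type} [Group G] (π : FreeGroup P →* G) (r : R → FreeGroup P) (𝓟 : Set G)

/-- `FS` as a subgroup -/
def FG : Subgroup (FreeGroup P) where
  carrier := FS π r 𝓟
  one_mem' := ⟨[], rfl, by simp⟩
  mul_mem' := by
    rintro _ _ ⟨l, rfl, hl⟩ ⟨m, rfl, hm⟩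
    exact ⟨l ++ m, by simp [sev], fun p hp => (List.mem_append.1 hp).elim (hl p) (hm p)⟩
  inv_mem' := by
    rintro _ ⟨l, rfl, hl⟩
    refine ⟨(l.map fun p => (p.1, p.2.1, !p.2.2)).reverse, ?_, ?_⟩
    · clear hl
      induction l with
      | nil => simp [sev]
      | cons a l ih =>
        obtain ⟨u, i, b⟩ := a
        simp only [sev, List.map_cons, List.reverse_cons, List.map_append, List.prod_append,
          List.prod_cons, mul_inv_rev] at ih ⊢
        rw [ih]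
        cases b <;> simp [mul_assoc]
    · simp only [List.mem_reverse, List.mem_map]
      rintro _ ⟨p, hp, rfl⟩
      exact hl p hp

variable {π r 𝓟}

theorem conj_mem {y f : FreeGroup P} (hy : π y = 1) (hf : f ∈ FG π r 𝓟) :
    y⁻¹ * f * y ∈ FG π r 𝓟 := by
  obtain ⟨l, rfl, hl⟩ := hf
  refine ⟨l.map fun p => (y⁻¹ * p.1, p.2), ?_, ?_⟩
  · clear hl
    induction l with
    | nil => simp [sev]
    | cons a l ih =>
      simp only [sev, List.map_cons, List.prod_cons] at ih ⊢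
      rw [ih]; group
  · simp only [List.mem_map]
    rintro _ ⟨p, hp, rfl⟩
    simpa [hy] using hl p hp

end fs

theorem tele {F : Type} [Group F] (s t : F) (N : ℕ) :
    (List.ofFn fun k : Fin N => t ^ (k : ℕ) * (s * t * s⁻¹ * t⁻¹) * (t ^ (k : ℕ))⁻¹).prod =
      s * t ^ N * s⁻¹ * (t ^ N)⁻¹ := by
  induction N with
  | zero => simp
  | succ N ih =>
    rw [List.ofFn_succ_last, List.prod_append]
    simp only [Fin.val_castSucc, ih, Fin.val_last, List.prod_cons, List.prod_nil, pow_succ]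
    group

section gr
variable {V : Type} [DecidableEq V] (Γ : Gr V) (o : V)

/-- exponent sum of a generator -/
def chi (v : V) (g : Γ.A) : ℤ := Multiplicative.toAdd (Γ.wt (Pi.single v 1) g)

@[simp] theorem chi_mul (v : V) (g g' : Γ.A) : chi Γ v (g * g') = chi Γ v g + chi Γ v g' := by
  simp [chi]
@[simp] theorem chi_inv (v : V) (g : Γ.A) : chi Γ v g⁻¹ = -chi Γ v g := by simp [chi]
@[simp] theorem chi_pow (v : V) (g : Γ.A) (n : ℕ) : chi Γ v (g ^ n) = n * chi Γ v g := by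
  simp [chi]
@[simp] theorem chi_zpow (v : V) (g : Γ.A) (n : ℤ) : chi Γ v (g ^ n) = n * chi Γ v g := by
  simp [chi]
@[simp] theorem chi_gen (v x : V) : chi Γ v (Γ.gen x) = if x = v then 1 else 0 := by
  simp [chi, Pi.single_apply]

omit [DecidableEq V] in
theorem pi_tt (x y : V) : (Γ.pi0 o (Gr.tt x y) : Γ.A) = Γ.gen y * (Γ.gen x)⁻¹ := by
  simp [Gr.tt, Gr.pi0_false]

omit [DecidableEq V] in
theorem tt_symm (x y : V) : (Gr.tt y x : FreeGroup (V × Bool)) = (Gr.tt x y)⁻¹ := by simp [Gr.tt]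

/-- the scaled vertex -/
def PP (h : ℕ) (x : V) : Γ.A := (Γ.gen o ^ h)⁻¹ * Γ.gen x ^ h

omit [DecidableEq V] in
theorem step {h : ℕ} {x y : V} (hxy : Γ.adj x y) {p : FreeGroup (V × Bool)}
    (hp : (Γ.pi0 o p : Γ.A) = PP Γ o h x) : (Γ.pi0 o (p * Gr.tt x y ^ h) : Γ.A) = PP Γ o h y := by
  have hc := (Γ.gen_comm hxy).symm.inv_right
  rw [map_mul, map_pow, Subgroup.coe_mul, Subgroup.coe_pow, hp, pi_tt, hc.eq, hc.symm.mul_pow]
  simp [PP, mul_assoc]

/-- scaled edge path -/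
def path (h : ℕ) : V → List V → FreeGroup (V × Bool)
  | _, [] => 1
  | x, y :: l => Gr.tt x y ^ h * path h y l

/-- a condition on all consecutive pairs -/
def Ch (Q : V → V → Prop) : V → List V → Prop
  | _, [] => True
  | x, y :: l => Q x y ∧ Ch Q y l

instance decCh (Q : V → V → Prop) [DecidableRel Q] : ∀ x l, Decidable (Ch Q x l)
  | _, [] => isTrue trivial
  | x, y :: l => @instDecidableAnd (Q x y) (Ch Q y l) _ (decCh Q y l)

omit [DecidableEq V] in
theorem fan (F : Subgroup (FreeGroup (V × Bool))) (h : ℕ) (a : V) (Q : V → V → Prop)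
    (hQ : ∀ x y, Q x y → Γ.adj x y ∧ ∀ p : FreeGroup (V × Bool),
      (Γ.pi0 o p : Γ.A) = PP Γ o h x →
      p * (Gr.tt x y ^ h * Gr.tt y a ^ h * Gr.tt a x ^ h) * p⁻¹ ∈ F) :
    ∀ (l : List V) (x : V) (p : FreeGroup (V × Bool)), Ch Q x l →
      (Γ.pi0 o p : Γ.A) = PP Γ o h x →
      p * path h x l * (p * Gr.tt x a ^ h * Gr.tt a (l.getLastD x) ^ h)⁻¹ ∈ F
  | [], x, p, _, _ => by simp [path, tt_symm x a, F.one_mem]
  | y :: l, x, p, hc, hp => by
    have h1 := fan F h a Q hQ l y _ hc.2 (step Γ o (hQ x y hc.1).1 hp)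
    have h2 := (hQ x y hc.1).2 p hp
    convert F.mul_mem h1 h2 using 1
    rw [path, List.getLastD_cons, tt_symm x a]
    group

end gr

/-- vertices of `K₅` -/
def vv (v : Fin 5) : Fin 21 := ⟨v.val, by omega⟩

/-- centres of the pentagons -/
def ce (i : Fin 6) : Fin 21 := ⟨15 + i.val, by omega⟩

/-- the first edge of a pentagon -/
def cc (i : Fin 6) : Fin 21 := eps 0 (pv i 1)

/-- the rest of the boundary of a pentagon -/
def bd (i : Fin 6) : List (Fin 21) :=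
  [vv (pv i 1), eps (pv i 1) (pv i 2), vv (pv i 2), eps (pv i 2) (pv i 3), vv (pv i 3),
    eps (pv i 3) (pv i 4), vv (pv i 4), eps (pv i 4) 0, 0]

/-- scaled edges of `K₅` -/
def eh (h : ℕ) (a b : Fin 5) : FreeGroup (Fin 21 × Bool) :=
  Gr.tt (vv a) (eps a b) ^ h * Gr.tt (eps a b) (vv b) ^ h

theorem eh_symm (h : ℕ) (a b : Fin 5) : eh h b a = (eh h a b)⁻¹ := by
  have : eps b a = eps a b := by revert a b; decide
  simp [eh, this, tt_symm (vv a), tt_symm (eps a b) (vv b)]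

/-- generator loops -/
def XX {F : Type} [Group F] (e : Fin 5 → Fin 5 → F) : Fin 6 → F :=
  ![e 0 1 * e 1 2 * e 2 0, e 0 1 * e 1 3 * e 3 0, e 0 1 * e 1 4 * e 4 0, e 0 2 * e 2 3 * e 3 0,
    e 0 2 * e 2 4 * e 4 0, e 0 3 * e 3 4 * e 4 0]

theorem lift_XX {F : Type} [Group F] (e : Fin 5 → Fin 5 → F) (he : ∀ a b, e b a = (e a b)⁻¹)
    (i : Fin 6) : FreeGroup.lift (XX e) (rel i) = e 0 (pv i 1) * e (pv i 1) (pv i 2) *
      e (pv i 2) (pv i 3) * e (pv i 3) (pv i 4) * e (pv i 4) 0 := by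
  fin_cases i <;> simp [rel, relL, pv, XX, he 0 1, he 0 2, he 0 3, he 0 4, he 1 2, he 1 3, he 1 4,
    he 2 3, he 2 4, he 3 4, mul_assoc]

theorem lift_path (h : ℕ) (i : Fin 6) :
    FreeGroup.lift (XX (eh h)) (rel i) = Gr.tt 0 (cc i) ^ h * path h (cc i) (bd i) := by
  rw [lift_XX _ (eh_symm h)]
  simp only [eh, bd, path, cc, mul_assoc, mul_one]
  rfl

theorem pi_eh (h : ℕ) (a b : Fin 5) (hab : a ≠ b) {p : FreeGroup (Fin 21 × Bool)}
    (hp : (L.pi0 0 p : L.A) = PP L 0 h (vv a)) :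
    (L.pi0 0 (p * eh h a b) : L.A) = PP L 0 h (vv b) := by
  have : L.adj (vv a) (eps a b) ∧ L.adj (eps a b) (vv b) :=
    (by decide +kernel : ∀ a b : Fin 5, a ≠ b →
      L.adj (vv a) (eps a b) ∧ L.adj (eps a b) (vv b)) a b hab
  rw [eh, ← mul_assoc]
  exact step L 0 this.2 (step L 0 this.1 hp)

theorem pi_XX (h : ℕ) (i : Fin 6) : L.pi0 0 (XX (eh h) i) = 1 := by
  have key : ∀ a b : Fin 5, a ≠ 0 → a ≠ b → b ≠ 0 →
      L.pi0 0 (eh h 0 a * eh h a b * eh h b 0) = 1 := fun a b h1 h2 h3 => Subtype.ext (by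
    have := pi_eh h b 0 h3 (pi_eh h a b h2 (pi_eh h 0 a h1.symm (p := 1) (by simp [PP, vv])))
    rw [one_mul] at this
    rw [this]; simp [PP, vv])
  fin_cases i <;> exact key _ _ (by decide) (by decide) (by decide)

/-- conditions on the far triangles -/
def QQ (i : Fin 6) (x y : Fin 21) : Prop :=
  L.adj x y ∧ L.adj y (ce i) ∧ L.adj x (ce i) ∧ (∀ j, x ≠ ce j ∧ y ≠ ce j) ∧ x ≠ 0 ∧
    (y ≠ 0 ∨ (x ≠ cc i ∧ y ≠ cc i))

instance (i : Fin 6) : DecidableRel (QQ i) := fun _ _ => by unfold QQ; infer_instance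

theorem facts : ∀ i, Ch (QQ i) (cc i) (bd i) ∧ (bd i).getLastD (cc i) = 0 ∧
    L.adj (ce i) 0 ∧ L.adj 0 (cc i) ∧ L.adj (ce i) (cc i) ∧ ce i ≠ 0 ∧ cc i ≠ 0 ∧
    (∀ j, cc i ≠ ce j) ∧ ∀ j, ce i = ce j → i = j := by decide +kernel

end GEOx

open GEOx in
theorem jobGEO (H : JobGEO1) : JobGEO := by
  intro hr Ω
  classical
  have H1 := H _ L 0 hr
  obtain ⟨D, hD⟩ : ∃ D : ℕ, ∀ g ∈ Ω, ∀ v, |chi L v (g : L.A)| < D := by
    refine ⟨(Ω ×ˢ Finset.univ).sup (fun p => (chi L p.2 (p.1 : L.A)).natAbs) + 1, fun g hg v => ?_⟩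
    have := Finset.le_sup (f := fun p : L.G × Fin 21 => (chi L p.2 (p.1 : L.A)).natAbs)
      (Finset.mk_mem_product hg (Finset.mem_univ v))
    rw [← Int.natCast_natAbs]
    exact_mod_cast Nat.lt_succ_of_le this
  have out : ∀ (g : L.G) v, (D : ℤ) ≤ |chi L v (g : L.A)| → g ∉ Ω := fun g v a b =>
    (hD g b v).not_ge a
  choose f1 f2 f3 f4 f5 f6 f7 f8 f9 using facts
  choose ℓ ρ l1 l2 l3 l4 using fun i => (H1 (ce i) 0 (cc i) (f3 i) (f4 i) (f5 i)).2 D
  refine ⟨ℓ, ρ, l2, fun i α hα => l4 i α fun g s a b hab hg => hα g s ?_, fun N => ?_⟩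
  · rcases hab with c | c
    · exact out g (ce i) (by simpa [hg, (f6 i).symm, f8] using c)
    · exact out g (cc i) (by simpa [hg, (f7 i).symm, (f8 i i).symm] using c)
  set w := 2 * D + 1 with hw
  let u : Fin 6 → Fin N → FreeGroup (Fin 21 × Bool) := fun i k =>
    (Gr.tt 0 (ce i) ^ w) ^ (k : ℕ) * (Gr.tt 0 (ce i) ^ D * Gr.tt 0 (cc i) ^ D)
  have hu : ∀ i k v, chi L v (L.pi0 0 (u i k) : L.A) =
      (k * w + D) * (if ce i = v then 1 else 0) + D * (if cc i = v then 1 else 0) -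
        (k * w + 2 * D) * (if 0 = v then 1 else 0) := fun i k v => by
    simp only [u, map_mul, map_pow, Subgroup.coe_mul, Subgroup.coe_pow, pi_tt, chi_mul, chi_pow,
      chi_inv, chi_gen]
    ring
  let far : Set L.G := {g | ∀ i' k', (L.pi0 0 (u i' k'))⁻¹ * g ∉ Ω}
  have hw' : (w : ℤ) = 2 * D + 1 := by exact_mod_cast hw
  have hkN : ∀ k : Fin N, ((k : ℕ) : ℤ) * w + w ≤ N * w := fun k => by
    have : ((k : ℕ) : ℤ) + 1 ≤ N := by exact_mod_cast k.2
    nlinarith [show (0 : ℤ) ≤ w by positivity]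
  have hk0 : ∀ k : Fin N, (0 : ℤ) ≤ ((k : ℕ) : ℤ) * w := fun k => by positivity
  have hfar : ∀ (i : Fin 6) (g : L.G), (∀ j, j ≠ i → chi L (ce j) (g : L.A) = 0) →
      (chi L 0 (g : L.A) ≤ -(N * w + w) ∨ chi L (cc i) (g : L.A) = 0 ∨
        w ≤ chi L (cc i) (g : L.A) ∨ N * w ≤ chi L (ce i) (g : L.A)) → g ∈ far := by
    intro i g a b i' k'
    have k1 := hkN k'
    have k0 := hk0 k'
    by_cases c : i' = i
    · subst c
      rcases b with b | b | b | b
      · refine out _ 0 (le_abs.2 (.inr ?_))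
        simp [hu, f6, f7]; linarith
      · refine out _ (cc i') (le_abs.2 (.inr ?_))
        simp [hu, (f8 i' i').symm, (f7 i').symm, b]
      · refine out _ (cc i') (le_abs.2 (.inl ?_))
        simp [hu, (f8 i' i').symm, (f7 i').symm]; linarith
      · refine out _ (ce i') (le_abs.2 (.inl ?_))
        simp [hu, f8, (f6 i').symm]; linarith
    · refine out _ (ce i') (le_abs.2 (.inr ?_))
      simp [hu, f8, (f6 i').symm, a i' c]; linarith
  have hne : ∀ i j, j ≠ i → ce i ≠ ce j := fun i j a b => a (f9 i j b).symm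
  have main : ∀ i, ∃ n, (∀ p ∈ n, L.pi0 0 p.1 ∈ far) ∧
      FreeGroup.lift (XX (eh (N * w + w))) (rel i) =
        (List.ofFn fun k => u i k * sev (L.r0 0) (ℓ i) * (u i k)⁻¹).prod * sev (L.r0 0) n := by
    intro i
    set t₁ : FreeGroup (Fin 21 × Bool) := Gr.tt 0 (ce i) with ht₁
    set t₂ : FreeGroup (Fin 21 × Bool) := Gr.tt 0 (cc i) with ht₂
    have e1 : (List.ofFn fun k => u i k * sev (L.r0 0) (ℓ i) * (u i k)⁻¹).prod =
        t₂ ^ w * t₁ ^ (N * w) * (t₂ ^ w)⁻¹ * (t₁ ^ (N * w))⁻¹ := by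
      rw [mul_comm N w, pow_mul, ← tele]
      congr 2
      funext k
      rw [← l1 i]
      simp only [u, ← ht₁, ← ht₂]
      group
    have c12 : Commute (L.pi0 0 t₂) (L.pi0 0 t₁) := Subtype.ext (by
      have a := L.gen_comm (f3 i)
      have b := L.gen_comm (f4 i)
      have c := L.gen_comm (f5 i)
      simp only [ht₁, ht₂, Subgroup.coe_mul, pi_tt]
      exact ((c.symm.mul_right b.symm.inv_right).mul_left
        (a.symm.mul_right (Commute.refl _).inv_right).inv_left).eq)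
    have e2 : L.pi0 0 (t₂ ^ w * t₁ ^ (N * w) * (t₂ ^ w)⁻¹) = L.pi0 0 t₁ ^ (N * w) := by
      simp only [map_mul, map_pow, map_inv, (c12.pow_pow w (N * w)).eq]; group
    have m1 := fan L 0 (FG (L.pi0 0) (L.r0 0) far) (N * w + w) (ce i) (QQ i)
      (fun x y q => ⟨q.1, fun p hp => (H1 y x (ce i) (L.symm _ _ q.1) q.2.2.1 q.2.1).1 _ p far
        fun a b g _ hg => hfar i g (fun j hj => by
          simp [hg, hp, PP, (f6 j).symm, (q.2.2.2.1 j).1, (q.2.2.2.1 j).2, hne i j hj]) (by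
          rcases q.2.2.2.2.2 with c | c
          · left; simp [hg, hp, PP, q.2.2.2.2.1, c, f6]
          · right; left; simp [hg, hp, PP, c.1, c.2, (f7 i).symm, (f8 i i).symm])⟩)
      (bd i) (cc i) (t₂ ^ (N * w + w)) (f1 i)
      (by simpa using step L 0 (f4 i) (p := 1) (h := N * w + w) (by simp [PP]))
    have m2 := (H1 (cc i) 0 (ce i) (L.symm _ _ (f4 i)) (L.symm _ _ (f3 i))
      (L.symm _ _ (f5 i))).1 (N * w) (t₂ ^ w) far fun a b g _ hg => hfar i g (fun j hj => by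
        simp [hg, ht₂, pi_tt, (f6 j).symm, f8, hne i j hj]) (by
        right; right; left
        simp [hg, ht₂, pi_tt, (f7 i).symm, (f8 i i).symm])
    have m3 := (H1 (cc i) 0 (ce i) (L.symm _ _ (f4 i)) (L.symm _ _ (f3 i))
      (L.symm _ _ (f5 i))).1 w (t₂ ^ w * t₁ ^ (N * w) * (t₂ ^ w)⁻¹) far fun a b g _ hg =>
      hfar i g (fun j hj => by
        rw [e2] at hg
        simp [hg, ht₁, pi_tt, (f6 j).symm, f8, hne i j hj]) (by
        right; right; right
        rw [e2] at hg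
        simp [hg, ht₁, pi_tt, (f6 i).symm, f8])
    rw [f2, ← lift_path] at m1
    have m4 := conj_mem (y := t₂ ^ w * t₁ ^ (N * w) * (t₂ ^ w)⁻¹ * (t₁ ^ (N * w))⁻¹)
      (by rw [map_mul, e2]; simp)
      (Subgroup.mul_mem _ (Subgroup.mul_mem _ m1 m2) m3)
    obtain ⟨n, hn, hn'⟩ := m4
    refine ⟨n, hn', ?_⟩
    rw [e1, hn, tt_symm 0 (ce i), ← ht₁, ← ht₂]
    generalize Gr.tt (cc i) (ce i) = s
    simp only [pow_add, inv_pow]
    have a1 : t₂ ^ (N * w) * t₂ ^ w = t₂ ^ w * t₂ ^ (N * w) := (Commute.pow_pow_self _ _ _).eq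
    have a2 : t₁ ^ (N * w) * t₁ ^ w = t₁ ^ (N * w) * t₁ ^ w := rfl
    have a3 : (t₁ ^ (N * w))⁻¹ * (t₁ ^ w)⁻¹ = (t₁ ^ w)⁻¹ * (t₁ ^ (N * w))⁻¹ :=
      (Commute.pow_pow_self _ _ _).inv_inv.eq
    rw [a1, a3]
    generalize t₁ ^ (N * w) = A
    generalize t₂ ^ (N * w) = B
    generalize s ^ (N * w) = C
    group
  choose n n1 n2 using main
  refine ⟨XX (eh (N * w + w)), u, n, pi_XX _, fun i k i' k' hne' p hp => ?_,
    fun i p hp => n1 i p hp, n2⟩
  obtain ⟨a, b, ha, -, e⟩ := l3 i p hp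
  have k0 := hk0 k'
  by_cases c : i' = i
  · subst c
    have hk : (k : ℕ) ≠ k' := fun d => hne' (by rw [Fin.ext d])
    refine out _ (ce i') ?_
    simp only [Subgroup.coe_mul, Subgroup.coe_inv, chi_mul, chi_inv, hu, e, chi_zpow, chi_gen, f8,
      (f6 i').symm, if_true, if_false]
    rw [abs_le] at ha
    rcases lt_or_gt_of_ne hk with d | d
    · have : ((k : ℕ) : ℤ) + 1 ≤ (k' : ℕ) := by exact_mod_cast d
      exact le_abs.2 (.inr (by nlinarith [show (0 : ℤ) ≤ D by positivity]))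
    · have : ((k' : ℕ) : ℤ) + 1 ≤ (k : ℕ) := by exact_mod_cast d
      exact le_abs.2 (.inl (by nlinarith [show (0 : ℤ) ≤ D by positivity]))
  · refine out _ (ce i') (le_abs.2 (.inr ?_))
    simp [hu, e, f8, (f6 i').symm, hne i i' c]; linarith

end Crest.Agent.EG
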