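import Crest.Agent.EG.DefsR

/-! Row 197 (S0300), job GEO1: staircases and tiles in a flat plane. -/

set_option autoImplicit false

open Set

namespace Crest.Agent.EG

open Crest.Agent.GSC.Topo (sev scl)

namespace Geo1x

section Abs
variable {G P R : Type} [Group G] (π : FreeGroup P →* G) (r : R → FreeGroup P) (𝓟 : Set G) (ρ : R)

/-- product of conjugates of relators at positions in `𝓟`, with coefficient `n` at `(1, ρ)` -/
def T (x : FreeGroup P) (n : ℤ) : Prop :=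
  ∃ l, sev r l = x ∧ (∀ p ∈ l, π p.1 ∈ 𝓟) ∧ scl π l (1, ρ) = n

variable {π r 𝓟 ρ}

theorem T.one : T π r 𝓟 ρ 1 0 := ⟨[], rfl, by simp, rfl⟩

theorem T.mul {x y : FreeGroup P} {m n : ℤ} (h : T π r 𝓟 ρ x m) (k : T π r 𝓟 ρ y n) :
    T π r 𝓟 ρ (x * y) (m + n) := by
  obtain ⟨l, rfl, h1, rfl⟩ := h
  obtain ⟨l', rfl, h2, rfl⟩ := k
  refine ⟨l ++ l', by simp [sev], fun p hp => ?_, by simp [scl]⟩
  rcases List.mem_append.1 hp with h | h
  exacts [h1 p h, h2 p h]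

open Classical in
theorem T.atom (u : FreeGroup P) (σ : R) (β : Bool) (hu : π u ∈ 𝓟) :
    T π r 𝓟 ρ (u * (if β then r σ else (r σ)⁻¹) * u⁻¹)
      (if π u = 1 ∧ σ = ρ then (if β then 1 else -1) else 0) :=
  ⟨[(u, σ, β)], by simp [sev], by simpa using hu, by simp [scl, Finsupp.single_apply]⟩

theorem T.inv {x : FreeGroup P} {n : ℤ} (h : T π r 𝓟 ρ x n) : T π r 𝓟 ρ x⁻¹ (-n) := by
  classical
  obtain ⟨l, rfl, h1, rfl⟩ := h
  induction l with
  | nil => simpa [sev, scl] using T.one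
  | cons p l ih =>
    obtain ⟨u, σ, β⟩ := p
    have := (ih fun q hq => h1 q (List.mem_cons_of_mem _ hq)).mul
      (T.atom (r := r) (ρ := ρ) u σ (!β) (h1 _ List.mem_cons_self))
    convert this using 1
    · cases β <;> simp [sev, mul_assoc]
    · cases β <;> simp [scl, Finsupp.single_apply] <;> split_ifs <;> simp

variable {t₁ t₂ : FreeGroup P} {c : FreeGroup P → ℤ}
  (hex : ∀ u, π u ∈ 𝓟 → π (u * t₁) ∈ 𝓟 → π (u * t₂) ∈ 𝓟 →
    T π r 𝓟 ρ (u * (t₁ * t₂ * t₁⁻¹ * t₂⁻¹) * u⁻¹) (c u))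
  (hcm : Commute (π t₁) (π t₂))
include hex hcm

theorem col (n : ℕ) (u : FreeGroup P) (h0 : ∀ j ≤ n, π u * π t₂ ^ j ∈ 𝓟)
    (h1 : ∀ j < n, π u * (π t₁ * π t₂ ^ j) ∈ 𝓟) :
    T π r 𝓟 ρ (u * (t₁ * t₂ ^ n * t₁⁻¹ * (t₂ ^ n)⁻¹) * u⁻¹)
      (∑ j ∈ Finset.range n, c (u * t₂ ^ j)) := by
  induction n with
  | zero => simpa using T.one
  | succ n ih =>
    have := (ih (fun j hj => h0 j (by omega)) fun j hj => h1 j (by omega)).mul
      (hex (u * t₂ ^ n) (by simpa using h0 n (by omega))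
        (by simpa [mul_assoc, (hcm.pow_right n).eq] using h1 n (by omega))
        (by simpa [mul_assoc, pow_succ] using h0 (n + 1) le_rfl))
    rw [Finset.sum_range_succ]
    convert this using 1
    group

theorem rect (m n : ℕ) (u : FreeGroup P)
    (h0 : ∀ i ≤ m, ∀ j ≤ n, π u * (π t₁ ^ i * π t₂ ^ j) ∈ 𝓟) :
    T π r 𝓟 ρ (u * (t₁ ^ m * t₂ ^ n * (t₁ ^ m)⁻¹ * (t₂ ^ n)⁻¹) * u⁻¹)
      (∑ i ∈ Finset.range m, ∑ j ∈ Finset.range n, c (u * t₁ ^ i * t₂ ^ j)) := by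
  induction m with
  | zero => simpa using T.one
  | succ m ih =>
    have := (ih (fun i hi => h0 i (by omega)))
    have h2 := (col hex hcm n (u * t₁ ^ m)
      (fun j hj => by simpa [mul_assoc] using h0 m (by omega) j hj)
      (fun j hj => by simpa [mul_assoc, pow_succ] using h0 (m + 1) le_rfl j hj.le)).mul this
    rw [Finset.sum_range_succ, add_comm]
    convert h2 using 1
    group

theorem stair (h : ℕ) : ∀ u : FreeGroup P,
    (∀ i j : ℕ, i + j ≤ h → π u * (π t₁ ^ i * π t₂ ^ j) ∈ 𝓟) →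
    ∃ n, T π r 𝓟 ρ (u * (t₁ ^ h * (t₂ * t₁⁻¹) ^ h * t₂⁻¹ ^ h) * u⁻¹) n := by
  induction h with
  | zero => intro u _; exact ⟨0, by simpa using T.one⟩
  | succ h ih =>
    intro u h0
    obtain ⟨n, hn⟩ := ih (u * t₁) fun i j hij => by
      simpa [mul_assoc, pow_succ'] using h0 (i + 1) j (by omega)
    have := hn.mul (col hex hcm (h + 1) u (fun j hj => by simpa using h0 0 j (by omega))
      (fun j hj => by simpa using h0 1 j (by omega)))
    refine ⟨n + ∑ j ∈ Finset.range (h + 1), c (u * t₂ ^ j), ?_⟩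
    convert this using 1
    rw [pow_succ (t₂ * t₁⁻¹)]
    generalize (t₂ * t₁⁻¹) ^ h = W
    group

omit hex hcm in
theorem cs_pow (α : G → P → ℤ) (x y : P) (n : ℕ) (g : G)
    (h : ∀ k : ℕ, ∀ s, α (g * π (FreeGroup.of x * (FreeGroup.of y)⁻¹) ^ k) s = 0) :
    cs π α ((FreeGroup.of x * (FreeGroup.of y)⁻¹) ^ n) g = 0 := by
  induction n with
  | zero => simp
  | succ n ih =>
    rw [pow_succ, cs_mul, ih, cs_mul, cs_inv, cs_of, cs_of, map_pow, h n]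
    have := h (n + 1) y
    rw [pow_succ, map_mul, map_inv] at this
    simpa [mul_assoc] using this

end Abs

variable {V : Type} (Γ : Gr V) (o : V)

theorem adj_ne {x y : V} (h : Γ.adj x y) : x ≠ y := fun e => Γ.ne x y h (by rw [e])

theorem sq_eq {x y : V} (h : Γ.adj x y) : ∃ (e : Γ.Ed) (β : Bool),
    Gr.sq x y = (if β then Γ.r0 o (.inl e) else (Γ.r0 o (.inl e))⁻¹) ∧
      (e.1 = (x, y) ∨ e.1 = (y, x)) := by
  rcases lt_or_gt_of_ne (Γ.ne x y h) with h1 | h1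
  · exact ⟨⟨(x, y), h, h1⟩, true, rfl, .inl rfl⟩
  · refine ⟨⟨(y, x), Γ.symm _ _ h, h1⟩, false, ?_, .inr rfl⟩
    simp [Gr.r0, Gr.sq, mul_assoc]

theorem pi_tt (x y : V) : (Γ.pi0 o (Gr.tt x y) : Γ.A) = Γ.gen y * (Γ.gen x)⁻¹ := by
  simp [Gr.tt, Gr.pi0_false]

theorem hexagon {a b c : V} (hab : Γ.adj a b) (hbc : Γ.adj b c) (hac : Γ.adj a c) :
    ∃ (ρ : Γ.Ed ⊕ Bool) (ε : ℤ), ε ≠ 0 ∧ ∀ (𝓟 : Set Γ.G) (u : FreeGroup (V × Bool)),
      Γ.pi0 o u ∈ 𝓟 → Γ.pi0 o (u * Gr.tt b a) ∈ 𝓟 → Γ.pi0 o (u * Gr.tt b c) ∈ 𝓟 →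
      T (Γ.pi0 o) (Γ.r0 o) 𝓟 ρ
        (u * (Gr.tt b a * Gr.tt b c * (Gr.tt b a)⁻¹ * (Gr.tt b c)⁻¹) * u⁻¹)
        (open Classical in if Γ.pi0 o u = 1 then ε else 0) := by
  classical
  obtain ⟨e₁, β₁, h₁, k₁⟩ := sq_eq Γ o (Γ.symm _ _ hbc)
  obtain ⟨e₂, β₂, h₂, k₂⟩ := sq_eq Γ o (Γ.symm _ _ hab)
  obtain ⟨e₃, β₃, h₃, k₃⟩ := sq_eq Γ o hac
  have nab := adj_ne Γ hab
  have nbc := adj_ne Γ hbc
  have nac := adj_ne Γ hac
  have n1 : (Sum.inl e₁ : Γ.Ed ⊕ Bool) ≠ .inl e₃ := by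
    intro e
    obtain rfl := Sum.inl.inj e
    rcases k₁ with k₁ | k₁ <;> rcases k₃ with k₃ | k₃ <;> rw [k₁] at k₃ <;> simp_all
  have n2 : (Sum.inl e₂ : Γ.Ed ⊕ Bool) ≠ .inl e₃ := by
    intro e
    obtain rfl := Sum.inl.inj e
    rcases k₂ with k₂ | k₂ <;> rcases k₃ with k₃ | k₃ <;> rw [k₂] at k₃ <;> simp_all
  refine ⟨.inl e₃, if β₃ then 1 else -1, by cases β₃ <;> simp, fun 𝓟 u p0 p1 p2 => ?_⟩
  let u₂ : FreeGroup (V × Bool) := FreeGroup.of (a, false) * FreeGroup.of (c, true) *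
    (FreeGroup.of (b, true))⁻¹ * (FreeGroup.of (a, false))⁻¹
  have hu₂ : Γ.pi0 o (u * u₂) = Γ.pi0 o (u * Gr.tt b c) := by
    rw [map_mul (Γ.pi0 o) u, map_mul (Γ.pi0 o) u]
    congr 1
    apply Subtype.ext
    have h1 : Commute (Γ.gen a) (Γ.gen c * (Γ.gen b)⁻¹) :=
      (Γ.gen_comm hac).mul_right (Γ.gen_comm hab).inv_right
    rw [pi_tt, ← h1.mul_inv_cancel]
    simp only [u₂, map_mul, map_inv, Subgroup.coe_mul, Subgroup.coe_inv, Gr.pi0_false, Gr.pi0_true]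
    group
  have := ((T.atom (r := Γ.r0 o) (ρ := .inl e₃) _ (.inl e₁) β₁ p1).mul
    (T.atom (r := Γ.r0 o) (ρ := .inl e₃) (u * u₂) (.inl e₂) β₂ (hu₂ ▸ p2))).mul
    (T.atom (r := Γ.r0 o) (ρ := .inl e₃) _ (.inl e₃) β₃ p0)
  rw [← h₁, ← h₂, ← h₃] at this
  convert this using 1
  · simp only [u₂, Gr.tt, Gr.sq]
    group
  · simp [n1, n2]

theorem indep {a b c : V} (hab : Γ.adj a b) (hbc : Γ.adj b c) (hac : Γ.adj a c) (i j : ℤ)
    (h : (Γ.gen a * (Γ.gen b)⁻¹) ^ i * (Γ.gen c * (Γ.gen b)⁻¹) ^ j = 1) : i = 0 ∧ j = 0 := by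
  classical
  have nab := adj_ne Γ hab
  have nbc := adj_ne Γ hbc
  have nac := adj_ne Γ hac
  have h1 := congrArg (fun g => Multiplicative.toAdd (Γ.wt (Pi.single a 1) g)) h
  have h2 := congrArg (fun g => Multiplicative.toAdd (Γ.wt (Pi.single c 1) g)) h
  simp [nab.symm, nbc, nac, nac.symm] at h1 h2
  exact ⟨h1, h2⟩

end Geo1x

open Geo1x in
theorem jobGEO1 : JobGEO1 := by
  intro V Γ o _ a b c hab hbc hac
  classical
  obtain ⟨ρ, ε, hε, hex⟩ := hexagon Γ o hab hbc hac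
  have hcA : Commute (Γ.gen a * (Γ.gen b)⁻¹) (Γ.gen c * (Γ.gen b)⁻¹) :=
    (((Γ.gen_comm hac).mul_right (Γ.gen_comm hab).inv_right)).mul_left
      (((Γ.gen_comm hbc).mul_right (Commute.refl _).inv_right).inv_left)
  have hcm : Commute (Γ.pi0 o (Gr.tt b a)) (Γ.pi0 o (Gr.tt b c)) := by
    apply Subtype.ext
    simp only [Subgroup.coe_mul, pi_tt]
    exact hcA.eq
  refine ⟨fun h u 𝓟 h𝓟 => ?_, fun D => ?_⟩
  · obtain ⟨n, l, h1, h2, -⟩ := stair (hex 𝓟) hcm h u fun i j hij =>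
      h𝓟 i j _ hij (by simp [pi_tt])
    refine ⟨l, h1.trans ?_, h2⟩
    congr 4 <;> simp [Gr.tt]
  · set A := Γ.pi0 o (Gr.tt b a) with hA
    set C := Γ.pi0 o (Gr.tt b c) with hC
    have hco : ∀ i j : ℤ, ((A ^ i * C ^ j : Γ.G) : Γ.A) =
        (Γ.gen a * (Γ.gen b)⁻¹) ^ i * (Γ.gen c * (Γ.gen b)⁻¹) ^ j := by
      intro i j
      simp [hA, hC, pi_tt]
    have hv : ∀ i j : ℕ, Γ.pi0 o (Gr.tt b a ^ D * Gr.tt b c ^ D)⁻¹ * (A ^ i * C ^ j) =
        A ^ ((i : ℤ) - D) * C ^ ((j : ℤ) - D) := by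
      intro i j
      rw [map_inv, map_mul, map_pow, map_pow, ← hA, ← hC, mul_inv_rev, sub_eq_neg_add,
        sub_eq_neg_add, zpow_add, zpow_add, zpow_neg, zpow_neg, zpow_natCast, zpow_natCast,
        zpow_natCast, zpow_natCast]
      have h1 : Commute (C ^ D)⁻¹ ((A ^ D)⁻¹ * A ^ i) :=
        ((hcm.symm.pow_pow D D).inv_inv).mul_right (hcm.symm.pow_pow D i).inv_left
      calc _ = (C ^ D)⁻¹ * ((A ^ D)⁻¹ * A ^ i) * C ^ j := by group
        _ = _ := by rw [h1.eq]; group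
    obtain ⟨l, h1, h2, h3⟩ := (rect
      (hex {g | ∃ i j : ℤ, |i| ≤ D + 1 ∧ |j| ≤ D + 1 ∧ g = A ^ i * C ^ j}) hcm (2 * D + 1)
      (2 * D + 1) (Gr.tt b a ^ D * Gr.tt b c ^ D)⁻¹ (fun i hi j hj =>
        ⟨i - D, j - D, by rw [abs_le]; omega, by rw [abs_le]; omega, hv i j⟩)).inv
    refine ⟨l, ρ, ?_, ?_, fun p hp => ?_, fun α hα => ?_⟩
    · rw [h1]; group
    · rw [h3, neg_ne_zero]
      have hiff : ∀ i j : ℕ, Γ.pi0 o ((Gr.tt b a ^ D * Gr.tt b c ^ D)⁻¹ * Gr.tt b a ^ i *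
          Gr.tt b c ^ j) = 1 ↔ i = D ∧ j = D := by
        intro i j
        rw [mul_assoc, map_mul, map_mul (Γ.pi0 o) (_ ^ i), map_pow, map_pow, ← hA, ← hC, hv]
        constructor
        · intro h
          have := indep Γ hab hbc hac _ _ ((hco _ _).symm.trans (congrArg Subtype.val h))
          omega
        · rintro ⟨rfl, rfl⟩
          simp
      simp only [hiff]
      rw [Finset.sum_eq_single D, Finset.sum_eq_single D]
      · simpa using hε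
      · intro j _ hj; simp [hj]
      · intro h; exact absurd (Finset.mem_range.2 (by omega)) h
      · intro i _ hi; simp [hi]
      · intro h; exact absurd (Finset.mem_range.2 (by omega)) h
    · obtain ⟨i, j, hi, hj, e⟩ := h2 p hp
      exact ⟨i, j, hi, hj, by rw [e, hco]⟩
    · have hα' : ∀ (i j : ℕ) s, (i = 0 ∨ i = 2 * D + 1 ∨ j = 0 ∨ j = 2 * D + 1) →
          α (Γ.pi0 o (Gr.tt b a ^ D * Gr.tt b c ^ D)⁻¹ * (A ^ i * C ^ j)) s = 0 := by
        intro i j s hij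
        refine hα _ s (i - D) (j - D) ?_ (by rw [hv, hco])
        rcases hij with h | h | h | h
        · left; rw [le_abs]; omega
        · left; rw [le_abs]; omega
        · right; rw [le_abs]; omega
        · right; rw [le_abs]; omega
      set v := (Gr.tt b a ^ D * Gr.tt b c ^ D)⁻¹ with hv'
      set w := 2 * D + 1 with hw
      have e1 : sev (Γ.r0 o) l = v * (Gr.tt b c ^ w * Gr.tt b a ^ w * (Gr.tt b c ^ w)⁻¹ *
          (Gr.tt b a ^ w)⁻¹) * v⁻¹ := by rw [h1]; group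
      have hw' : Commute (A ^ w) (C ^ w) := hcm.pow_pow w w
      have s1 : ∀ j, j = 0 ∨ j = w → cs (Γ.pi0 o) α (Gr.tt b a ^ w) (Γ.pi0 o v * C ^ j) = 0 := by
        intro j hj
        refine cs_pow α _ _ w _ fun k s => ?_
        have := hα' k j s (by omega)
        rwa [(hcm.pow_pow k j).eq, ← mul_assoc] at this
      have s2 : ∀ i, i = 0 ∨ i = w → cs (Γ.pi0 o) α (Gr.tt b c ^ w) (Γ.pi0 o v * A ^ i) = 0 := by
        intro i hi
        refine cs_pow α _ _ w _ fun k s => ?_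
        have := hα' i k s (by omega)
        rwa [← mul_assoc] at this
      rw [e1, cs_conj _ _ _ _ (by
        simp only [map_mul, map_inv, map_pow, ← hA, ← hC]
        rw [← hw'.eq]; group), cs_mul, cs_mul, cs_mul, cs_inv, cs_inv]
      simp only [map_mul, map_inv, map_pow, ← hA, ← hC, one_mul]
      have q1 := s1 0 (.inl rfl)
      have q2 := s1 w (.inr rfl)
      have q3 := s2 0 (.inl rfl)
      have q4 := s2 w (.inr rfl)
      rw [pow_zero, mul_one] at q1 q3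
      have e2 : Γ.pi0 o v * (C ^ w * A ^ w) * (C ^ w)⁻¹ = Γ.pi0 o v * A ^ w := by
        rw [← hw'.eq]; group
      have e3 : Γ.pi0 o v * (C ^ w * A ^ w * (C ^ w)⁻¹) * (A ^ w)⁻¹ = Γ.pi0 o v := by
        rw [← hw'.eq]; group
      rw [e2, e3, q1, q2, q3, q4]
      simp

end Crest.Agent.EG
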