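import Crest.Agent.EG.DefsT

/-! Row 197 (S0300), jobs SEC and HOL. -/

set_option autoImplicit false

open Set Topology Filter unitInterval

namespace Crest.Agent.EG

namespace HSx

variable {X V S R : Type} [TopologicalSpace X] (K : CW2 X V S R)

theorem vt_inj {v v' : V} (h : K.vt v = K.vt v') : v = v' := by
  have := congrArg K.nf h
  simpa [K.nf_vt] using this

theorem ed_ne_vt {e : S} {x : I} (h0 : x ≠ 0) (h1 : x ≠ 1) (v : V) : K.ed e x ≠ K.vt v := by
  intro h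
  have := congrArg K.nf h
  simp [K.nf_vt, K.nf_ed e x h0 h1] at this

theorem ed_inj {e e' : S} {x x' : I} (h0 : x ≠ 0) (h1 : x ≠ 1) (h : K.ed e' x' = K.ed e x) :
    e' = e ∧ x' = x := by
  have h0' : x' ≠ 0 := by rintro rfl; exact ed_ne_vt K h0 h1 _ (h.symm.trans (K.ed0 e'))
  have h1' : x' ≠ 1 := by rintro rfl; exact ed_ne_vt K h0 h1 _ (h.symm.trans (K.ed1 e'))
  have := congrArg K.nf h
  simpa [K.nf_ed e x h0 h1, K.nf_ed e' x' h0' h1'] using this

theorem sk1_cases {y : X} (h : y ∈ K.sk1) :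
    (∃ v, y = K.vt v) ∨ ∃ e x, x ≠ 0 ∧ x ≠ 1 ∧ y = K.ed e x := by
  rcases h with h | ⟨e, x, rfl⟩
  · exact Or.inl h
  · by_cases h0 : x = 0
    · exact Or.inl ⟨_, h0 ▸ K.ed0 e⟩
    · by_cases h1 : x = 1
      · exact Or.inl ⟨_, h1 ▸ K.ed1 e⟩
      · exact Or.inr ⟨e, x, h0, h1, rfl⟩

theorem fc_not_mem {f : R} {z : ℂ} (hz : ‖z‖ < 1) : K.fc f z ∉ K.sk1 := by
  intro h
  rcases sk1_cases K h with ⟨v, hv⟩ | ⟨e, x, h0, h1, he⟩
  · have := congrArg K.nf hv
    simp [K.nf_vt, K.nf_fc f z hz] at this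
  · have := congrArg K.nf he
    simp [K.nf_ed e x h0 h1, K.nf_fc f z hz] at this

theorem half_ne {x : I} (h : (x : ℝ) = 1 / 2) : x ≠ 0 ∧ x ≠ 1 := by
  constructor <;> rintro rfl <;> norm_num at h

theorem isClosed_of_sk1 [T2Space X] {A : Set X} (hA : A ⊆ K.sk1)
    (h : ∀ e, IsClosed (K.ed e ⁻¹' A)) : IsClosed A := by
  refine K.weak A h fun f => ?_
  obtain ⟨A0, B, hB⟩ := K.fin f
  have hF : IsClosed ((A ∩ K.vt '' (A0 : Set V)) ∪ ⋃ e ∈ B, K.ed e '' (K.ed e ⁻¹' A)) := by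
    refine IsClosed.union ((A0.finite_toSet.image _).subset inter_subset_right).isClosed ?_
    exact B.finite_toSet.isClosed_biUnion fun e _ =>
      ((h e).isCompact.image (K.ed e).continuous).isClosed
  have : {z : ℂ | ‖z‖ ≤ 1 ∧ K.fc f z ∈ A} = {z : ℂ | ‖z‖ = 1} ∩
      K.fc f ⁻¹' ((A ∩ K.vt '' (A0 : Set V)) ∪ ⋃ e ∈ B, K.ed e '' (K.ed e ⁻¹' A)) := by
    ext z
    constructor
    · rintro ⟨h1, h2⟩
      have hz : ‖z‖ = 1 := le_antisymm h1 (not_lt.1 fun h' => fc_not_mem K h' (hA h2))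
      refine ⟨hz, ?_⟩
      rcases hB z hz with ⟨v, hv, he⟩ | ⟨e, he, x, hx⟩
      · exact Or.inl ⟨h2, v, hv, he.symm⟩
      · refine Or.inr (mem_iUnion₂.2 ⟨e, he, x, ?_, hx.symm⟩)
        show K.ed e x ∈ A
        rw [← hx]; exact h2
    · rintro ⟨h1, h2⟩
      refine ⟨le_of_eq h1, ?_⟩
      rcases h2 with h2 | h2
      · exact h2.1
      · obtain ⟨e, -, x, hx, he⟩ := mem_iUnion₂.1 h2
        rw [← he]; exact hx
  rw [this]
  exact (isClosed_eq continuous_norm continuous_const).inter (hF.preimage (K.fc f).continuous)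

theorem isOpen_pre [T2Space X] {A : Type} [TopologicalSpace A] (ω : C(A, X))
    (hω : ∀ a, ω a ∈ K.sk1) {N : Set X} (hN : ∀ e, IsOpen (K.ed e ⁻¹' N)) : IsOpen (ω ⁻¹' N) := by
  have h : IsClosed (K.sk1 \ N) := by
    refine isClosed_of_sk1 K diff_subset fun e => ?_
    have : K.ed e ⁻¹' (K.sk1 \ N) = (K.ed e ⁻¹' N)ᶜ := by
      ext x
      exact ⟨fun h => h.2, fun h => ⟨Or.inr ⟨e, x, rfl⟩, h⟩⟩
    rw [this]
    exact (hN e).isClosed_compl
  have : ω ⁻¹' N = (ω ⁻¹' (K.sk1 \ N))ᶜ := by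
    ext a
    simp [hω a]
  rw [this]
  exact (h.preimage ω.continuous).isOpen_compl

theorem mid_or (y : X) :
    (∀ e (x : I), (x : ℝ) = 1 / 2 → y ≠ K.ed e x) ∨ ∀ v, y ≠ K.vt v := by
  by_cases h : ∀ v, y ≠ K.vt v
  · exact Or.inr h
  · push Not at h
    obtain ⟨v, rfl⟩ := h
    exact Or.inl fun e x hx h => ed_ne_vt K (half_ne hx).1 (half_ne hx).2 v h.symm

theorem not_mid_iff (e : S) (x : I) :
    (∀ e' (x' : I), (x' : ℝ) = 1 / 2 → K.ed e x ≠ K.ed e' x') ↔ (x : ℝ) ≠ 1 / 2 := by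
  refine ⟨fun h hx => h e x hx rfl, fun h e' x' hx' he => h ?_⟩
  rw [(ed_inj K (half_ne hx').1 (half_ne hx').2 he).2, hx']

theorem not_vt_iff (e : S) (x : I) : (∀ v, K.ed e x ≠ K.vt v) ↔ x ≠ 0 ∧ x ≠ 1 := by
  refine ⟨fun h => ⟨?_, ?_⟩, fun h v => ed_ne_vt K h.1 h.2 v⟩
  · rintro rfl; exact h _ (K.ed0 e)
  · rintro rfl; exact h _ (K.ed1 e)

end HSx

open HSx in
theorem jobSEC : JobSEC := by
  intro X V S R _ _ K A Z _ _ ω h hω hh Zv Ze hZ0 hZ1 ζ hv he
  rw [continuous_iff_continuousAt]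
  intro a₀
  rw [ContinuousAt, tendsto_nhds]
  intro W hW hW0
  rcases mid_or K (ω a₀) with hm | hm
  · have h1 := (hh a₀).1 hm
    set c := h a₀ * K.gU (ω a₀) with hc
    let N : Set X := {y | (∀ v, y = K.vt v → Zv c v ∈ W) ∧ ∀ e (x : I), x ≠ 0 → x ≠ 1 →
      y = K.ed e x → (x : ℝ) ≠ 1 / 2 ∧ Ze (c * (K.gU y)⁻¹) e x ∈ W}
    have hN : ∀ e, IsOpen (K.ed e ⁻¹' N) := by
      intro e
      have : K.ed e ⁻¹' N = ({x : I | (x : ℝ) < 1 / 2} ∩ Ze c e ⁻¹' W) ∪
          ({x : I | 1 / 2 < (x : ℝ)} ∩ Ze (c * (FreeGroup.of e)⁻¹) e ⁻¹' W) := by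
        ext x
        simp only [N, mem_preimage, mem_setOf_eq, mem_union, mem_inter_iff]
        by_cases h0 : x = 0
        · subst h0
          rw [K.ed0, hZ0]
          constructor
          · rintro ⟨h, -⟩; exact Or.inl ⟨by norm_num, h _ rfl⟩
          · rintro (⟨-, h⟩ | ⟨h, -⟩)
            · exact ⟨fun v hv => vt_inj K hv ▸ h,
                fun e' x h0 h1 h => absurd h.symm (ed_ne_vt K h0 h1 _)⟩
            · norm_num at h
        by_cases h1 : x = 1
        · subst h1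
          rw [K.ed1, hZ1 (c * (FreeGroup.of e)⁻¹), inv_mul_cancel_right]
          constructor
          · rintro ⟨h, -⟩; exact Or.inr ⟨by norm_num, h _ rfl⟩
          · rintro (⟨h, -⟩ | ⟨-, h⟩)
            · norm_num at h
            · exact ⟨fun v hv => vt_inj K hv ▸ h,
                fun e' x h0 h1 h => absurd h.symm (ed_ne_vt K h0 h1 _)⟩
        rw [K.gU_ed e x h0 h1]
        constructor
        · rintro ⟨-, h⟩
          obtain ⟨h2, h3⟩ := h e x h0 h1 rfl
          rcases lt_or_gt_of_ne h2 with h4 | h4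
          · rw [if_neg (not_lt.2 h4.le), inv_one, mul_one] at h3
            exact Or.inl ⟨h4, h3⟩
          · rw [if_pos h4] at h3
            exact Or.inr ⟨h4, h3⟩
        · intro h
          refine ⟨fun v hv => absurd hv (ed_ne_vt K h0 h1 v), fun e' x' h0' h1' he => ?_⟩
          obtain ⟨rfl, rfl⟩ := ed_inj K h0' h1' he
          rcases h with ⟨h4, h3⟩ | ⟨h4, h3⟩
          · rw [if_neg (not_lt.2 h4.le), inv_one, mul_one]
            exact ⟨h4.ne, h3⟩
          · rw [if_pos h4]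
            exact ⟨h4.ne', h3⟩
      rw [this]
      exact ((isOpen_lt continuous_subtype_val continuous_const).inter
        (hW.preimage (Ze _ _).continuous)).union
        ((isOpen_lt continuous_const continuous_subtype_val).inter
          (hW.preimage (Ze _ _).continuous))
    have h0 : ω a₀ ∈ N := by
      refine ⟨fun v hv' => ?_, fun e x h0 h1 he' => ⟨fun hx => hm e x hx he', ?_⟩⟩
      · rw [hc, hv', K.gU_vt, mul_one, ← hv a₀ v hv']; exact hW0
      · rw [hc, mul_inv_cancel_right, ← he a₀ e x h0 h1 he']; exact hW0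
    filter_upwards [h1, (isOpen_pre K ω hω hN).mem_nhds h0] with a ha1 ha2
    show ζ a ∈ W
    rcases sk1_cases K (hω a) with ⟨v, hv'⟩ | ⟨e, x, h0, h1, he'⟩
    · rw [hv', K.gU_vt, mul_one] at ha1
      rw [hv a v hv', ha1]
      exact ha2.1 v hv'
    · rw [he a e x h0 h1 he', eq_mul_inv_of_mul_eq ha1]
      exact (ha2.2 e x h0 h1 he').2
  · have h1 := (hh a₀).2 hm
    let N : Set X := {y | (∀ v, y ≠ K.vt v) ∧ ∀ e (x : I), x ≠ 0 → x ≠ 1 →
      y = K.ed e x → Ze (h a₀) e x ∈ W}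
    have hN : ∀ e, IsOpen (K.ed e ⁻¹' N) := by
      intro e
      have : K.ed e ⁻¹' N = ({0}ᶜ ∩ {1}ᶜ) ∩ Ze (h a₀) e ⁻¹' W := by
        ext x
        simp only [N, mem_preimage, mem_setOf_eq, mem_inter_iff, not_vt_iff, mem_compl_iff,
          mem_singleton_iff]
        refine and_congr_right fun hx => ⟨fun h => h e x hx.1 hx.2 rfl, fun h e' x' h0 h1 he => ?_⟩
        obtain ⟨rfl, rfl⟩ := ed_inj K h0 h1 he
        exact h
      rw [this]
      exact (isOpen_compl_singleton.inter isOpen_compl_singleton).inter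
        (hW.preimage (Ze _ _).continuous)
    have h0 : ω a₀ ∈ N := ⟨hm, fun e x h0 h1 he' => by rw [← he a₀ e x h0 h1 he']; exact hW0⟩
    filter_upwards [h1, (isOpen_pre K ω hω hN).mem_nhds h0] with a ha1 ha2
    show ζ a ∈ W
    rcases sk1_cases K (hω a) with ⟨v, hv'⟩ | ⟨e, x, h0, h1, he'⟩
    · exact absurd hv' (ha2.1 v)
    · rw [he a e x h0 h1 he', ha1]
      exact ha2.2 e x h0 h1 he'

open HSx in
theorem jobHOL (hC : JobCOC) : JobHOL := by
  intro X V S R _ _ K ω hω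
  haveI : ContractibleSpace I := (convex_Icc (0 : ℝ) 1).contractibleSpace ⟨0, by simp⟩
  let M : Set X := {y | ∀ e (x : I), (x : ℝ) = 1 / 2 → y ≠ K.ed e x}
  let N : Set X := {y | ∀ v, y ≠ K.vt v}
  have hloc : ∀ a, ω a ∈ M → ω a ∈ N → ∀ᶠ a' in 𝓝 a, K.gU (ω a') = K.gU (ω a) := by
    intro a hM hN
    have ho : IsOpen (ω ⁻¹' {y | y ∈ M ∧ y ∈ N ∧ K.gU y = K.gU (ω a)}) := by
      refine isOpen_pre K ω hω fun e => ?_
      have : K.ed e ⁻¹' {y | y ∈ M ∧ y ∈ N ∧ K.gU y = K.gU (ω a)} =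
          (({0}ᶜ ∩ {x : I | (x : ℝ) < 1 / 2}) ∩ {_x | 1 = K.gU (ω a)}) ∪
          (({1}ᶜ ∩ {x : I | 1 / 2 < (x : ℝ)}) ∩ {_x | FreeGroup.of e = K.gU (ω a)}) := by
        ext x
        simp only [M, N, mem_preimage, mem_setOf_eq, mem_union, mem_inter_iff, not_mid_iff,
          not_vt_iff, mem_compl_iff, mem_singleton_iff]
        constructor
        · rintro ⟨h2, ⟨h0, h1⟩, h3⟩
          rw [K.gU_ed e x h0 h1] at h3
          rcases lt_or_gt_of_ne h2 with h4 | h4
          · rw [if_neg (not_lt.2 h4.le)] at h3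
            exact Or.inl ⟨⟨h0, h4⟩, h3⟩
          · rw [if_pos h4] at h3
            exact Or.inr ⟨⟨h1, h4⟩, h3⟩
        · rintro (⟨⟨h0, h4⟩, h3⟩ | ⟨⟨h1, h4⟩, h3⟩)
          · have h1 : x ≠ 1 := by rintro rfl; norm_num at h4
            exact ⟨h4.ne, ⟨h0, h1⟩, by rw [K.gU_ed e x h0 h1, if_neg (not_lt.2 h4.le), h3]⟩
          · have h0 : x ≠ 0 := by rintro rfl; norm_num at h4
            exact ⟨h4.ne', ⟨h0, h1⟩, by rw [K.gU_ed e x h0 h1, if_pos h4, h3]⟩
      rw [this]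
      exact ((isOpen_compl_singleton.inter
        (isOpen_lt continuous_subtype_val continuous_const)).inter isOpen_const).union
        ((isOpen_compl_singleton.inter
          (isOpen_lt continuous_const continuous_subtype_val)).inter isOpen_const)
    filter_upwards [ho.mem_nhds ⟨hM, hN, rfl⟩] with a' ha' using ha'.2.2
  obtain ⟨H, hH⟩ := hC I (FreeGroup S) Bool (fun i => ω ⁻¹' (cond i M N))
    (fun i a => cond i (K.gU (ω a)) 1) (by
      rintro (_ | _)
      · refine isOpen_pre K ω hω fun e => ?_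
        have : K.ed e ⁻¹' N = {0}ᶜ ∩ {1}ᶜ := by
          ext x; exact not_vt_iff K e x
        show IsOpen (K.ed e ⁻¹' N)
        rw [this]
        exact isOpen_compl_singleton.inter isOpen_compl_singleton
      · refine isOpen_pre K ω hω fun e => ?_
        have : K.ed e ⁻¹' M = {x : I | (x : ℝ) ≠ 1 / 2} := by
          ext x; exact not_mid_iff K e x
        show IsOpen (K.ed e ⁻¹' M)
        rw [this]
        exact isOpen_ne_fun continuous_subtype_val continuous_const)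
    (fun a => (mid_or K (ω a)).elim (fun h => ⟨true, h⟩) fun h => ⟨false, h⟩) (by
      rintro (_ | _) (_ | _) a hi hj
      · exact Eventually.of_forall fun _ => rfl
      · filter_upwards [hloc a hj hi] with a' ha'
        simp only [cond_true, cond_false, ha']
      · filter_upwards [hloc a hi hj] with a' ha'
        simp only [cond_true, cond_false, ha']
      · exact Eventually.of_forall fun _ => by simp)
  refine ⟨fun a => (H 0)⁻¹ * H a, by simp, fun a => ⟨fun hm => ?_, fun hn => ?_⟩⟩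
  · filter_upwards [hH (ContinuousMap.id I) true a hm] with a' ha'
    simp only [ContinuousMap.id_apply, cond_true] at ha'
    rw [mul_assoc, ha', mul_assoc]
  · filter_upwards [hH (ContinuousMap.id I) false a hn] with a' ha'
    simp only [ContinuousMap.id_apply, cond_false, mul_one] at ha'
    rw [ha']

end Crest.Agent.EG
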