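import Crest.Agent.EG.DefsR

/-! Row 197, job K2: `H₂ = 0` for the cube complex of the right-angled Artin group. -/

set_option autoImplicit false

namespace Crest.Agent.EG

namespace K2

open Gr Finsupp

variable {V : Type} {Γ : Gr V}

theorem k2_single (g : Γ.A) (e : Γ.Ed) : Γ.k2 (single (g, e) 1) =
    single (g, e.1.1) 1 + single (g * Γ.gen e.1.1, e.1.2) 1 -
      single (g * Γ.gen e.1.2, e.1.1) 1 - single (g, e.1.2) 1 := by simp [k2]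

theorem k3_single (g : Γ.A) (τ : Γ.Tri) : Γ.k3 (single (g, τ) 1) =
    (single (g * Γ.gen τ.a, τ.bc) 1 - single (g, τ.bc) 1) -
      (single (g * Γ.gen τ.b, τ.ac) 1 - single (g, τ.ac) 1) +
      (single (g * Γ.gen τ.c, τ.ab) 1 - single (g, τ.ab) 1) := by simp [k3]

theorem k2_k3 (x : Γ.A × Γ.Tri →₀ ℤ) : Γ.k2 (Γ.k3 x) = 0 := by
  have : Γ.k2 ∘ₗ Γ.k3 = 0 := by
    refine Finsupp.lhom_ext' fun ⟨g, τ⟩ => LinearMap.ext_ring ?_
    have hab := (Γ.gen_comm (show Γ.adj τ.a τ.b from τ.2.1)).eq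
    have hbc := (Γ.gen_comm (show Γ.adj τ.b τ.c from τ.2.2.1)).eq
    have hac := (Γ.gen_comm (show Γ.adj τ.a τ.c from τ.2.2.2.1)).eq
    simp only [LinearMap.comp_apply, lsingle_apply, k3_single, map_add, map_sub, k2_single,
      LinearMap.zero_apply, Tri.ab, Tri.bc, Tri.ac, mul_assoc, hab, hbc, hac]
    abel
  exact LinearMap.congr_fun this x

/-- offset of the base point -/
def N (t : V × Bool) : Γ.A := if t.2 then 1 else (Γ.gen t.1)⁻¹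

theorem NM (t : V × Bool) : (N t = (1 : Γ.A) ∧ N t * Γ.gen t.1 = Γ.lt t) ∨
    (N t = Γ.lt t ∧ N t * Γ.gen t.1 = 1) := by
  obtain ⟨v, ε⟩ := t
  cases ε <;> simp [N, Gr.lt]

theorem gN {a b : V} (h : Γ.adj a b) (η : Bool) : Commute (Γ.gen a) (N (b, η)) := by
  have := Γ.gen_comm h
  cases η <;> simp [N, this]

theorem NN {a b : V} (h : Γ.adj a b) (ε η : Bool) : Commute (N (a, ε) : Γ.A) (N (b, η)) := by
  have := Γ.gen_comm h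
  cases ε <;> cases η <;> simp [N, this]

theorem lt_comm {a b : V} (h : Γ.adj a b) (ε η : Bool) : Commute (Γ.lt (a, ε)) (Γ.lt (b, η)) := by
  have := Γ.gen_comm h
  cases ε <;> cases η <;> simp [Gr.lt, this]

/-- the edge at `q` in direction `t` -/
def E (q : Γ.A) (t : V × Bool) : Γ.A × V := (q * N t, t.1)

/-- the square at `q` in directions `(a, ε)`, `(b, η)` -/
def S (q : Γ.A) (e : Γ.Ed) (ε η : Bool) : Γ.A × Γ.Ed := (q * N (e.1.1, ε) * N (e.1.2, η), e)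

theorem E_eq {p q : Γ.A} {u s : V × Bool} (h : E p u = E q s) :
    (p = q ∧ u = s) ∨ p = q * Γ.lt s := by
  obtain ⟨v, ε⟩ := u
  obtain ⟨w, η⟩ := s
  simp only [E, Prod.mk.injEq] at h
  obtain ⟨h1, rfl⟩ := h
  cases ε <;> cases η <;> simp_all [N, Gr.lt, mul_inv_eq_iff_eq_mul]

theorem gen_ne (g : Γ.A) (a : V) : g * Γ.gen a ≠ g := by
  intro h
  have := congrArg Γ.ht (mul_eq_left.1 h)
  simp at this

theorem ed_ne (e : Γ.Ed) : e.1.1 ≠ e.1.2 := fun h => by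
  have := e.2.2; rw [h] at this; exact lt_irrefl _ this

theorem va (q : Γ.A) (e : Γ.Ed) (ε η : Bool) : q * N (e.1.1, ε) * N (e.1.2, η) * Γ.gen e.1.1 =
    q * (N (e.1.1, ε) * Γ.gen e.1.1) * N (e.1.2, η) := by
  simp only [mul_assoc, (gN e.2.1 η).eq]

theorem vb' (q : Γ.A) (e : Γ.Ed) (ε η : Bool) : q * N (e.1.1, ε) * N (e.1.2, η) * Γ.gen e.1.2 =
    q * (N (e.1.2, η) * Γ.gen e.1.2) * N (e.1.1, ε) := by
  rw [mul_assoc q, (NN e.2.1 ε η).eq]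
  simp only [mul_assoc, (gN (Γ.symm _ _ e.2.1) ε).eq]

theorem v0' (q : Γ.A) (e : Γ.Ed) (ε η : Bool) : q * N (e.1.1, ε) * N (e.1.2, η) =
    q * N (e.1.2, η) * N (e.1.1, ε) := by
  rw [mul_assoc q, (NN e.2.1 ε η).eq, mul_assoc]

theorem bd {q : Γ.A} {e : Γ.Ed} {ε η : Bool} {x : Γ.A × V}
    (h : Γ.k2 (single (S q e ε η) 1) x ≠ 0) :
    x = E q (e.1.1, ε) ∨ x = E q (e.1.2, η) ∨ x = E (q * Γ.lt (e.1.1, ε)) (e.1.2, η) ∨
      x = E (q * Γ.lt (e.1.2, η)) (e.1.1, ε) := by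
  classical
  by_contra hn
  push Not at hn
  obtain ⟨h1, h2, h3, h4⟩ := hn
  apply h
  rw [S, k2_single, va, vb']
  nth_rewrite 1 [v0']
  simp only [E] at h1 h2 h3 h4
  rcases NM (Γ := Γ) (e.1.1, ε) with ⟨a1, a2⟩ | ⟨a1, a2⟩ <;>
    rcases NM (Γ := Γ) (e.1.2, η) with ⟨b1, b2⟩ | ⟨b1, b2⟩ <;>
    simp only [a2, b2] <;> simp only [a1, b1, mul_one] at h1 h2 h3 h4 ⊢ <;>
    simp [h1.symm, h2.symm, h3.symm, h4.symm]

theorem coef (q : Γ.A) (e : Γ.Ed) (ε η : Bool) :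
    Γ.k2 (single (S q e ε η) 1) (E q (e.1.1, ε)) ≠ 0 ∧
      Γ.k2 (single (S q e ε η) 1) (E q (e.1.2, η)) ≠ 0 := by
  classical
  have hn := ed_ne e
  have c : ∀ g : Γ.A, Γ.k2 (single (g, e) 1) (g, e.1.1) ≠ 0 ∧
      Γ.k2 (single (g, e) 1) (g * Γ.gen e.1.2, e.1.1) ≠ 0 ∧
      Γ.k2 (single (g, e) 1) (g, e.1.2) ≠ 0 ∧
      Γ.k2 (single (g, e) 1) (g * Γ.gen e.1.1, e.1.2) ≠ 0 := by
    intro g
    have h1 := gen_ne g e.1.1
    have h2 := gen_ne g e.1.2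
    simp [k2_single, single_apply, hn, hn.symm, h1, h1.symm, h2, h2.symm]
  obtain ⟨c1, c2, c3, c4⟩ := c (q * N (e.1.1, ε) * N (e.1.2, η))
  constructor
  · rcases NM (Γ := Γ) (e.1.2, η) with ⟨b1, b2⟩ | ⟨b1, b2⟩
    · rw [show E q (e.1.1, ε) = (q * N (e.1.1, ε) * N (e.1.2, η), e.1.1) by simp [E, b1]]
      exact c1
    · rw [show E q (e.1.1, ε) = (q * N (e.1.1, ε) * N (e.1.2, η) * Γ.gen e.1.2, e.1.1) by
        rw [vb', b2]; simp [E]]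
      exact c2
  · rcases NM (Γ := Γ) (e.1.1, ε) with ⟨b1, b2⟩ | ⟨b1, b2⟩
    · rw [show E q (e.1.2, η) = (q * N (e.1.1, ε) * N (e.1.2, η), e.1.2) by simp [E, b1]]
      exact c3
    · rw [show E q (e.1.2, η) = (q * N (e.1.1, ε) * N (e.1.2, η) * Γ.gen e.1.1, e.1.2) by
        rw [va, b2]; simp [E]]
      exact c4

variable {ℓ : Γ.A → ℕ}

variable (ℓ) in
/-- the level of a square -/
def lev (σ : Γ.A × Γ.Ed) : ℕ :=
  max (max (ℓ σ.1) (ℓ (σ.1 * Γ.gen σ.2.1.1)))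
    (max (ℓ (σ.1 * Γ.gen σ.2.1.2)) (ℓ (σ.1 * Γ.gen σ.2.1.1 * Γ.gen σ.2.1.2)))

theorem lev_S (q : Γ.A) (e : Γ.Ed) (ε η : Bool) : lev ℓ (S q e ε η) =
    max (max (ℓ q) (ℓ (q * Γ.lt (e.1.1, ε))))
      (max (ℓ (q * Γ.lt (e.1.2, η))) (ℓ (q * Γ.lt (e.1.1, ε) * Γ.lt (e.1.2, η)))) := by
  simp only [lev, S, va]
  rw [mul_assoc _ (N (e.1.2, η)), mul_assoc _ (N (e.1.2, η))]
  rcases NM (Γ := Γ) (e.1.1, ε) with ⟨a1, a2⟩ | ⟨a1, a2⟩ <;>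
    rcases NM (Γ := Γ) (e.1.2, η) with ⟨b1, b2⟩ | ⟨b1, b2⟩ <;>
    simp only [a2, b2] <;> simp only [a1, b1, mul_one] <;> omega

theorem far (hℓ : Γ.Len ℓ) (σ : Γ.A × Γ.Ed) : ∃ p ε η, σ = S p σ.2 ε η ∧
    ℓ (p * Γ.lt (σ.2.1.1, ε)) < ℓ p ∧ ℓ (p * Γ.lt (σ.2.1.2, η)) < ℓ p ∧ lev ℓ σ = ℓ p := by
  obtain ⟨g, e⟩ := σ
  have hn := ed_ne e
  have hc := Γ.gen_comm e.2.1
  have main : ∀ p ε η, (g, e) = S p e ε η → lev ℓ (g, e) = ℓ p →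
      ∃ p ε η, (g, e) = S p e ε η ∧
      ℓ (p * Γ.lt (e.1.1, ε)) < ℓ p ∧ ℓ (p * Γ.lt (e.1.2, η)) < ℓ p ∧ lev ℓ (g, e) = ℓ p := by
    intro p ε η h1 h2
    have h3 := h2
    rw [h1, lev_S] at h3
    have s1 := hℓ.step p (e.1.1, ε)
    have s2 := hℓ.step p (e.1.2, η)
    exact ⟨p, ε, η, h1, by omega, by omega, h2⟩
  have : lev ℓ (g, e) = ℓ g ∨ lev ℓ (g, e) = ℓ (g * Γ.gen e.1.1) ∨
      lev ℓ (g, e) = ℓ (g * Γ.gen e.1.2) ∨ lev ℓ (g, e) = ℓ (g * Γ.gen e.1.1 * Γ.gen e.1.2) := by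
    simp only [lev]; omega
  rcases this with h | h | h | h
  · exact main _ true true (by simp [S, N]) h
  · exact main _ false true (by simp [S, N]) h
  · exact main _ true false (by simp [S, N]) h
  · refine main _ false false ?_ h
    rw [S, v0']; simp [N]

theorem uniq {y : Γ.A × Γ.Ed →₀ ℤ} (hy : Γ.k2 y = 0) {σ₀ : Γ.A × Γ.Ed} {x : Γ.A × V}
    (h0 : Γ.k2 (single σ₀ 1) x ≠ 0)
    (h1 : ∀ σ, y σ ≠ 0 → Γ.k2 (single σ 1) x ≠ 0 → σ = σ₀) : y σ₀ = 0 := by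
  classical
  have e : Γ.k2 y x = ∑ σ ∈ y.support, y σ * Γ.k2 (single σ 1) x := by
    conv_lhs => rw [← y.sum_single, Finsupp.sum, map_sum, Finsupp.finsetSum_apply]
    refine Finset.sum_congr rfl fun σ _ => ?_
    rw [← smul_eq_mul, ← Finsupp.smul_apply, ← map_smul, smul_single, smul_eq_mul, mul_one]
  rw [hy, Finset.sum_eq_single σ₀] at e
  · exact (mul_eq_zero.1 e.symm).resolve_right h0
  · intro σ hσ hn
    rw [show Γ.k2 (single σ 1) x = 0 from by_contra fun h => hn (h1 σ (mem_support_iff.1 hσ) h),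
      mul_zero]
  · intro h; rw [notMem_support_iff.1 h, zero_mul]

theorem kill (hℓ : Γ.Len ℓ) {y : Γ.A × Γ.Ed →₀ ℤ} (hy : Γ.k2 y = 0) {p : Γ.A}
    (hb : ∀ σ, y σ ≠ 0 → lev ℓ σ ≤ ℓ p) {e : Γ.Ed} {ε η : Bool} {u : V × Bool}
    (hu : u = (e.1.1, ε) ∨ u = (e.1.2, η))
    (h : ∀ e' ε' η', ℓ (p * Γ.lt (e'.1.1, ε')) < ℓ p → ℓ (p * Γ.lt (e'.1.2, η')) < ℓ p →
      (u = (e'.1.1, ε') ∨ u = (e'.1.2, η')) → y (S p e' ε' η') ≠ 0 → S p e' ε' η' = S p e ε η) :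
    y (S p e ε η) = 0 := by
  refine uniq hy (x := E p u) ?_ fun σ h1 h2 => ?_
  · rcases hu with rfl | rfl
    exacts [(coef p e ε η).1, (coef p e ε η).2]
  · obtain ⟨q, ε', η', e1, d1, d2, e2⟩ := far hℓ σ
    have hle := hb σ h1
    have hn : (σ.2.1.1, ε') ≠ (σ.2.1.2, η') := fun h => ed_ne σ.2 (congrArg Prod.fst h)
    have t1 := (hℓ.two q _ _ hn d1 d2).2
    have t2 := (hℓ.two q _ _ hn.symm d2 d1).2
    rw [e1] at h1 h2 ⊢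
    rcases bd h2 with h3 | h3 | h3 | h3 <;> rcases E_eq h3 with ⟨h4, h5⟩ | h4
    · subst h4; exact h _ _ _ d1 d2 (Or.inl h5) h1
    · rw [h4] at hle; omega
    · subst h4; exact h _ _ _ d1 d2 (Or.inr h5) h1
    all_goals rw [h4] at hle; omega

theorem uq (hℓ : Γ.Len ℓ) {p : Γ.A} {s t : V × Bool} (hs : ℓ (p * Γ.lt s) < ℓ p)
    (ht : ℓ (p * Γ.lt t) < ℓ p) (h : Γ.rk s.1 = Γ.rk t.1) : s = t :=
  by_contra fun hn => Γ.ne _ _ (hℓ.two p s t hn hs ht).1 h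

theorem S_eq (hℓ : Γ.Len ℓ) {p : Γ.A} {e e' : Γ.Ed} {ε η ε' η' : Bool}
    (h1 : ℓ (p * Γ.lt (e.1.1, ε)) < ℓ p) (h2 : ℓ (p * Γ.lt (e.1.2, η)) < ℓ p)
    (h3 : ℓ (p * Γ.lt (e'.1.1, ε')) < ℓ p) (h4 : ℓ (p * Γ.lt (e'.1.2, η')) < ℓ p)
    (r1 : Γ.rk e.1.1 = Γ.rk e'.1.1) (r2 : Γ.rk e.1.2 = Γ.rk e'.1.2) :
    S p e ε η = S p e' ε' η' := by
  have a := uq hℓ h1 h3 r1
  have b := uq hℓ h2 h4 r2
  simp only [Prod.mk.injEq] at a b
  have : e = e' := Subtype.ext (Prod.ext a.1 b.1)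
  rw [this, a.2, b.2]

theorem lev_low (hℓ : Γ.Len ℓ) {p : Γ.A} {e : Γ.Ed} {ε η : Bool} {t : V × Bool}
    (h1 : ℓ (p * Γ.lt (e.1.1, ε)) < ℓ p) (h2 : ℓ (p * Γ.lt (e.1.2, η)) < ℓ p)
    (ht : ℓ (p * Γ.lt t) < ℓ p) (n1 : t.1 ≠ e.1.1) (n2 : t.1 ≠ e.1.2) :
    lev ℓ (S (p * Γ.lt t) e ε η) < ℓ p := by
  have t1 := (hℓ.two p _ _ (fun h => n1 (congrArg Prod.fst h)) ht h1).2
  have t2 := (hℓ.two p _ _ (fun h => n2 (congrArg Prod.fst h)) ht h2).2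
  have t3 := hℓ.step (p * Γ.lt t * Γ.lt (e.1.1, ε)) (e.1.2, η)
  rw [lev_S]; omega

theorem pair (q : Γ.A) (e : Γ.Ed) (ε η : Bool) (t : V × Bool) (h1 : Γ.adj t.1 e.1.1)
    (h2 : Γ.adj t.1 e.1.2) (g : Γ.A) (hg : g = q * N t * N (e.1.1, ε) * N (e.1.2, η)) :
    ((g, e) = S q e ε η ∧ (g * Γ.gen t.1, e) = S (q * Γ.lt t) e ε η) ∨
      ((g, e) = S (q * Γ.lt t) e ε η ∧ (g * Γ.gen t.1, e) = S q e ε η) := by
  have : g * Γ.gen t.1 = q * (N t * Γ.gen t.1) * N (e.1.1, ε) * N (e.1.2, η) := by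
    rw [hg, mul_assoc, ← (gN h2 η).eq, ← mul_assoc, mul_assoc _ (N (e.1.1, ε)), ← (gN h1 ε).eq]
    simp only [mul_assoc]
  rw [this, hg]
  rcases NM (Γ := Γ) t with ⟨a1, a2⟩ | ⟨a1, a2⟩
  · left; rw [a2, a1]; simp [S]
  · right; rw [a2, a1]; simp [S]

theorem step (hℓ : Γ.Len ℓ) {y : Γ.A × Γ.Ed →₀ ℤ} (hy : Γ.k2 y = 0) (h0 : y ≠ 0) :
    ∃ x, ∑ σ ∈ (y - Γ.k3 x).support, 4 ^ lev ℓ σ < ∑ σ ∈ y.support, 4 ^ lev ℓ σ := by
  classical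
  obtain ⟨σ₀, hσ₀, hmax⟩ := y.support.exists_max_image (lev ℓ) (support_nonempty_iff.2 h0)
  obtain ⟨p, ε, η, e1, d1, d2, e2⟩ := far hℓ σ₀
  have hb : ∀ σ, y σ ≠ 0 → lev ℓ σ ≤ ℓ p := fun σ h => e2 ▸ hmax σ (mem_support_iff.2 h)
  have h3 : ∀ i : Fin 3, ∃ t : V × Bool, ℓ (p * Γ.lt t) < ℓ p ∧ Γ.rk t.1 = i := by
    by_contra hn
    apply mem_support_iff.1 hσ₀
    rw [e1]
    refine kill hℓ hy hb (Or.inl rfl) fun e' ε' η' c1 c2 _ _ => ?_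
    by_contra hne
    apply hn
    intro i
    have : ∀ a b a' b' i : Fin 3, a < b → a' < b' → ¬ (a' = a ∧ b' = b) →
      a = i ∨ b = i ∨ a' = i ∨ b' = i := by decide
    rcases this _ _ _ _ i σ₀.2.2.2 e'.2.2 (fun h => hne (S_eq hℓ c1 c2 d1 d2 h.1 h.2)) with
      h | h | h | h
    exacts [⟨_, d1, h⟩, ⟨_, d2, h⟩, ⟨_, c1, h⟩, ⟨_, c2, h⟩]
  obtain ⟨⟨a, α⟩, da, ra⟩ := h3 0
  obtain ⟨⟨b, β⟩, db, rb⟩ := h3 1
  obtain ⟨⟨c, γ⟩, dc, rc⟩ := h3 2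
  simp only at ra rb rc
  have nab : a ≠ b := fun h => by rw [h, rb] at ra; exact absurd ra (by decide)
  have nbc : b ≠ c := fun h => by rw [h, rc] at rb; exact absurd rb (by decide)
  have nac : a ≠ c := fun h => by rw [h, rc] at ra; exact absurd ra (by decide)
  have hab : Γ.adj a b := (hℓ.two p _ _ (fun h => nab (congrArg Prod.fst h)) da db).1
  have hbc : Γ.adj b c := (hℓ.two p _ _ (fun h => nbc (congrArg Prod.fst h)) db dc).1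
  have hac : Γ.adj a c := (hℓ.two p _ _ (fun h => nac (congrArg Prod.fst h)) da dc).1
  let τ : Γ.Tri := ⟨(a, b, c), hab, hbc, hac, ra, rb, rc⟩
  let g : Γ.A := p * N (a, α) * N (b, β) * N (c, γ)
  have p0 := pair p τ.bc β γ (a, α) hab hac g rfl
  have p1 := pair p τ.ac α γ (b, β) (Γ.symm _ _ hab) hbc g (by
    simp only [g, mul_assoc p, (NN hab α β).eq]; rfl)
  have p2 := pair p τ.ab α β (c, γ) (Γ.symm _ _ hac) (Γ.symm _ _ hbc) g (by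
    show _ = p * N (c, γ) * N (a, α) * N (b, β)
    simp only [g, mul_assoc, (NN hbc β γ).eq, (NN hac α γ).left_comm])
  have l0 : lev ℓ (S (p * Γ.lt (a, α)) τ.bc β γ) < ℓ p := lev_low hℓ db dc da nab nac
  have l1 : lev ℓ (S (p * Γ.lt (b, β)) τ.ac α γ) < ℓ p := lev_low hℓ da dc db nab.symm nbc
  have l2 : lev ℓ (S (p * Γ.lt (c, γ)) τ.ab α β) < ℓ p := lev_low hℓ da db dc nac.symm nbc.symm
  have levp : ∀ (e : Γ.Ed) ε η, ℓ (p * Γ.lt (e.1.1, ε)) < ℓ p → ℓ (p * Γ.lt (e.1.2, η)) < ℓ p →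
      lev ℓ (S p e ε η) = ℓ p := fun e ε η c1 c2 => by
    have := hℓ.step (p * Γ.lt (e.1.1, ε)) (e.1.2, η)
    rw [lev_S]; omega
  set z := Γ.k3 (single (g, τ) 1) with hz
  have z1 : z (S p τ.bc β γ) * z (S p τ.bc β γ) = 1 := by
    have n1 : τ.ac ≠ τ.bc := fun h => nab (congrArg (fun e : Γ.Ed => e.1.1) h)
    have n2 : τ.ab ≠ τ.bc := fun h => nab (congrArg (fun e : Γ.Ed => e.1.1) h)
    have n3 := gen_ne g τ.a
    rcases p0 with ⟨h, -⟩ | ⟨-, h⟩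
    · rw [hz, k3_single, ← h]; simp [single_apply, n1, n2, n3]
    · rw [hz, k3_single, ← h]; simp [single_apply, n1, n2, τ, Tri.a, gen_ne, (gen_ne _ _).symm]
  have z2 : ∀ σ, z σ ≠ 0 → (σ = S p τ.bc β γ ∨ σ = S p τ.ac α γ ∨ σ = S p τ.ab α β) ∨
      σ ∈ ({S (p * Γ.lt (a, α)) τ.bc β γ, S (p * Γ.lt (b, β)) τ.ac α γ,
        S (p * Γ.lt (c, γ)) τ.ab α β} : Finset (Γ.A × Γ.Ed)) := by
    intro σ hσ
    by_contra hn
    simp only [Finset.mem_insert, Finset.mem_singleton, not_or] at hn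
    obtain ⟨⟨m1, m2, m3⟩, m4, m5, m6⟩ := hn
    apply hσ
    rw [hz, k3_single]
    change (single (g * Γ.gen a, τ.bc) 1 - single (g, τ.bc) 1 -
      (single (g * Γ.gen b, τ.ac) 1 - single (g, τ.ac) 1) +
      (single (g * Γ.gen c, τ.ab) 1 - single (g, τ.ab) 1) : Γ.A × Γ.Ed →₀ ℤ) σ = 0
    rcases p0 with ⟨a1, a2⟩ | ⟨a1, a2⟩ <;> rcases p1 with ⟨b1, b2⟩ | ⟨b1, b2⟩ <;>
      rcases p2 with ⟨c1, c2⟩ | ⟨c1, c2⟩ <;> rw [a1, a2, b1, b2, c1, c2] <;>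
      simp [single_apply, Ne.symm m1, Ne.symm m2, Ne.symm m3, Ne.symm m4, Ne.symm m5, Ne.symm m6]
  set k := y (S p τ.bc β γ) * z (S p τ.bc β γ) with hk
  refine ⟨k • single (g, τ) 1, ?_⟩
  rw [map_smul, ← hz]
  set y' := y - k • z with hy'
  have ya : ∀ σ, y' σ = y σ - k * z σ := fun σ => by simp [hy']
  have k0 : Γ.k2 y' = 0 := by rw [hy', map_sub, map_smul, hy, hz, k2_k3]; simp
  have y12 : y' (S p τ.bc β γ) = 0 := by rw [ya, hk, mul_assoc, z1]; simp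
  have hor : ∀ σ, y' σ ≠ 0 → y σ ≠ 0 ∨ z σ ≠ 0 := fun σ h => by
    by_contra hn
    push Not at hn
    exact h (by rw [ya, hn.1, hn.2]; simp)
  have hb' : ∀ σ, y' σ ≠ 0 → lev ℓ σ ≤ ℓ p := by
    intro σ h
    rcases hor σ h with h | h
    · exact hb σ h
    · rcases z2 σ h with (rfl | rfl | rfl) | h
      · exact (levp τ.bc β γ db dc).le
      · exact (levp τ.ac α γ da dc).le
      · exact (levp τ.ab α β da db).le
      · simp only [Finset.mem_insert, Finset.mem_singleton] at h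
        rcases h with rfl | rfl | rfl
        exacts [l0.le, l1.le, l2.le]
  have cls : ∀ (e : Γ.Ed) ε η, ℓ (p * Γ.lt (e.1.1, ε)) < ℓ p → ℓ (p * Γ.lt (e.1.2, η)) < ℓ p →
      (Γ.rk e.1.1 = 1 ∧ Γ.rk e.1.2 = 2 ∧ S p e ε η = S p τ.bc β γ) ∨
      (Γ.rk e.1.1 = 0 ∧ Γ.rk e.1.2 = 2 ∧ S p e ε η = S p τ.ac α γ) ∨
      (Γ.rk e.1.1 = 0 ∧ Γ.rk e.1.2 = 1 ∧ S p e ε η = S p τ.ab α β) := by
    intro e ε η c1 c2
    have : ∀ i j : Fin 3, i < j → (i = 1 ∧ j = 2) ∨ (i = 0 ∧ j = 2) ∨ (i = 0 ∧ j = 1) := by decide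
    rcases this _ _ e.2.2 with h | h | h
    · exact Or.inl ⟨h.1, h.2, S_eq hℓ c1 c2 db dc (h.1.trans rb.symm) (h.2.trans rc.symm)⟩
    · exact Or.inr (Or.inl ⟨h.1, h.2,
        S_eq hℓ c1 c2 da dc (h.1.trans ra.symm) (h.2.trans rc.symm)⟩)
    · exact Or.inr (Or.inr ⟨h.1, h.2,
        S_eq hℓ c1 c2 da db (h.1.trans ra.symm) (h.2.trans rb.symm)⟩)
  have y01 : y' (S p τ.ab α β) = 0 := by
    refine kill hℓ k0 hb' (u := (b, β)) (Or.inr rfl) fun e' ε' η' c1 c2 hu hne => ?_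
    rcases cls e' ε' η' c1 c2 with h | h | h
    · exact absurd (h.2.2 ▸ y12) hne
    · exfalso
      rcases hu with hu | hu <;> rw [show b = _ from congrArg Prod.fst hu] at rb
      · rw [h.1] at rb; exact absurd rb (by decide)
      · rw [h.2.1] at rb; exact absurd rb (by decide)
    · exact h.2.2
  have y02 : y' (S p τ.ac α γ) = 0 := by
    refine kill hℓ k0 hb' (u := (c, γ)) (Or.inr rfl) fun e' ε' η' c1 c2 hu hne => ?_
    rcases cls e' ε' η' c1 c2 with h | h | h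
    · exact absurd (h.2.2 ▸ y12) hne
    · exact h.2.2
    · exfalso
      rcases hu with hu | hu <;> rw [show c = _ from congrArg Prod.fst hu] at rc
      · rw [h.1] at rc; exact absurd rc (by decide)
      · rw [h.2.1] at rc; exact absurd rc (by decide)
  have ys : y' σ₀ = 0 := by
    rw [e1]
    rcases cls σ₀.2 ε η d1 d2 with h | h | h <;> rw [h.2.2]
    exacts [y12, y02, y01]
  have sub : y'.support ⊆ y.support.erase σ₀ ∪ {S (p * Γ.lt (a, α)) τ.bc β γ,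
      S (p * Γ.lt (b, β)) τ.ac α γ, S (p * Γ.lt (c, γ)) τ.ab α β} := by
    intro σ hσ
    rw [mem_support_iff] at hσ
    rcases hor σ hσ with h | h
    · exact Finset.mem_union_left _ (Finset.mem_erase.2
        ⟨fun h => hσ (h ▸ ys), mem_support_iff.2 h⟩)
    · rcases z2 σ h with (rfl | rfl | rfl) | h
      · exact absurd y12 hσ
      · exact absurd y02 hσ
      · exact absurd y01 hσ
      · exact Finset.mem_union_right _ h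
  have hpos : 0 < ℓ p := by omega
  have w : ∀ σ, lev ℓ σ < ℓ p → 4 ^ lev ℓ σ ≤ 4 ^ (ℓ p - 1) := fun σ h =>
    Nat.pow_le_pow_right (by norm_num) (by omega)
  have i1 := Finset.sum_le_sum_of_subset (f := fun σ => 4 ^ lev ℓ σ) sub
  have i2 := Finset.sum_union_inter (f := fun σ => 4 ^ lev ℓ σ) (s₁ := y.support.erase σ₀)
    (s₂ := {S (p * Γ.lt (a, α)) τ.bc β γ, S (p * Γ.lt (b, β)) τ.ac α γ,
      S (p * Γ.lt (c, γ)) τ.ab α β})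
  have i3 := Finset.add_sum_erase y.support (fun σ => 4 ^ lev ℓ σ) hσ₀
  have i4 : ∑ σ ∈ ({S (p * Γ.lt (a, α)) τ.bc β γ, S (p * Γ.lt (b, β)) τ.ac α γ,
      S (p * Γ.lt (c, γ)) τ.ab α β} : Finset (Γ.A × Γ.Ed)), 4 ^ lev ℓ σ ≤ 3 * 4 ^ (ℓ p - 1) := by
    refine (Finset.sum_le_card_nsmul _ _ (4 ^ (ℓ p - 1)) fun σ h => w σ ?_).trans ?_
    · simp only [Finset.mem_insert, Finset.mem_singleton] at h
      rcases h with rfl | rfl | rfl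
      exacts [l0, l1, l2]
    · exact Nat.mul_le_mul_right _ Finset.card_le_three
  have i5 : 4 ^ lev ℓ σ₀ = 4 * 4 ^ (ℓ p - 1) := by
    rw [e2, ← pow_succ']; congr 1; omega
  have i6 : 0 < 4 ^ (ℓ p - 1) := by positivity
  omega

end K2

open K2 in
theorem jobK2 : JobK2 := by
  intro V Γ ℓ hℓ
  refine ⟨k2_k3, fun y hy => ?_⟩
  induction' hn : ∑ σ ∈ y.support, 4 ^ lev ℓ σ using Nat.strong_induction_on with n ih
    generalizing y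
  by_cases h0 : y = 0
  · exact ⟨0, by simp [h0]⟩
  obtain ⟨x, hx⟩ := step hℓ hy h0
  obtain ⟨x', hx'⟩ := ih _ (hn ▸ hx) (y - Γ.k3 x) (by rw [map_sub, hy, k2_k3, sub_zero]) rfl
  exact ⟨x' + x, by rw [map_add, hx', sub_add_cancel]⟩

end Crest.Agent.EG
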