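import Crest.Agent.EG.DefsR

/-! Row 197: the job L (finite checks on the complex `L`). -/

set_option autoImplicit false

open Quaternion

namespace Crest.Agent.EG

namespace LLx

/-- the triangles -/
def triL : List (Fin 21 × Fin 21 × Fin 21) :=
  [(0,5,15), (0,5,16), (0,5,17), (0,6,16), (0,6,18), (0,6,19), (0,7,17), (0,7,18), (0,7,20),
   (0,8,15), (0,8,19), (0,8,20), (1,5,15), (1,5,16), (1,5,17), (1,9,15), (1,9,18), (1,9,20),
   (1,10,16), (1,10,19), (1,10,20), (1,11,17), (1,11,18), (1,11,19), (2,6,16), (2,6,18),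
   (2,6,19), (2,9,15), (2,9,18), (2,9,20), (2,12,15), (2,12,17), (2,12,19), (2,13,16),
   (2,13,17), (2,13,20), (3,7,17), (3,7,18), (3,7,20), (3,10,16), (3,10,19), (3,10,20),
   (3,12,15), (3,12,17), (3,12,19), (3,14,15), (3,14,16), (3,14,18), (4,8,15), (4,8,19),
   (4,8,20), (4,11,17), (4,11,18), (4,11,19), (4,13,16), (4,13,17), (4,13,20), (4,14,15),
   (4,14,16), (4,14,18)]

/-- the contraction, degree 1 (code `2 i` or `2 i + 1` = `±` the `i`-th triangle) -/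
def HL : List (List ℕ) :=
  [[0],
   [],
   [],
   [18],
   [],
   [],
   [],
   [],
   [],
   [],
   [24],
   [30],
   [],
   [],
   [],
   [1, 2, 24, 27],
   [1, 4, 24, 29],
   [1, 4, 8, 11, 13, 16, 20, 23, 24, 29, 33, 34, 38, 41, 42, 47, 51, 52, 56, 59, 62, 65, 69,
    70, 72, 77, 81, 82, 87, 88, 99, 100, 103, 106, 110, 113],
   [1, 2, 7, 8, 15, 16, 20, 23, 24, 27, 33, 34, 36, 41, 44, 47, 48, 51, 56, 59, 67, 70, 74, 77,
    79, 82, 92, 95, 99, 100, 105, 106, 108, 113, 117, 118],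
   [8, 11, 15, 16, 19, 20, 30, 33, 38, 41, 44, 47, 51, 52, 55, 56, 60, 65, 74, 77, 81, 82, 85,
    88, 90, 95, 96, 99, 105, 106, 115, 118],
   [1, 4, 11, 13, 16, 20, 23, 24, 29, 31, 34, 38, 41, 42, 47, 52, 54, 59, 62, 65, 69, 70, 72,
    77, 81, 82, 87, 88, 99, 100, 103, 106, 110, 113],
   [54],
   [60],
   [],
   [],
   [1, 4, 6, 11, 13, 16, 20, 23, 24, 29, 31, 34, 38, 41, 42, 47, 49, 52, 54, 59, 62, 65, 69,
    70, 72, 77, 81, 82, 87, 88, 99, 100, 103, 106, 110, 113],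
   [3, 4, 6, 11, 19, 20, 26, 29, 37, 38, 42, 47, 49, 52, 60, 65, 66, 69, 78, 81, 85, 88, 90,
    93, 96, 99, 103, 106, 109, 110, 115, 116],
   [1, 4, 8, 11, 13, 16, 20, 23, 24, 29, 31, 34, 38, 41, 42, 47, 51, 52, 54, 59, 62, 65, 69,
    70, 72, 77, 81, 82, 87, 88, 99, 100, 103, 106, 110, 113],
   [1, 4, 13, 16, 20, 23, 24, 29, 31, 34, 38, 41, 42, 47, 54, 59, 62, 65, 69, 70, 72, 77, 81,
    82, 87, 88, 99, 100, 103, 106, 110, 113],
   [8, 11, 15, 16, 19, 20, 33, 34, 38, 41, 44, 47, 51, 52, 56, 59, 60, 65, 74, 77, 81, 82, 85,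
    88, 90, 95, 96, 99, 105, 106, 115, 118],
   [3, 4, 6, 11, 13, 19, 20, 26, 29, 37, 38, 42, 47, 49, 52, 62, 65, 66, 69, 72, 78, 81, 87,
    88, 90, 93, 96, 99, 103, 106, 109, 110, 115, 116],
   [3, 4, 6, 9, 13, 14, 26, 29, 31, 32, 37, 42, 45, 49, 50, 54, 57, 61, 62, 66, 69, 72, 75, 78,
    84, 87, 93, 94, 103, 104, 109, 110, 116, 119],
   [84],
   [90],
   [],
   [1, 4, 6, 9, 13, 14, 24, 29, 31, 32, 42, 45, 49, 50, 54, 57, 61, 62, 66, 69, 72, 75, 84, 87,
    93, 94, 103, 104, 109, 110, 116, 119],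
   [3, 4, 6, 11, 19, 20, 26, 29, 37, 38, 42, 47, 49, 52, 62, 65, 66, 69, 78, 81, 87, 88, 90,
    93, 96, 99, 103, 106, 109, 110, 115, 116],
   [3, 4, 6, 11, 13, 14, 19, 20, 26, 29, 37, 38, 42, 47, 49, 52, 62, 65, 66, 69, 72, 75, 78,
    81, 87, 88, 90, 93, 96, 99, 103, 106, 109, 110, 115, 116],
   [1, 4, 13, 16, 20, 23, 24, 29, 31, 34, 38, 41, 42, 47, 54, 59, 61, 62, 69, 70, 72, 77, 81,
    82, 84, 87, 99, 100, 103, 106, 110, 113],
   [3, 4, 6, 11, 13, 16, 19, 20, 26, 29, 37, 38, 42, 47, 49, 52, 62, 65, 66, 69, 72, 77, 78,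
    81, 87, 88, 90, 93, 96, 99, 103, 106, 109, 110, 115, 116],
   [96],
   [0, 3, 6, 9, 14, 17, 19, 22, 25, 26, 32, 35, 37, 40, 45, 49, 50, 57, 58, 66, 71, 75, 76, 78,
    83, 93, 94, 96, 101, 104, 109, 112, 116, 119],
   [9, 10, 14, 17, 21, 22, 32, 35, 39, 40, 45, 46, 50, 53, 57, 58, 61, 64, 71, 75, 76, 80, 83,
    84, 89, 91, 94, 98, 101, 104, 107, 112, 114, 119],
   [114],
   [],
   [1, 4, 6, 9, 13, 14, 24, 29, 31, 32, 42, 45, 49, 50, 54, 57, 61, 62, 66, 69, 72, 75, 84, 87,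
    91, 94, 103, 104, 109, 110, 114, 119],
   [3, 4, 6, 9, 14, 17, 19, 22, 26, 29, 32, 35, 37, 40, 42, 45, 49, 50, 57, 58, 66, 71, 75, 76,
    78, 83, 93, 94, 96, 101, 103, 104, 109, 112, 116, 119],
   [3, 4, 6, 11, 13, 14, 19, 20, 26, 29, 37, 38, 42, 47, 49, 52, 62, 65, 66, 69, 72, 75, 78,
    81, 87, 88, 93, 94, 96, 99, 103, 106, 109, 110, 116, 119],
   [19, 20, 96, 99],
   [19, 22, 96, 101],
   [],
   [1, 2],
   [1, 4],
   [6],
   [8],
   [10],
   [12],
   [14],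
   [16],
   [],
   [19, 20],
   [19, 22],
   [],
   [1, 4, 8, 11, 13, 16, 20, 23, 24, 29, 31, 34, 38, 41, 42, 47, 51, 52, 56, 59, 62, 65, 69,
    70, 72, 77, 81, 82, 87, 88, 99, 100, 103, 106, 110, 113],
   [8, 11, 15, 16, 19, 20, 33, 34, 38, 41, 44, 47, 51, 52, 55, 56, 60, 65, 74, 77, 81, 82, 85,
    88, 90, 95, 96, 99, 105, 106, 115, 118],
   [1, 2, 24, 27, 36],
   [1, 2, 7, 8, 15, 16, 20, 23, 24, 27, 33, 34, 36, 38, 41, 44, 47, 48, 51, 56, 59, 67, 70, 74,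
    77, 79, 82, 92, 95, 99, 100, 105, 106, 108, 113, 117, 118],
   [8, 11, 15, 16, 19, 20, 30, 33, 38, 44, 47, 51, 52, 55, 56, 60, 65, 74, 77, 81, 82, 85, 88,
    90, 95, 96, 99, 105, 106, 115, 118],
   [1, 4, 24, 29, 42],
   [1, 4, 8, 11, 13, 16, 20, 23, 24, 29, 33, 34, 38, 41, 42, 44, 47, 51, 52, 56, 59, 62, 65,
    69, 70, 72, 77, 81, 82, 87, 88, 99, 100, 103, 106, 110, 113],
   [1, 2, 7, 8, 15, 16, 20, 23, 24, 27, 33, 34, 36, 41, 44, 48, 51, 56, 59, 67, 70, 74, 77, 79,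
    82, 92, 95, 99, 100, 105, 106, 108, 113, 117, 118],
   [],
   [3, 4, 6, 11, 19, 20, 26, 29, 37, 38, 42, 47, 49, 52, 62, 65, 66, 69, 78, 81, 85, 88, 90,
    93, 96, 99, 103, 106, 109, 110, 115, 116],
   [1, 4, 13, 16, 20, 23, 24, 29, 31, 34, 38, 41, 42, 47, 54, 59, 61, 62, 69, 70, 72, 77, 81,
    82, 87, 88, 99, 100, 103, 106, 110, 113],
   [1, 4, 6, 11, 13, 16, 20, 23, 24, 29, 31, 34, 38, 41, 42, 47, 49, 52, 54, 59, 62, 65, 66,
    69, 70, 72, 77, 81, 82, 87, 88, 99, 100, 103, 106, 110, 113],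
   [3, 4, 6, 11, 19, 20, 26, 29, 37, 38, 42, 47, 49, 52, 60, 65, 66, 78, 81, 85, 88, 90, 93,
    96, 99, 103, 106, 109, 110, 115, 116],
   [8, 11, 15, 16, 19, 20, 33, 34, 38, 41, 44, 47, 51, 52, 56, 59, 60, 65, 70, 74, 77, 81, 82,
    85, 88, 90, 95, 96, 99, 105, 106, 115, 118],
   [],
   [1, 4, 6, 9, 13, 14, 24, 29, 31, 32, 42, 45, 49, 50, 54, 57, 61, 62, 66, 69, 72, 75, 84, 87,
    91, 94, 103, 104, 109, 110, 116, 119],
   [3, 4, 6, 11, 13, 14, 19, 20, 26, 29, 37, 38, 42, 47, 49, 52, 62, 65, 66, 69, 72, 75, 78,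
    81, 87, 88, 93, 94, 96, 99, 103, 106, 109, 110, 115, 116]]

/-- the contraction, degree 0 -/
def CL : List (Fin 21 × List (ℤ × Fin 21 × Fin 21)) :=
  [(0, [(-1,0,15)]),
   (1, [(-1,1,15)]),
   (2, [(-1,2,15)]),
   (3, [(-1,3,15)]),
   (4, [(-1,4,15)]),
   (5, [(-1,5,15)]),
   (6, [(-1,0,15), (1,0,6)]),
   (7, [(-1,0,15), (1,0,7)]),
   (8, [(-1,8,15)]),
   (9, [(-1,9,15)]),
   (10, [(-1,1,15), (1,1,10)]),
   (11, [(-1,1,15), (1,1,11)]),
   (12, [(-1,12,15)]),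
   (13, [(-1,2,15), (1,2,13)]),
   (14, [(-1,14,15)]),
   (15, []),
   (16, [(-1,0,15), (1,0,16)]),
   (17, [(-1,0,15), (1,0,17)]),
   (18, [(-1,0,15), (1,0,18)]),
   (19, [(-1,0,15), (1,0,19)]),
   (20, [(-1,0,15), (1,0,20)])]

/-- lookup -/
def Hc (e : Fin 21 × Fin 21) : List (ℤ × Fin 21 × Fin 21 × Fin 21) :=
  (((incL.zip HL).lookup e).getD []).map fun c =>
    (if c % 2 = 0 then 1 else -1, triL.getD (c / 2) (0, 0, 0))

/-- lookup -/
def Cc (v : Fin 21) : List (ℤ × Fin 21 × Fin 21) := (CL.lookup v).getD []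

/-- coefficient of a chain given as a list -/
def ev {T : Type} [DecidableEq T] (l : List (ℤ × T)) (t : T) : ℤ :=
  (l.map fun p => if p.2 = t then p.1 else 0).sum

/-- incidence number -/
def B2 (e : Fin 21 × Fin 21) (t : Fin 21 × Fin 21 × Fin 21) : ℤ :=
  (if (t.2.1, t.2.2) = e then 1 else 0) - (if (t.1, t.2.2) = e then 1 else 0) +
    (if (t.1, t.2.1) = e then 1 else 0)

theorem chk1 : ∀ t ∈ triL, ∀ t' ∈ triL, ev (Hc (t.2.1, t.2.2)) t' - ev (Hc (t.1, t.2.2)) t' +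
    ev (Hc (t.1, t.2.1)) t' = if t = t' then 1 else 0 := by
  have : (triL.all fun t => triL.all fun t' => decide (ev (Hc (t.2.1, t.2.2)) t' -
    ev (Hc (t.1, t.2.2)) t' + ev (Hc (t.1, t.2.1)) t' = if t = t' then 1 else 0)) = true := by
    decide +kernel
  simpa only [List.all_eq_true, decide_eq_true_eq] using this

theorem chk2 : ∀ e ∈ incL, ∀ e' ∈ incL, ((Hc e).map fun p => p.1 * B2 e' p.2).sum +
    (ev (Cc e.2) e' - ev (Cc e.1) e') = if e = e' then 1 else 0 := by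
  have : (incL.all fun e => incL.all fun e' => decide (((Hc e).map fun p => p.1 * B2 e' p.2).sum +
    (ev (Cc e.2) e' - ev (Cc e.1) e') = if e = e' then 1 else 0)) = true := by
    decide +kernel
  simpa only [List.all_eq_true, decide_eq_true_eq] using this

theorem chk3 : ∀ e ∈ incL, ∀ p ∈ Hc e, p.2 ∈ triL := by
  have : (incL.all fun e => (Hc e).all fun p => decide (p.2 ∈ triL)) = true := by decide +kernel
  simpa only [List.all_eq_true, decide_eq_true_eq] using this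

theorem chk4 : ∀ p ∈ triL, L.adj p.1 p.2.1 ∧ L.adj p.2.1 p.2.2 ∧ L.adj p.1 p.2.2 ∧
    rkL p.1 = 0 ∧ rkL p.2.1 = 1 ∧ rkL p.2.2 = 2 := by
  have : (triL.all fun p => decide ((p.1, p.2.1) ∈ incL) && decide ((p.2.1, p.2.2) ∈ incL) &&
    decide ((p.1, p.2.2) ∈ incL) && decide (rkL p.1 = 0 ∧ rkL p.2.1 = 1 ∧ rkL p.2.2 = 2)) = true := by
    decide +kernel
  simp only [List.all_eq_true, decide_eq_true_eq, Bool.and_eq_true] at this
  exact fun p hp => ⟨.inl (this p hp).1.1.1, .inl (this p hp).1.1.2, .inl (this p hp).1.2,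
    (this p hp).2⟩

theorem chk5 : ∀ p ∈ incL, rkL p.1 < rkL p.2 := by decide +kernel

theorem chk6 : ∀ p ∈ incL, ∀ c, (p.2, c) ∈ incL → (p.1, c) ∈ incL → (p.1, p.2, c) ∈ triL := by
  have : (incL.all fun p => (List.finRange 21).all fun c => !decide ((p.2, c) ∈ incL) ||
    !decide ((p.1, c) ∈ incL) || decide ((p.1, p.2, c) ∈ triL)) = true := by decide +kernel
  simp only [List.all_eq_true, Bool.or_eq_true, Bool.not_eq_true', decide_eq_true_eq,
    decide_eq_false_iff_not] at this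
  intro p hp c h1 h2
  rcases this p hp c (List.mem_finRange c) with (h | h) | h
  · exact absurd h1 h
  · exact absurd h2 h
  · exact h

theorem chk7 : ∀ a, a = 15 ∨ L.adj 15 a ∨ ∃ b, L.adj 15 b ∧ L.adj b a := by decide +kernel

theorem chk8 : ∀ v, ∃ t ∈ triL, v = t.1 ∨ v = t.2.1 ∨ v = t.2.2 := by decide +kernel

theorem chk9 : ∀ e ∈ incL, ∃ t ∈ triL, e = (t.1, t.2.1) ∨ e = (t.2.1, t.2.2) ∨ e = (t.1, t.2.2) := by
  decide +kernel

theorem chk10 : incL.Nodup ∧ incL.length = 80 := by decide +kernel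

theorem ed_mem (e : L.Ed) : e.1 ∈ incL := by
  obtain ⟨⟨a, b⟩, h | h, h2⟩ := e
  · exact h
  · exact absurd (chk5 _ h) (not_lt.2 h2.le)

theorem tri_mem (t : L.Tri) : t.1 ∈ triL := chk6 _ (ed_mem t.ab) _ (ed_mem t.bc) (ed_mem t.ac)

/-- chain of a list -/
noncomputable def ch {T : Type} (q : T → Prop) (l : List (ℤ × T)) : Subtype q →₀ ℤ :=
  Finsupp.subtypeDomain q (l.map fun p => Finsupp.single p.2 p.1).sum

theorem ch_apply {T : Type} [DecidableEq T] (q : T → Prop) (l : List (ℤ × T)) (t : Subtype q) :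
    ch q l t = ev l t.1 := by
  rw [ch, Finsupp.subtypeDomain_apply]
  induction l with
  | nil => simp [ev]
  | cons a l ih =>
    simp only [ev, List.map_cons, List.sum_cons, Finsupp.add_apply, Finsupp.single_apply] at ih ⊢
    rw [ih]

/-- chains of triangles / edges -/
noncomputable def chT (l : List (ℤ × Fin 21 × Fin 21 × Fin 21)) : L.Tri →₀ ℤ := ch _ l

noncomputable def chE (l : List (ℤ × Fin 21 × Fin 21)) : L.Ed →₀ ℤ := ch _ l

theorem sgl {T : Type} [DecidableEq T] {q : T → Prop} (a b : Subtype q) (n : ℤ) :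
    Finsupp.single a n b = if a.1 = b.1 then n else 0 := by
  simp [Finsupp.single_apply, Subtype.ext_iff]

theorem l2_single (t : L.Tri) (n : ℤ) (e : L.Ed) : L.l2 (Finsupp.single t n) e = n * B2 e.1 t.1 := by
  rw [Gr.l2, Finsupp.linearCombination_single, Finsupp.smul_apply, Finsupp.add_apply,
    Finsupp.sub_apply, smul_eq_mul]
  congr 1
  exact congrArg₂ (· + ·) (congrArg₂ (· - ·) (sgl _ _ _) (sgl _ _ _)) (sgl _ _ _)

theorem l2_chT (l : List (ℤ × Fin 21 × Fin 21 × Fin 21)) (hl : ∀ p ∈ l, p.2 ∈ triL) (e : L.Ed) :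
    L.l2 (chT l) e = (l.map fun p => p.1 * B2 e.1 p.2).sum := by
  induction l with
  | nil =>
    have : chT [] = 0 := Finsupp.ext fun t => ch_apply _ _ t
    simp [this]
  | cons a l ih =>
    let t₀ : L.Tri := ⟨a.2, chk4 _ (hl a (by simp))⟩
    have : chT (a :: l) = Finsupp.single t₀ a.1 + chT l :=
      Finsupp.ext fun t => by
        rw [Finsupp.add_apply]
        exact (ch_apply _ _ t).trans (congrArg₂ (· + ·) (sgl t₀ t a.1).symm
          (ch_apply _ _ t).symm)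
    rw [this, map_add, Finsupp.add_apply, l2_single, ih fun p hp => hl p (by simp [hp])]
    rfl

/-- the contraction -/
noncomputable def hh : (L.Ed →₀ ℤ) →ₗ[ℤ] (L.Tri →₀ ℤ) :=
  Finsupp.linearCombination ℤ fun e => chT (Hc e.1)

noncomputable def cc : (Fin 21 →₀ ℤ) →ₗ[ℤ] (L.Ed →₀ ℤ) :=
  Finsupp.linearCombination ℤ fun v => chE (Cc v)

theorem id1 : hh ∘ₗ L.l2 = LinearMap.id := by
  refine Finsupp.lhom_ext' fun t => LinearMap.ext_ring (Finsupp.ext fun t' => ?_)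
  have := chk1 _ (tri_mem t) _ (tri_mem t')
  simp only [LinearMap.comp_apply, Finsupp.lsingle_apply, Gr.l2, hh, LinearMap.id_apply,
    Finsupp.linearCombination_single, one_smul, map_add, map_sub, Finsupp.add_apply,
    Finsupp.sub_apply]
  exact ((congrArg₂ (· + ·) (congrArg₂ (· - ·) (ch_apply _ _ t') (ch_apply _ _ t'))
    (ch_apply _ _ t')).trans this).trans (sgl _ _ _).symm

theorem id2 : L.l2 ∘ₗ hh + cc ∘ₗ L.l1 = LinearMap.id := by
  refine Finsupp.lhom_ext' fun e => LinearMap.ext_ring (Finsupp.ext fun e' => ?_)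
  have := chk2 _ (ed_mem e) _ (ed_mem e')
  simp only [LinearMap.comp_apply, Finsupp.lsingle_apply, Gr.l1, hh, cc, LinearMap.id_apply,
    Finsupp.linearCombination_single, one_smul, map_sub, Finsupp.add_apply,
    Finsupp.sub_apply, LinearMap.add_apply]
  exact ((congrArg₂ (· + ·) (l2_chT _ (chk3 _ (ed_mem e)) e')
    (congrArg₂ (· - ·) (ch_apply _ _ e') (ch_apply _ _ e'))).trans this).trans (sgl _ _ _).symm

theorem lac : L.LAc where
  conn a b := by
    have h : ∀ a, Relation.ReflTransGen L.adj 15 a := fun a => by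
      rcases chk7 a with rfl | h | ⟨b, h1, h2⟩
      · rfl
      · exact .single h
      · exact (Relation.ReflTransGen.single h1).tail h2
    have h' : ∀ a, Relation.ReflTransGen L.adj a 15 := fun a => by
      rcases chk7 a with rfl | h | ⟨b, h1, h2⟩
      · rfl
      · exact .single (L.symm _ _ h)
      · exact (Relation.ReflTransGen.single (L.symm _ _ h2)).tail (L.symm _ _ h1)
    exact (h' a).trans (h b)
  ex y hy := ⟨hh y, by simpa [hy] using DFunLike.congr_fun id2 y⟩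
  inj c hc := by simpa [hc] using (DFunLike.congr_fun id1 c).symm

theorem pure : L.Pure where
  vtx v := by
    obtain ⟨t, ht, h⟩ := chk8 v
    exact ⟨⟨t, chk4 t ht⟩, h⟩
  edg e := by
    obtain ⟨t, ht, h⟩ := chk9 _ (ed_mem e)
    exact ⟨⟨t, chk4 t ht⟩, h.imp Subtype.ext (Or.imp Subtype.ext Subtype.ext)⟩

theorem card : 41 ≤ Nat.card L.Ed := by
  have := Nat.card_le_card_of_injective (fun i : Fin incL.length =>
    (⟨incL.get i, Or.inl (List.get_mem _ _), chk5 _ (List.get_mem _ _)⟩ : L.Ed))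
    fun i j e => (List.nodup_iff_injective_get.1 chk10.1) (congrArg Subtype.val e)
  rw [Nat.card_eq_fintype_card, Fintype.card_fin, chk10.2] at this
  exact le_trans (by norm_num) this

open Real in
/-- the representation -/
noncomputable def xq : Fin 6 → ℍ[ℝ] :=
  ![⟨goldenRatio / 2, (goldenRatio - 1) / 2, 0, 1 / 2⟩, ⟨goldenRatio / 2, 1 / 2, (goldenRatio - 1) / 2, 0⟩,
    ⟨goldenRatio / 2, 1 / 2, (1 - goldenRatio) / 2, 0⟩, ⟨goldenRatio / 2, 0, 1 / 2, (1 - goldenRatio) / 2⟩,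
    ⟨goldenRatio / 2, (goldenRatio - 1) / 2, 0, -1 / 2⟩,
    ⟨goldenRatio / 2, 0, -1 / 2, (1 - goldenRatio) / 2⟩]

theorem xq_normSq (i : Fin 6) : normSq (xq i) = 1 := by
  have h := Real.goldenRatio_sq
  rw [Quaternion.normSq_def']
  fin_cases i <;> simp [xq] <;> nlinarith

theorem xq_mem (i : Fin 6) : xq i ∈ Metric.sphere (0 : ℍ[ℝ]) 1 := by
  have := xq_normSq i
  rw [Quaternion.normSq_eq_norm_mul_self] at this
  rw [mem_sphere_zero_iff_norm]
  nlinarith [norm_nonneg (xq i)]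

theorem xq_inv (i : Fin 6) : (xq i)⁻¹ = star (xq i) := by
  rw [Quaternion.inv_def, xq_normSq]; simp

theorem rep3 : Rep3 rel := by
  refine ⟨fun i => ⟨relL i, by fin_cases i <;> simp [relL], rfl⟩, fun i => ⟨xq i, xq_mem i⟩,
    fun i => Subtype.ext ?_, fun e => ?_, 0, fun h => ?_⟩
  · have h := Real.goldenRatio_sq
    have h3 : Real.goldenRatio ^ 3 = 2 * Real.goldenRatio + 1 := by
      rw [pow_succ, h]; nlinarith
    rw [rel, FreeGroup.lift_mk]
    fin_cases i <;>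
      simp only [relL, List.map_cons, List.map_nil, List.prod_cons, List.prod_nil, cond_true,
        cond_false, Matrix.cons_val, Fin.reduceFinMk, Metric.unitSphere.coe_mul,
        Metric.unitSphere.coe_inv, Metric.unitSphere.coe_one, mul_one, xq_inv, Fin.isValue] <;>
      ext <;>
      simp only [Quaternion.re_mul, Quaternion.imI_mul, Quaternion.imJ_mul, Quaternion.imK_mul,
        Quaternion.re_star, Quaternion.imI_star, Quaternion.imJ_star, Quaternion.imK_star] <;>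
      simp [xq] <;> nlinarith
  · have : 1.6 < Real.goldenRatio := by
      have h := Real.goldenRatio_sq
      have := Real.goldenRatio_pos
      nlinarith
    fin_cases e <;> simp [xq] <;> linarith
  · have := congrArg (fun q : S3 => (q : ℍ[ℝ]).imK) h
    simp [xq] at this

end LLx

theorem jobL : JobL := ⟨LLx.pure, LLx.lac, LLx.rep3, LLx.card⟩

end Crest.Agent.EG
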