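import Crest.Agent.EG.DefsT

/-! Row 197 (S0300), job LAB: labelling the fibres of a universal cover. -/

set_option autoImplicit false

open Set Topology Filter unitInterval

namespace Crest.Agent.EG

namespace LABx

variable {E X : Type} [TopologicalSpace E] [TopologicalSpace X] {p : E → X}

theorem mono_of_lift (cov : IsCoveringMap p) {x y : X} (γ : Path x y) (e : p ⁻¹' {x})
    (Γ : C(I, E)) (h : ∀ a, p (Γ a) = γ a) (h0 : Γ 0 = e) :
    (cov.monodromy (Path.Homotopic.Quotient.mk γ) e : E) = Γ 1 := by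
  have : Γ = cov.liftPath γ e (γ.source.trans e.2.symm) :=
    (cov.eq_liftPath_iff' _).2 ⟨funext h, h0⟩
  rw [this]
  rfl

theorem mono_inj [SimplyConnectedSpace E] (cov : IsCoveringMap p) {x y : X}
    (γ γ' : Path.Homotopic.Quotient x y) (e : p ⁻¹' {x})
    (h : cov.monodromy γ e = cov.monodromy γ' e) : γ = γ' := by
  have key : ∀ (e₁ e₂ : p ⁻¹' {y}) (_ : e₁ = e₂) (q₁ : Path.Homotopic.Quotient e.1 e₁.1)
      (q₂ : Path.Homotopic.Quotient e.1 e₂.1),
      q₁.map ⟨p, cov.continuous⟩ = γ.cast e.2 e₁.2 → q₂.map ⟨p, cov.continuous⟩ = γ'.cast e.2 e₂.2 →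
      γ = γ' := by
    rintro e₁ _ rfl q₁ q₂ h1 h2
    rw [Subsingleton.elim q₁ q₂, h2] at h1
    exact eq_of_heq ((Path.Homotopic.Quotient.cast_heq _ _).symm.trans
      ((heq_of_eq h1.symm).trans (Path.Homotopic.Quotient.cast_heq _ _)))
  exact key _ _ h _ _ (cov.map_liftPathQuotient γ e) (cov.map_liftPathQuotient γ' e)

theorem mono_symm (cov : IsCoveringMap p) {x y : X} (γ : Path.Homotopic.Quotient x y)
    (e : p ⁻¹' {y}) : cov.monodromy γ (cov.monodromy γ.symm e) = e := by
  rw [← cov.monodromy_trans_apply, Path.Homotopic.Quotient.symm_trans, cov.monodromy_refl]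
  rfl

end LABx

open LABx in
theorem jobLAB : JobLAB := by
  rintro G E X _ _ _ _ p cov hsurj x ⟨φ⟩
  obtain ⟨e₀, rfl⟩ := hsurj x
  have : PathConnectedSpace X := hsurj.pathConnectedSpace cov.continuous
  let c : ∀ y, Path.Homotopic.Quotient (p e₀) y := fun y =>
    Path.Homotopic.Quotient.mk (PathConnectedSpace.somePath (p e₀) y)
  let q : G → Path.Homotopic.Quotient (p e₀) (p e₀) := fun g => (φ.symm g⁻¹).toPath
  have hq : ∀ (g : G) (b : Path.Homotopic.Quotient (p e₀) (p e₀)),
      q (g * (φ (FundamentalGroup.fromPath b))⁻¹) = (q g).trans b := by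
    intro g b
    simp only [q, mul_inv_rev, inv_inv, map_mul, MulEquiv.symm_apply_apply]
    rfl
  have hq1 : q 1 = .refl _ := by
    simp only [q, inv_one, map_one]
    rfl
  refine ⟨fun g y => (cov.monodromy (c y) (cov.monodromy (q g) ⟨e₀, rfl⟩) : E),
    fun g y => (cov.monodromy (c y) _).2, fun g g' y h => ?_, fun y => ?_, fun ω => ?_⟩
  · have h1 := mono_inj cov _ _ _ ((cov.monodromy_bijective (c y)).1 (Subtype.ext h))
    exact inv_injective (φ.symm.injective h1)
  · let Γ := Path.Homotopic.Quotient.mk (PathConnectedSpace.somePath e₀ y)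
    refine ⟨1 * (φ (FundamentalGroup.fromPath
      ((Γ.map ⟨p, cov.continuous⟩).trans (c (p y)).symm)))⁻¹, ?_⟩
    rw [hq, hq1, Path.Homotopic.Quotient.refl_trans, cov.monodromy_trans_apply, mono_symm]
    exact congrArg Subtype.val (cov.monodromy_map Γ)
  · let γ : Path (ω 0) (ω 1) := ⟨ω, rfl, rfl⟩
    refine ⟨(φ (FundamentalGroup.fromPath
      (((c (ω 0)).trans (.mk γ)).trans (c (ω 1)).symm)))⁻¹, fun g ω' h h0 => ?_⟩
    rw [hq, cov.monodromy_trans_apply, cov.monodromy_trans_apply, mono_symm,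
      cov.monodromy_trans_apply]
    exact (mono_of_lift cov γ _ ω' h h0).symm

end Crest.Agent.EG
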