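import Crest.Agent.EG.DefsR

/-! Row 197 (S0300), job LEN: word length in a right-angled Artin group via pilings. -/

set_option autoImplicit false

namespace Crest.Agent.EG

namespace LenX

open Classical

variable {V : Type} (Γ : Gr V)

/-- pilings -/
abbrev Pl (V : Type) : Type := V → List (Option Bool)

/-- add a bead -/
noncomputable def push (t : V × Bool) (P : Pl V) : Pl V := fun b =>
  if b = t.1 then some t.2 :: P b else if Γ.adj t.1 b then P b else none :: P b

/-- remove a bead -/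
noncomputable def pop (a : V) (P : Pl V) : Pl V := fun b =>
  if b = a then (P b).tail else if Γ.adj a b then P b else (P b).tail

theorem adj_ne {x y : V} (h : Γ.adj x y) : x ≠ y := fun e => Γ.ne x y h (by rw [e])

theorem pop_push (t : V × Bool) (P : Pl V) : pop Γ t.1 (push Γ t P) = P := by
  funext b
  simp only [pop, push]
  split_ifs <;> simp

theorem push_self (t : V × Bool) (P : Pl V) : push Γ t P t.1 = some t.2 :: P t.1 := by
  simp [push]

theorem push_adj (t : V × Bool) (P : Pl V) {b : V} (h : Γ.adj t.1 b) : push Γ t P b = P b := by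
  simp [push, h, (adj_ne Γ h).symm]

theorem pop_adj (a : V) (P : Pl V) {b : V} (h : Γ.adj a b) : pop Γ a P b = P b := by
  simp [pop, h, (adj_ne Γ h).symm]

theorem push_nadj (t : V × Bool) (P : Pl V) {b : V} (h1 : b ≠ t.1) (h : ¬ Γ.adj t.1 b) :
    push Γ t P b = none :: P b := by
  simp [push, h, h1]

theorem push_comm {s t : V × Bool} (h : Γ.adj s.1 t.1) (P : Pl V) :
    push Γ s (push Γ t P) = push Γ t (push Γ s P) := by
  funext b
  by_cases h1 : b = s.1
  · rw [h1, push_self, push_adj Γ t _ (Γ.symm _ _ h), push_adj Γ t _ (Γ.symm _ _ h), push_self]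
  by_cases h2 : b = t.1
  · rw [h2, push_self, push_adj Γ s _ h, push_adj Γ s _ h, push_self]
  simp only [push, h1, h2, if_false]
  split_ifs <;> rfl

theorem pop_comm {a b : V} (h : Γ.adj a b) (P : Pl V) :
    pop Γ a (pop Γ b P) = pop Γ b (pop Γ a P) := by
  funext c
  simp only [pop]
  split_ifs <;> rfl

theorem lt_comm {s t : V × Bool} (h : Γ.adj s.1 t.1) : Commute (Γ.lt s) (Γ.lt t) := by
  have := Γ.gen_comm h
  unfold Gr.lt
  split_ifs
  exacts [this, this.inv_right, this.inv_left, this.inv_inv]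

theorem lt_not (a : V) (ε : Bool) : Γ.lt (a, !ε) = (Γ.lt (a, ε))⁻¹ := by
  cases ε <;> simp [Gr.lt]

/-- reduced pilings and the elements they represent -/
inductive R : Pl V → Γ.A → Prop
  | nil : R (fun _ => []) 1
  | step {P : Pl V} {g : Γ.A} (t : V × Bool) : R P g → (P t.1).head? ≠ some (some !t.2) →
      R (push Γ t P) (g * Γ.lt t)

theorem key {P : Pl V} {g : Γ.A} (h : R Γ P g) (s : V × Bool)
    (hs : (P s.1).head? = some (some s.2)) :
    ∃ Q, P = push Γ s Q ∧ R Γ Q (g * (Γ.lt s)⁻¹) ∧ (Q s.1).head? ≠ some (some !s.2) := by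
  induction h with
  | nil => simp at hs
  | @step P g t hP ht ih =>
    by_cases h1 : s.1 = t.1
    · rw [h1, push_self] at hs
      have : s = t := Prod.ext h1 (by simpa [eq_comm] using hs)
      subst this
      exact ⟨P, rfl, by simpa using hP, ht⟩
    by_cases h2 : Γ.adj t.1 s.1
    · rw [push_adj Γ t P h2] at hs
      obtain ⟨Q, rfl, hQ, hQ'⟩ := ih hs
      rw [push_adj Γ s Q (Γ.symm _ _ h2)] at ht
      refine ⟨push Γ t Q, push_comm Γ h2 Q, ?_, by rwa [push_adj Γ t Q h2]⟩
      have := R.step t hQ ht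
      rwa [mul_assoc, ← (lt_comm Γ h2).inv_right.eq, ← mul_assoc] at this
    · rw [push_nadj Γ t P h1 h2] at hs
      simp at hs

/-- the move -/
noncomputable def T (t : V × Bool) (P : Pl V) : Pl V :=
  if (P t.1).head? = some (some !t.2) then pop Γ t.1 P else push Γ t P

theorem T_push {t : V × Bool} {P : Pl V} (h : (P t.1).head? ≠ some (some !t.2)) :
    T Γ t P = push Γ t P := if_neg h

theorem T_pop (a : V) (ε : Bool) (P : Pl V) : T Γ (a, ε) (push Γ (a, !ε) P) = P := by
  rw [T, if_pos (by rw [push_self Γ (a, !ε)]; rfl)]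
  exact pop_push Γ (a, !ε) P

theorem cases_T {P : Pl V} {g : Γ.A} (h : R Γ P g) (t : V × Bool) :
    ((P t.1).head? ≠ some (some !t.2) ∧ T Γ t P = push Γ t P) ∨
      ((P t.1).head? = some (some !t.2) ∧ P = push Γ (t.1, !t.2) (T Γ t P) ∧
        R Γ (T Γ t P) (g * Γ.lt t) ∧ (T Γ t P t.1).head? ≠ some (some t.2)) := by
  by_cases hs : (P t.1).head? = some (some !t.2)
  · obtain ⟨Q, rfl, h1, h2⟩ := key Γ h (t.1, !t.2) hs
    have e := T_pop Γ t.1 t.2 Q
    rw [lt_not, inv_inv] at h1
    right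
    rw [e]
    exact ⟨hs, rfl, h1, by simpa using h2⟩
  · exact .inl ⟨hs, T_push Γ hs⟩

theorem R_T {P : Pl V} {g : Γ.A} (h : R Γ P g) (t : V × Bool) : R Γ (T Γ t P) (g * Γ.lt t) := by
  rcases cases_T Γ h t with ⟨h1, h2⟩ | ⟨-, -, h3, -⟩
  · rw [h2]; exact R.step t h h1
  · exact h3

theorem T_T {P : Pl V} {g : Γ.A} (h : R Γ P g) (a : V) (ε : Bool) :
    T Γ (a, !ε) (T Γ (a, ε) P) = P := by
  rcases cases_T Γ h (a, ε) with ⟨-, h2⟩ | ⟨-, h2, -, h4⟩
  · rw [h2]
    simpa using T_pop Γ a (!ε) P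
  · rw [T_push Γ (by simpa using h4)]
    exact h2.symm

theorem T_adj (t : V × Bool) (P : Pl V) {b : V} (h : Γ.adj t.1 b) : T Γ t P b = P b := by
  unfold T
  split_ifs
  exacts [pop_adj Γ _ P h, push_adj Γ _ P h]

theorem T_comm' {P : Pl V} {g : Γ.A} (h : R Γ P g) {s t : V × Bool} (hst : Γ.adj s.1 t.1)
    (hs : (P s.1).head? ≠ some (some !s.2)) : T Γ s (T Γ t P) = T Γ t (T Γ s P) := by
  rw [T_push Γ hs, T_push Γ (by rwa [T_adj Γ t P (Γ.symm _ _ hst)])]
  rcases cases_T Γ h t with ⟨h1, h2⟩ | ⟨-, h2, -, -⟩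
  · rw [h2, T_push Γ (by rwa [push_adj Γ s P hst]), push_comm Γ hst]
  · generalize T Γ t P = Q at h2
    rw [h2, push_comm Γ (t := (t.1, !t.2)) hst]
    exact (T_pop Γ t.1 t.2 _).symm

theorem T_comm {P : Pl V} {g : Γ.A} (h : R Γ P g) {s t : V × Bool} (hst : Γ.adj s.1 t.1) :
    T Γ s (T Γ t P) = T Γ t (T Γ s P) := by
  by_cases hs : (P s.1).head? = some (some !s.2)
  · by_cases ht : (P t.1).head? = some (some !t.2)
    · have e1 : T Γ t P = pop Γ t.1 P := if_pos ht
      have e2 : T Γ s P = pop Γ s.1 P := if_pos hs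
      rw [e1, e2, T, T, if_pos (by rwa [pop_adj Γ _ P (Γ.symm _ _ hst)]),
        if_pos (by rwa [pop_adj Γ _ P hst]), pop_comm Γ hst]
    · exact (T_comm' Γ h (Γ.symm _ _ hst) ht).symm
  · exact T_comm' Γ h hst hs

/-- states -/
def St : Type := {P : Pl V // ∃ g, R Γ P g}

/-- the move on states -/
noncomputable def Ts (t : V × Bool) (P : St Γ) : St Γ :=
  ⟨T Γ t P.1, by obtain ⟨g, h⟩ := P.2; exact ⟨_, R_T Γ h t⟩⟩

/-- generators as permutations -/
noncomputable def σ (a : V) : Equiv.Perm (St Γ) where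
  toFun := Ts Γ (a, true)
  invFun := Ts Γ (a, false)
  left_inv P := by obtain ⟨g, h⟩ := P.2; exact Subtype.ext (T_T Γ h a true)
  right_inv P := by obtain ⟨g, h⟩ := P.2; exact Subtype.ext (T_T Γ h a false)

/-- the action -/
noncomputable def φ : Γ.A →* Equiv.Perm (St Γ) :=
  Γ.lift (fun a => (σ Γ a)⁻¹) fun a b h => Commute.inv_inv (by
    refine Equiv.ext fun P => ?_
    obtain ⟨g, hg⟩ := P.2
    exact Subtype.ext (T_comm Γ hg (s := (a, true)) (t := (b, true)) h))

theorem φ_lt (t : V × Bool) (P : St Γ) : (φ Γ (Γ.lt t))⁻¹ P = Ts Γ t P := by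
  obtain ⟨a, ε⟩ := t
  cases ε
  · simp only [Gr.lt, Bool.false_eq_true, if_false, map_inv, inv_inv, φ, Gr.lift_gen]
    rfl
  · simp only [Gr.lt, if_true, inv_inv, φ, Gr.lift_gen]
    rfl

/-- the piling of an element -/
noncomputable def pl (g : Γ.A) : Pl V := ((φ Γ g)⁻¹ ⟨_, _, R.nil⟩).1

theorem pl_mul (g : Γ.A) (t : V × Bool) : pl Γ (g * Γ.lt t) = T Γ t (pl Γ g) := by
  simp only [pl, map_mul, mul_inv_rev, Equiv.Perm.mul_apply, φ_lt]
  rfl

theorem R_pl (g : Γ.A) : R Γ (pl Γ g) g := by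
  have key : ∀ x : FreeGroup V, ∀ h, R Γ (pl Γ h) h →
      R Γ (pl Γ (h * PresentedGroup.mk Γ.rels x)) (h * PresentedGroup.mk Γ.rels x) := by
    intro x
    induction x using FreeGroup.induction_on with
    | C1 => intro h hh; simpa using hh
    | of a =>
      intro h hh
      have := R_T Γ hh (a, true)
      rwa [← pl_mul] at this
    | inv_of a _ =>
      intro h hh
      have := R_T Γ hh (a, false)
      rwa [← pl_mul] at this
    | mul x y hx hy =>
      intro h hh
      rw [map_mul, ← mul_assoc]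
      exact hy _ (hx h hh)
  obtain ⟨x, rfl⟩ := PresentedGroup.mk_surjective Γ.rels g
  have h1 : R Γ (pl Γ 1) 1 := by
    simp only [pl, map_one, inv_one, Equiv.Perm.one_apply]
    exact R.nil
  simpa using key x 1 h1

variable [Fintype V]

/-- number of beads -/
def cnt (P : Pl V) : ℕ := ∑ v, (P v).countP Option.isSome

theorem cnt_push (t : V × Bool) (P : Pl V) : cnt (push Γ t P) = cnt P + 1 := by
  have : ∀ v, (push Γ t P v).countP Option.isSome =
      (P v).countP Option.isSome + if v = t.1 then 1 else 0 := by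
    intro v
    unfold push
    split_ifs <;> simp
  simp [cnt, this, Finset.sum_add_distrib]

theorem len : Γ.Len fun g => cnt (pl Γ g) where
  one := by simp [pl, cnt]
  eq_one g hg := by
    have := R_pl Γ g
    generalize pl Γ g = P at this hg
    cases this with
    | nil => rfl
    | step t _ _ => simp [cnt_push] at hg
  step g t := by
    rw [pl_mul]
    rcases cases_T Γ (R_pl Γ g) t with ⟨-, h2⟩ | ⟨-, h2, -, -⟩
    · left; rw [h2, cnt_push]
    · right; rw [← cnt_push Γ (t.1, !t.2), ← h2]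
  desc g hg := by
    have := R_pl Γ g
    simp only [pl_mul]
    generalize pl Γ g = P at this
    cases this with
    | nil => exact absurd rfl hg
    | @step Q _ t _ _ =>
      refine ⟨(t.1, !t.2), ?_⟩
      have := T_pop Γ t.1 (!t.2) Q
      rw [Bool.not_not] at this
      rw [this, cnt_push]
      omega
  two g s t hst hs ht := by
    simp only [pl_mul] at hs ht ⊢
    rcases cases_T Γ (R_pl Γ g) s with ⟨-, h2⟩ | ⟨h1, h2, h3, -⟩
    · rw [h2, cnt_push] at hs; omega
    rcases cases_T Γ (R_pl Γ g) t with ⟨-, k2⟩ | ⟨k1, -, -, -⟩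
    · rw [k2, cnt_push] at ht; omega
    have hne : t.1 ≠ s.1 := by
      intro e
      rw [e, h1] at k1
      exact hst (Prod.ext e.symm (by simpa using k1))
    have hadj : Γ.adj s.1 t.1 := by
      by_contra hn
      rw [h2, push_nadj Γ (s.1, !s.2) _ hne hn] at k1
      simp at k1
    refine ⟨hadj, ?_⟩
    rcases cases_T Γ h3 t with ⟨m1, -⟩ | ⟨-, m2, -, -⟩
    · rw [T_adj Γ s _ hadj] at m1
      exact absurd k1 m1
    · have a1 := congrArg cnt h2
      have a2 := congrArg cnt m2
      rw [cnt_push] at a1 a2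
      omega

end LenX

theorem jobLEN : JobLEN := by
  intro V _ Γ
  have := Fintype.ofFinite V
  exact ⟨_, LenX.len Γ⟩

end Crest.Agent.EG
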