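import Crest.Agent.EG.DefsT

/-! Row 197 (S0300), job LIFT: the lift of a 2-complex to a labelled covering. -/

set_option autoImplicit false

open Set Topology Filter unitInterval

namespace Crest.Agent.EG

namespace LiftX

section Fam
variable {G E X : Type} [Group G] [TopologicalSpace E] [TopologicalSpace X] {p : E → X}
  {lb : G → X → E}

/-- a family of lifts that is labelled at one point is labelled at every point -/
theorem fam_mono (L : Lab p lb) {A : Type} [TopologicalSpace A] [PathConnectedSpace A]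
    (F : C(A, X)) (Fl : G → C(A, E)) (hp : ∀ g a, p (Fl g a) = F a) (a₀ : A) (c : G)
    (h0 : ∀ g, Fl g a₀ = lb (g * c) (F a₀)) (a : A) :
    ∃ d : G, ∀ g, Fl g a = lb (g * d) (F a) := by
  let γ : Path a₀ a := PathConnectedSpace.somePath a₀ a
  obtain ⟨d, hd⟩ := L.mono (F.comp γ.toContinuousMap)
  refine ⟨c * d, fun g => ?_⟩
  have := hd (g * c) ((Fl g).comp γ.toContinuousMap) (fun a => by simp [hp]) (by simp [h0])
  simpa [mul_assoc] using this

theorem lab_inj (L : Lab p lb) {x : X} {φ : G → E} (h : ∃ d : G, ∀ g, φ g = lb (g * d) x) :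
    Function.Injective φ := by
  obtain ⟨d, hd⟩ := h
  intro g g' hg
  rw [hd, hd] at hg
  exact mul_right_cancel (L.inj _ _ _ hg)

theorem lab_surj (L : Lab p lb) {x : X} {φ : G → E} (h : ∃ d : G, ∀ g, φ g = lb (g * d) x)
    (y : E) (hy : p y = x) : ∃ g, y = φ g := by
  obtain ⟨d, hd⟩ := h
  obtain ⟨g, hg⟩ := L.surj y
  refine ⟨g * d⁻¹, ?_⟩
  rw [hd, inv_mul_cancel_right, ← hy, hg]

theorem t2 [T2Space X] (cov : IsCoveringMap p) : T2Space E := by
  refine ⟨fun x y hxy => ?_⟩
  by_cases h : p x = p y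
  · exact cov.isSeparatedMap x y h hxy
  · exact separated_by_continuous cov.continuous h

end Fam

theorem circ_zero : circ 0 = 1 := by simp [circ]

theorem circ_one : circ 1 = 1 := by
  simp [circ]

theorem circ_surj (z : ℂ) (hz : ‖z‖ = 1) : ∃ θ : I, circ θ = z := by
  have hpi := Real.pi_pos
  have h1 : Complex.exp (Complex.arg z * Complex.I) = z := by
    have := Complex.norm_mul_exp_arg_mul_I z
    simpa [hz] using this
  by_cases ha : 0 ≤ Complex.arg z
  · refine ⟨⟨Complex.arg z / (2 * Real.pi), by positivity, ?_⟩, ?_⟩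
    · rw [div_le_one (by positivity)]
      linarith [Complex.arg_le_pi z]
    · refine Eq.trans ?_ h1
      simp only [circ, ContinuousMap.coe_mk]
      congr 2
      have : (Real.pi : ℂ) ≠ 0 := by exact_mod_cast hpi.ne'
      push_cast
      field_simp
  · push Not at ha
    refine ⟨⟨(Complex.arg z + 2 * Real.pi) / (2 * Real.pi), ?_, ?_⟩, ?_⟩
    · apply div_nonneg _ (by positivity)
      linarith [Complex.neg_pi_lt_arg z]
    · rw [div_le_one (by positivity)]
      linarith
    · refine Eq.trans ?_ h1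
      simp only [circ, ContinuousMap.coe_mk]
      have : (Real.pi : ℂ) ≠ 0 := by exact_mod_cast hpi.ne'
      have h2 : (2 * (Real.pi : ℂ) * (((Complex.arg z + 2 * Real.pi) / (2 * Real.pi) : ℝ) : ℂ) *
          Complex.I) = Complex.arg z * Complex.I + 2 * Real.pi * Complex.I := by
        push_cast
        field_simp
      rw [h2, Complex.exp_add, Complex.exp_two_pi_mul_I, mul_one]

section Base
variable {X V S R : Type} [TopologicalSpace X] (K : CW2 X V S R)

theorem sk1_nf {y : X} (hy : y ∈ K.sk1) :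
    (∃ v, y = K.vt v) ∨ ∃ e x, x ≠ 0 ∧ x ≠ 1 ∧ y = K.ed e x := by
  rcases hy with h | ⟨e, x, rfl⟩
  · exact .inl h
  by_cases h0 : x = 0
  · exact .inl ⟨_, by rw [h0, K.ed0]⟩
  by_cases h1 : x = 1
  · exact .inl ⟨_, by rw [h1, K.ed1]⟩
  exact .inr ⟨e, x, h0, h1, rfl⟩

theorem att_apply (f : R) (θ : I) : K.att f θ = K.fc f (circ θ) := rfl

theorem att_sk1 (f : R) (θ : I) : K.att f θ ∈ K.sk1 := by
  obtain ⟨A, B, h⟩ := K.fin f
  rcases h (circ θ) (norm_circ θ) with ⟨v, -, hv⟩ | ⟨e, -, x, hx⟩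
  · exact .inl ⟨v, hv⟩
  · exact .inr ⟨e, x, hx⟩

theorem half_ne {x : I} (hx : (x : ℝ) = 1 / 2) : x ≠ 0 ∧ x ≠ 1 := by
  constructor
  · rintro rfl
    norm_num at hx
  · rintro rfl
    norm_num at hx

theorem fin_range (h : R → I → FreeGroup S) (hW : K.Wd h) (f : R) : (range (h f)).Finite := by
  classical
  obtain ⟨A, B, hAB⟩ := K.fin f
  have hg : ∀ θ, K.gU (K.att f θ) ∈ insert (1 : FreeGroup S) (B.image FreeGroup.of) := by
    intro θ
    rw [att_apply]
    rcases hAB (circ θ) (norm_circ θ) with ⟨v, -, hv⟩ | ⟨e, he, x, hx⟩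
    · rw [hv, K.gU_vt]; simp
    · rw [hx]
      by_cases h0 : x = 0
      · rw [h0, K.ed0, K.gU_vt]; simp
      by_cases h1 : x = 1
      · rw [h1, K.ed1, K.gU_vt]; simp
      rw [K.gU_ed e x h0 h1]
      split_ifs
      · exact Finset.mem_insert_of_mem (Finset.mem_image_of_mem _ he)
      · simp
  have key : (h f '' univ).Finite := by
    refine IsCompact.induction_on (p := fun s => (h f '' s).Finite) isCompact_univ (by simp)
      (fun s t hst ht => ht.subset (image_mono hst))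
      (fun s t hs ht => by rw [image_union]; exact hs.union ht) ?_
    intro θ₀ _
    rw [nhdsWithin_univ]
    by_cases hv : ∀ v, K.att f θ₀ ≠ K.vt v
    · refine ⟨_, ((hW f).2 θ₀).2 hv, ?_⟩
      refine (finite_singleton (h f θ₀)).subset ?_
      rintro _ ⟨θ, hθ, rfl⟩
      exact hθ
    · push Not at hv
      obtain ⟨v, hv⟩ := hv
      have hm : ∀ e (x : I), (x : ℝ) = 1 / 2 → K.att f θ₀ ≠ K.ed e x := by
        intro e x hx he
        have h1 := K.nf_ed e x (half_ne hx).1 (half_ne hx).2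
        rw [← he, hv, K.nf_vt] at h1
        cases h1
      refine ⟨_, ((hW f).2 θ₀).1 hm, ?_⟩
      refine ((insert (1 : FreeGroup S) (B.image FreeGroup.of)).finite_toSet.image
        (fun u => h f θ₀ * K.gU (K.att f θ₀) * u⁻¹)).subset ?_
      rintro _ ⟨θ, hθ, rfl⟩
      refine ⟨_, hg θ, ?_⟩
      have hθ' : h f θ * K.gU (K.att f θ) = h f θ₀ * K.gU (K.att f θ₀) := hθ
      simp only [← hθ', mul_inv_cancel_right]
  simpa using key

end Base

section Main
variable {G E X V S R : Type} [Group G] [TopologicalSpace E] [TopologicalSpace X]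
  (K : CW2 X V S R) {p : E → X} {lb : G → X → E} (cov : IsCoveringMap p) (L : Lab p lb)

/-- lifted edges -/
noncomputable def edl (g : G) (e : S) : C(I, E) :=
  cov.liftPath (K.ed e) (lb g (K.ed e 0)) (L.proj _ _).symm

theorem edl_p (g : G) (e : S) (x : I) : p (edl K cov L g e x) = K.ed e x :=
  congrFun (cov.liftPath_lifts (K.ed e) (lb g (K.ed e 0)) (L.proj _ _).symm) x

theorem edl_0 (g : G) (e : S) : edl K cov L g e 0 = lb g (K.ed e 0) :=
  cov.liftPath_zero (K.ed e) (lb g (K.ed e 0)) (L.proj _ _).symm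

theorem edl_lab (e : S) (x : I) : ∃ d : G, ∀ g, edl K cov L g e x = lb (g * d) (K.ed e x) :=
  haveI : PathConnectedSpace I := isPathConnected_iff_pathConnectedSpace.1
    ((convex_Icc (0 : ℝ) 1).isPathConnected ⟨0, by simp⟩)
  fam_mono L (K.ed e) (fun g => edl K cov L g e) (fun g => edl_p K cov L g e) 0 1
    (fun g => by rw [edl_0, mul_one]) x

/-- the label of an edge -/
noncomputable def dd (e : S) : G := (edl_lab K cov L e 1).choose

theorem edl_1 (g : G) (e : S) :
    edl K cov L g e 1 = lb (g * dd K cov L e) (K.vt (K.t e)) := by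
  rw [← K.ed1]
  exact (edl_lab K cov L e 1).choose_spec g

/-- the point over `y` with label `g` -/
noncomputable def Zf (g : G) (y : X) : E :=
  match K.nf y with
  | .inr (.inl (e, x)) => edl K cov L g e x
  | _ => lb g y

theorem Zf_vt (g : G) (v : V) : Zf K cov L g (K.vt v) = lb g (K.vt v) := by
  simp only [Zf, K.nf_vt]

theorem Zf_ed (g : G) (e : S) (x : I) (h0 : x ≠ 0) (h1 : x ≠ 1) :
    Zf K cov L g (K.ed e x) = edl K cov L g e x := by
  simp only [Zf, K.nf_ed e x h0 h1]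

theorem Zf_lab {y : X} (hy : y ∈ K.sk1) : ∃ d : G, ∀ g, Zf K cov L g y = lb (g * d) y := by
  rcases sk1_nf K hy with ⟨v, rfl⟩ | ⟨e, x, h0, h1, rfl⟩
  · exact ⟨1, fun g => by rw [Zf_vt, mul_one]⟩
  · obtain ⟨d, hd⟩ := edl_lab K cov L e x
    exact ⟨d, fun g => by rw [Zf_ed K cov L g e x h0 h1, hd]⟩

theorem Zf_p {y : X} (hy : y ∈ K.sk1) (g : G) : p (Zf K cov L g y) = y := by
  obtain ⟨d, hd⟩ := Zf_lab K cov L hy
  rw [hd, L.proj]

theorem fc1_sk1 (f : R) : K.fc f 1 ∈ K.sk1 := by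
  have := att_sk1 K f 0
  rwa [att_apply, circ_zero] at this

theorem fcl_ex (g : G) (f : R) :
    ∃ F : C(ℂ, E), F 1 = Zf K cov L g (K.fc f 1) ∧ p ∘ F = K.fc f :=
  (cov.existsUnique_continuousMap_lifts (K.fc f) 1 _ (Zf_p K cov L (fc1_sk1 K f) g)).exists

/-- lifted faces -/
noncomputable def fcl (g : G) (f : R) : C(ℂ, E) := (fcl_ex K cov L g f).choose

theorem fcl_1 (g : G) (f : R) : fcl K cov L g f 1 = Zf K cov L g (K.fc f 1) :=
  (fcl_ex K cov L g f).choose_spec.1

theorem fcl_p (g : G) (f : R) (z : ℂ) : p (fcl K cov L g f z) = K.fc f z :=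
  congrFun (fcl_ex K cov L g f).choose_spec.2 z

theorem fcl_lab (f : R) (z : ℂ) : ∃ d : G, ∀ g, fcl K cov L g f z = lb (g * d) (K.fc f z) := by
  obtain ⟨c, hc⟩ := Zf_lab K cov L (fc1_sk1 K f)
  exact fam_mono L (K.fc f) (fun g => fcl K cov L g f) (fun g => fcl_p K cov L g f) 1 c
    (fun g => by rw [fcl_1, hc]) z

omit [TopologicalSpace E] [TopologicalSpace X] in
theorem vt_lab (x : X) : ∃ d : G, ∀ g, lb g x = lb (g * d) x := ⟨1, fun g => by rw [mul_one]⟩

theorem fcl_circ [T2Space X] (hS : JobSEC) (h : R → I → FreeGroup S) (hW : K.Wd h) (g : G) (f : R)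
    (θ : I) : fcl K cov L g f (circ θ) =
      Zf K cov L (g * FreeGroup.lift (dd K cov L) (h f θ)) (K.att f θ) := by
  have hc : Continuous fun θ =>
      Zf K cov L (g * FreeGroup.lift (dd K cov L) (h f θ)) (K.att f θ) := by
    refine hS X V S R K I E (K.att f) (h f) (att_sk1 K f) (hW f).2
      (fun c v => lb (g * FreeGroup.lift (dd K cov L) c) (K.vt v))
      (fun c e => edl K cov L (g * FreeGroup.lift (dd K cov L) c) e) ?_ ?_ _ ?_ ?_
    · intro c e
      rw [edl_0, K.ed0]
    · intro c e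
      rw [edl_1]
      simp [mul_assoc]
    · intro a v ha
      rw [ha, Zf_vt]
    · intro a e x h0 h1 ha
      rw [ha, Zf_ed K cov L _ e x h0 h1]
  have := cov.eq_of_comp_eq (g₁ := fun θ => fcl K cov L g f (circ θ))
    (by fun_prop) hc (by
      funext θ
      exact (fcl_p K cov L g f _).trans (Zf_p K cov L (att_sk1 K f θ) _).symm) 0 (by
      rw [(hW f).1, map_one (FreeGroup.lift _), mul_one, att_apply, circ_zero, fcl_1])
  exact congrFun this θ

theorem rel_one [T2Space X] (hS : JobSEC) (h : R → I → FreeGroup S) (hW : K.Wd h) (f : R) :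
    FreeGroup.lift (dd K cov L) (h f 1) = 1 := by
  have h1 := fcl_circ K cov L hS h hW 1 f 1
  rw [att_apply, circ_one, fcl_1, one_mul] at h1
  exact (lab_inj L (Zf_lab K cov L (fc1_sk1 K f)) h1).symm

/-- normal forms upstairs -/
noncomputable def nfl (y : E) : (G × V) ⊕ ((G × S) × I) ⊕ ((G × R) × ℂ) :=
  match K.nf (p y) with
  | .inl v => .inl (Function.invFun (fun g => lb g (K.vt v)) y, v)
  | .inr (.inl (e, x)) => .inr (.inl ((Function.invFun (fun g => edl K cov L g e x) y, e), x))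
  | .inr (.inr (f, z)) => .inr (.inr ((Function.invFun (fun g => fcl K cov L g f z) y, f), z))

theorem weakl (A : Set E) (hA : ∀ g e, IsClosed (edl K cov L g e ⁻¹' A))
    (hB : ∀ g f, IsClosed {z : ℂ | ‖z‖ ≤ 1 ∧ fcl K cov L g f z ∈ A}) : IsClosed A := by
  rw [← isOpen_compl_iff, isOpen_iff_mem_nhds]
  intro y hy
  obtain ⟨W, hW, hyW, hinj⟩ := cov.isLocalHomeomorph.isLocallyInjective y
  have hop : IsClosed (p '' (W \ A))ᶜ := by
    apply K.weak
    · intro e
      have : K.ed e ⁻¹' (p '' (W \ A))ᶜ =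
          ⋂ g, (edl K cov L g e ⁻¹' A ∪ edl K cov L g e ⁻¹' Wᶜ) := by
        ext x
        simp only [mem_preimage, mem_compl_iff, mem_iInter, mem_union]
        constructor
        · intro hx g
          by_contra hn
          push Not at hn
          exact hx ⟨_, ⟨hn.2, hn.1⟩, edl_p K cov L g e x⟩
        · rintro hx ⟨y', hy', hp⟩
          obtain ⟨g, rfl⟩ := lab_surj L (edl_lab K cov L e x) y' hp
          rcases hx g with h | h
          · exact hy'.2 h
          · exact h hy'.1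
      rw [this]
      exact isClosed_iInter fun g => (hA g e).union
        (hW.isClosed_compl.preimage (edl K cov L g e).continuous)
    · intro f
      have : {z : ℂ | ‖z‖ ≤ 1 ∧ K.fc f z ∈ (p '' (W \ A))ᶜ} =
          {z : ℂ | ‖z‖ ≤ 1} ∩ ⋂ g, ({z : ℂ | ‖z‖ ≤ 1 ∧ fcl K cov L g f z ∈ A} ∪
            fcl K cov L g f ⁻¹' Wᶜ) := by
        ext z
        simp only [mem_preimage, mem_compl_iff, mem_iInter, mem_union, mem_inter_iff, mem_ofPred_eq]
        refine and_congr_right fun hz => ?_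
        constructor
        · intro hx g
          by_contra hn
          push Not at hn
          exact hx ⟨_, ⟨hn.2, hn.1 hz⟩, fcl_p K cov L g f z⟩
        · rintro hx ⟨y', hy', hp⟩
          obtain ⟨g, rfl⟩ := lab_surj L (fcl_lab K cov L f z) y' hp
          rcases hx g with h | h
          · exact hy'.2 h.2
          · exact h hy'.1
      rw [this]
      exact (isClosed_le continuous_norm continuous_const).inter
        (isClosed_iInter fun g => (hB g f).union
          (hW.isClosed_compl.preimage (fcl K cov L g f).continuous))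
  have hop' : IsOpen (W ∩ p ⁻¹' (p '' (W \ A))) :=
    hW.inter ((isClosed_compl_iff.1 hop).preimage cov.continuous)
  refine mem_of_superset (hop'.mem_nhds ⟨hyW, y, ⟨hyW, hy⟩, rfl⟩) ?_
  rintro z ⟨hz, y', hy', hp⟩
  rw [← hinj hy'.1 hz hp]
  exact hy'.2

/-- the lifted complex -/
noncomputable def KL [T2Space X] (hS : JobSEC) (h : R → I → FreeGroup S) (hW : K.Wd h) :
    CW2 E (G × V) (G × S) (G × R) where
  vt q := lb q.1 (K.vt q.2)
  ed q := edl K cov L q.1 q.2
  fc q := fcl K cov L q.1 q.2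
  s q := (q.1, K.s q.2)
  t q := (q.1 * dd K cov L q.2, K.t q.2)
  ed0 q := by rw [edl_0, K.ed0]
  ed1 q := edl_1 K cov L q.1 q.2
  nf := nfl K cov L
  nf_vt q := by
    simp only [nfl, L.proj, K.nf_vt]
    rw [Function.leftInverse_invFun (lab_inj L (vt_lab (K.vt q.2))) q.1]
  nf_ed q x h0 h1 := by
    simp only [nfl, edl_p, K.nf_ed q.2 x h0 h1]
    rw [Function.leftInverse_invFun (lab_inj L (edl_lab K cov L q.2 x)) q.1]
  nf_fc q z hz := by
    simp only [nfl, fcl_p, K.nf_fc q.2 z hz]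
    rw [Function.leftInverse_invFun (lab_inj L (fcl_lab K cov L q.2 z)) q.1]
  cover y := by
    rcases K.cover (p y) with ⟨v, hv⟩ | ⟨e, x, h0, h1, hx⟩ | ⟨f, z, hz, hf⟩
    · obtain ⟨g, hg⟩ := lab_surj L (vt_lab (K.vt v)) y hv
      exact .inl ⟨(g, v), hg⟩
    · obtain ⟨g, hg⟩ := lab_surj L (edl_lab K cov L e x) y hx
      exact .inr (.inl ⟨(g, e), x, h0, h1, hg⟩)
    · obtain ⟨g, hg⟩ := lab_surj L (fcl_lab K cov L f z) y hf
      exact .inr (.inr ⟨(g, f), z, hz, hg⟩)
  fin q := by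
    classical
    obtain ⟨A, B, hAB⟩ := K.fin q.2
    let C : Finset G := (fin_range K h hW q.2).toFinset.image
      fun c => q.1 * FreeGroup.lift (dd K cov L) c
    refine ⟨C ×ˢ (A ∪ B.image K.t), C ×ˢ B, fun z hz => ?_⟩
    obtain ⟨θ, rfl⟩ := circ_surj z hz
    have hC : q.1 * FreeGroup.lift (dd K cov L) (h q.2 θ) ∈ C :=
      Finset.mem_image_of_mem _ (by simp)
    rw [fcl_circ K cov L hS h hW, att_apply]
    rcases hAB _ hz with ⟨v, hv, hz⟩ | ⟨e, he, x, hz⟩
    · exact .inl ⟨(_, v), Finset.mk_mem_product hC (Finset.mem_union_left _ hv),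
        by rw [hz, Zf_vt]⟩
    · by_cases h1 : x = 1
      · exact .inl ⟨(_, K.t e), Finset.mk_mem_product hC
          (Finset.mem_union_right _ (Finset.mem_image_of_mem _ he)),
          by rw [hz, h1, K.ed1, Zf_vt]⟩
      refine .inr ⟨(_, e), Finset.mk_mem_product hC he, x, ?_⟩
      by_cases h0 : x = 0
      · rw [hz, h0, edl_0, K.ed0, Zf_vt]
      · rw [hz, Zf_ed K cov L _ e x h0 h1]
  weak A hA hB := weakl K cov L A (fun g e => hA (g, e)) (fun g f => hB (g, f))

theorem gU_Zf [T2Space X] (hS : JobSEC) (h : R → I → FreeGroup S) (hW : K.Wd h) (g : G) {y : X}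
    (hy : y ∈ K.sk1) : (KL K cov L hS h hW).gU (Zf K cov L g y) =
      hol (FreeGroup.lift (dd K cov L)) (fun g s => FreeGroup.of (g, s)) (K.gU y) g := by
  rcases sk1_nf K hy with ⟨v, rfl⟩ | ⟨e, x, h0, h1, rfl⟩
  · rw [Zf_vt, K.gU_vt, hol_one]
    exact (KL K cov L hS h hW).gU_vt (g, v)
  · rw [Zf_ed K cov L g e x h0 h1, K.gU_ed e x h0 h1]
    refine ((KL K cov L hS h hW).gU_ed (g, e) x h0 h1).trans ?_
    split_ifs
    · rw [hol_of]
    · rw [hol_one]

theorem wd [T2Space X] (hS : JobSEC) (h : R → I → FreeGroup S) (hW : K.Wd h) :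
    (KL K cov L hS h hW).Wd fun f θ => hol (FreeGroup.lift (dd K cov L))
      (fun g s => FreeGroup.of (g, s)) (h f.2 θ) f.1 := by
  rintro ⟨g, f⟩
  have hatt : ∀ θ, (KL K cov L hS h hW).att (g, f) θ =
      Zf K cov L (g * FreeGroup.lift (dd K cov L) (h f θ)) (K.att f θ) :=
    fcl_circ K cov L hS h hW g f
  have hp : ∀ θ, p ((KL K cov L hS h hW).att (g, f) θ) = K.att f θ := fun θ => by
    rw [hatt, Zf_p K cov L (att_sk1 K f θ)]
  refine ⟨by simp only [(hW f).1, hol_one], fun a => ⟨fun hm => ?_, fun hv => ?_⟩⟩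
  · have hm' : ∀ e (x : I), (x : ℝ) = 1 / 2 → K.att f a ≠ K.ed e x := by
      intro e x hx he
      obtain ⟨g', hg'⟩ := lab_surj L (edl_lab K cov L e x) _ ((hp a).trans he)
      exact hm (g', e) x hx hg'
    filter_upwards [((hW f).2 a).1 hm'] with a' ha'
    rw [hatt, hatt, gU_Zf K cov L hS h hW _ (att_sk1 K f a'),
      gU_Zf K cov L hS h hW _ (att_sk1 K f a), ← hol_mul, ← hol_mul, ha']
  · have hv' : ∀ v, K.att f a ≠ K.vt v := by
      intro v he
      obtain ⟨g', hg'⟩ := lab_surj L (vt_lab (K.vt v)) _ ((hp a).trans he)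
      exact hv (g', v) hg'
    filter_upwards [((hW f).2 a).2 hv'] with a' ha'
    simp only [ha']

end Main

end LiftX

theorem jobLIFT (hS : JobSEC) : JobLIFT := by
  intro G E X V S R _ _ _ _ K h hW p lb cov L
  exact ⟨LiftX.t2 cov, LiftX.dd K cov L, LiftX.KL K cov L hS h hW, fun _ _ => rfl, fun _ _ => rfl,
    LiftX.rel_one K cov L hS h hW, LiftX.wd K cov L hS h hW⟩

end Crest.Agent.EG
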