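import Crest.Agent.EG.DefsT

/-! Row 197 (S0300), job MU: trivialising the line bundle of a face on a contractible complex. -/

set_option autoImplicit false

open Set Topology Filter unitInterval ComplexConjugate

namespace Crest.Agent.EG

namespace MUx

/-- the matrix `[[p, q̄], [q, 1 - p]]` -/
noncomputable def act (Q v : ℂ × ℂ) : ℂ × ℂ :=
  (Q.1 * v.1 + conj Q.2 * v.2, Q.2 * v.1 + (1 - Q.1) * v.2)

theorem act_act {Q : ℂ × ℂ} (h : Q.1 ^ 2 + Q.2 * conj Q.2 = Q.1) (v : ℂ × ℂ) :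
    act Q (act Q v) = act Q v := by
  simp only [act, Prod.mk.injEq]
  constructor
  · linear_combination v.1 * h
  · linear_combination v.2 * h

theorem act_ne {Q Q' v : ℂ × ℂ} (h : dist Q Q' < 1 / 2) (hv : act Q v = v) (h0 : v ≠ 0) :
    act Q' v ≠ 0 := by
  intro h'
  have h1 : ‖Q.1 - Q'.1‖ < 1 / 2 := by
    rw [← dist_eq_norm]; exact lt_of_le_of_lt (le_max_left _ _) h
  have h2 : ‖Q.2 - Q'.2‖ < 1 / 2 := by
    rw [← dist_eq_norm]; exact lt_of_le_of_lt (le_max_right _ _) h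
  have e1 : v.1 = (Q.1 - Q'.1) * v.1 + conj (Q.2 - Q'.2) * v.2 := by
    have a := congrArg Prod.fst hv
    have b := congrArg Prod.fst h'
    simp only [act, Prod.fst_zero] at a b
    rw [map_sub]
    linear_combination b - a
  have e2 : v.2 = (Q.2 - Q'.2) * v.1 - (Q.1 - Q'.1) * v.2 := by
    have a := congrArg Prod.snd hv
    have b := congrArg Prod.snd h'
    simp only [act, Prod.snd_zero] at a b
    linear_combination b - a
  have n1 : ‖v.1‖ ≤ ‖Q.1 - Q'.1‖ * ‖v.1‖ + ‖Q.2 - Q'.2‖ * ‖v.2‖ := by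
    calc ‖v.1‖ = ‖(Q.1 - Q'.1) * v.1 + conj (Q.2 - Q'.2) * v.2‖ := by rw [← e1]
      _ ≤ _ := by
        refine (norm_add_le _ _).trans ?_
        rw [norm_mul, norm_mul, Complex.norm_conj]
  have n2 : ‖v.2‖ ≤ ‖Q.2 - Q'.2‖ * ‖v.1‖ + ‖Q.1 - Q'.1‖ * ‖v.2‖ := by
    calc ‖v.2‖ = ‖(Q.2 - Q'.2) * v.1 - (Q.1 - Q'.1) * v.2‖ := by rw [← e2]
      _ ≤ _ := by
        refine (norm_sub_le _ _).trans ?_
        rw [norm_mul, norm_mul]
  have p1 := norm_nonneg v.1
  have p2 := norm_nonneg v.2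
  have hpos : 0 < ‖v.1‖ + ‖v.2‖ := by
    rcases p1.lt_or_eq with h | h
    · linarith
    rcases p2.lt_or_eq with h' | h'
    · linarith
    exact absurd (Prod.ext (norm_eq_zero.1 h.symm) (norm_eq_zero.1 h'.symm)) h0
  nlinarith

/-- squared length of `(1 - ‖z‖, z)` -/
noncomputable def nn (z : ℂ) : ℂ := (1 - (‖z‖ : ℂ)) ^ 2 + (‖z‖ : ℂ) ^ 2

theorem nn_ne (z : ℂ) : nn z ≠ 0 := by
  have : (0 : ℝ) < (1 - ‖z‖) ^ 2 + ‖z‖ ^ 2 := by nlinarith [sq_nonneg (1 - 2 * ‖z‖)]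
  have e : nn z = (((1 - ‖z‖) ^ 2 + ‖z‖ ^ 2 : ℝ) : ℂ) := by simp [nn]
  rw [e]
  exact_mod_cast this.ne'

theorem continuous_nn : Continuous nn := by unfold nn; fun_prop

theorem conj_nn (z : ℂ) : conj (nn z) = nn z := by simp [nn]

noncomputable def g (z : ℂ) : ℂ × ℂ :=
  ((1 - (‖z‖ : ℂ)) ^ 2 / nn z, (1 - (‖z‖ : ℂ)) * z / nn z)

theorem continuous_g : Continuous g :=
  (Continuous.div (by fun_prop) continuous_nn nn_ne).prodMk
    (Continuous.div (by fun_prop) continuous_nn nn_ne)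

theorem g_one {z : ℂ} (h : ‖z‖ = 1) : g z = 0 := by simp [g, h]

theorem g_idem (z : ℂ) : (g z).1 ^ 2 + (g z).2 * conj (g z).2 = (g z).1 := by
  have h := nn_ne z
  have e : z * conj z = (‖z‖ : ℂ) ^ 2 := Complex.mul_conj' z
  simp only [g, map_div₀, map_mul, map_sub, map_one, Complex.conj_ofReal, conj_nn]
  field_simp
  rw [nn]
  linear_combination (1 - (‖z‖ : ℂ)) ^ 2 * e

theorem act_g (z : ℂ) (v : ℂ × ℂ) :
    act (g z) v = (((1 - (‖z‖ : ℂ)) * v.1 + conj z * v.2) / nn z * (1 - (‖z‖ : ℂ)),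
      ((1 - (‖z‖ : ℂ)) * v.1 + conj z * v.2) / nn z * z) := by
  have h := nn_ne z
  have e : z * conj z = (‖z‖ : ℂ) ^ 2 := Complex.mul_conj' z
  simp only [act, g, map_div₀, map_mul, map_sub, map_one, Complex.conj_ofReal, conj_nn,
    Prod.mk.injEq]
  constructor
  · field_simp
  · field_simp
    rw [nn]
    linear_combination (-v.2) * e

variable {X V S R : Type} [TopologicalSpace X] (K : CW2 X V S R) (j : R)

open Classical in
noncomputable def Q (y : X) : ℂ × ℂ :=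
  match K.nf y with
  | .inr (.inr (f, z)) => if f = j then g z else 0
  | _ => 0

theorem Q_vt (v : V) : Q K j (K.vt v) = 0 := by simp only [Q, K.nf_vt]

theorem Q_ed (e : S) (x : I) : Q K j (K.ed e x) = 0 := by
  by_cases h0 : x = 0
  · rw [h0, K.ed0, Q_vt]
  by_cases h1 : x = 1
  · rw [h1, K.ed1, Q_vt]
  simp only [Q, K.nf_ed e x h0 h1]

open Classical in
theorem Q_fc (f : R) {z : ℂ} (hz : ‖z‖ ≤ 1) : Q K j (K.fc f z) = if f = j then g z else 0 := by
  rcases hz.lt_or_eq with h | h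
  · simp only [Q, K.nf_fc f z h]
  · obtain ⟨A, B, hB⟩ := K.fin f
    rw [g_one h, ite_self]
    rcases hB z h with ⟨v, -, he⟩ | ⟨e, -, x, he⟩
    · rw [he, Q_vt]
    · rw [he, Q_ed]

theorem continuous_Q : Continuous (Q K j) := by
  classical
  refine continuous_iff_isClosed.2 fun D hD => K.weak _ (fun e => ?_) fun f => ?_
  · have : K.ed e ⁻¹' (Q K j ⁻¹' D) = {_x | (0 : ℂ × ℂ) ∈ D} := by
      ext x; simp [Q_ed]
    rw [this]; exact isClosed_const
  · have : {z : ℂ | ‖z‖ ≤ 1 ∧ K.fc f z ∈ Q K j ⁻¹' D} =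
        {z : ℂ | ‖z‖ ≤ 1} ∩ (fun z => if f = j then g z else 0) ⁻¹' D := by
      ext z
      exact and_congr_right fun hz => by rw [mem_preimage, Q_fc K j f hz]; rfl
    rw [this]
    refine (isClosed_le continuous_norm continuous_const).inter (hD.preimage ?_)
    split_ifs
    · exact continuous_g
    · exact continuous_const

theorem Q_idem (y : X) : (Q K j y).1 ^ 2 + (Q K j y).2 * conj (Q K j y).2 = (Q K j y).1 := by
  classical
  rcases K.cover y with ⟨v, rfl⟩ | ⟨e, x, -, -, rfl⟩ | ⟨f, z, hz, rfl⟩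
  · simp [Q_vt]
  · simp [Q_ed]
  · rw [Q_fc K j f hz.le]
    split_ifs
    · exact g_idem z
    · simp

theorem exists_sec [ContractibleSpace X] {C : Set X} (hC : IsCompact C) :
    ∃ v : C(X, ℂ × ℂ), (∀ y, act (Q K j y) (v y) = v y) ∧ ∀ y ∈ C, v y ≠ 0 := by
  obtain ⟨x₀, ⟨H⟩⟩ := id_nullhomotopic X
  have : CompactSpace C := isCompact_iff_compactSpace.1 hC
  let Φ : C(I × C, ℂ × ℂ) := ⟨fun p => Q K j (H (p.1, p.2)),
    (continuous_Q K j).comp (H.continuous.comp (by fun_prop))⟩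
  obtain ⟨δ, hδ, hΦ⟩ := Metric.uniformContinuous_iff.1
    (CompactSpace.uniformContinuous_of_continuous Φ.curry.continuous) (1 / 2) (by norm_num)
  let T : Set I := {t | ∃ v : C(X, ℂ × ℂ), (∀ y, act (Q K j (H (t, y))) (v y) = v y) ∧
    ∀ y ∈ C, v y ≠ 0}
  have step : ∀ s t : I, dist s t < δ → s ∈ T → t ∈ T := by
    rintro s t hst ⟨v, h1, h2⟩
    have hc : Continuous fun y => Q K j (H (t, y)) :=
      (continuous_Q K j).comp (H.continuous.comp (by fun_prop))
    refine ⟨⟨fun y => act (Q K j (H (t, y))) (v y), by unfold act; fun_prop⟩,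
      fun y => act_act (Q_idem K j _) _, fun y hy => act_ne ?_ (h1 y) (h2 y hy)⟩
    exact lt_of_le_of_lt (ContinuousMap.dist_apply_le_dist (f := Φ.curry s) (g := Φ.curry t)
      ⟨y, hy⟩) (hΦ hst)
  have hT : IsClopen T := by
    refine ⟨isOpen_compl_iff.1 (Metric.isOpen_iff.2 fun t ht => ⟨δ, hδ, fun s hs hs' => ?_⟩),
      Metric.isOpen_iff.2 fun s hs => ⟨δ, hδ, fun t ht => step s t ?_ hs⟩⟩
    · exact ht (step s t hs hs')
    · rw [dist_comm]; exact ht
  have h1 : (1 : I) ∈ T := by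
    by_cases hp : (Q K j x₀).1 = 0
    · refine ⟨ContinuousMap.const X (act (Q K j x₀) (0, 1)), fun y => ?_, fun y _ h => ?_⟩
      · simpa using act_act (Q_idem K j x₀) (0, 1)
      · have := congrArg Prod.snd h
        simp [act, hp] at this
    · refine ⟨ContinuousMap.const X (act (Q K j x₀) (1, 0)), fun y => ?_, fun y _ h => ?_⟩
      · simpa using act_act (Q_idem K j x₀) (1, 0)
      · have := congrArg Prod.fst h
        simp [act, hp] at this
  have h0 : (0 : I) ∈ T := by rw [hT.eq_univ ⟨1, h1⟩]; trivial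
  obtain ⟨v, h1, h2⟩ := h0
  exact ⟨v, fun y => by simpa using h1 y, h2⟩

end MUx

open MUx in
theorem jobMU : JobMU := by
  classical
  intro X V S R _ _ _ K j C hC
  obtain ⟨v, h1, h2⟩ := exists_sec K j
    (hC.union ((isCompact_closedBall (0 : ℂ) 1).image (K.fc j).continuous))
  let lam : C(ℂ, ℂ) := ⟨fun z => ((1 - (‖z‖ : ℂ)) * (v (K.fc j z)).1 + conj z * (v (K.fc j z)).2) /
    nn z, Continuous.div (by fun_prop) continuous_nn nn_ne⟩
  have key : ∀ z : ℂ, ‖z‖ ≤ 1 → v (K.fc j z) = (lam z * (1 - (‖z‖ : ℂ)), lam z * z) := by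
    intro z hz
    have := h1 (K.fc j z)
    rw [Q_fc K j j hz, if_pos rfl, act_g] at this
    exact this.symm
  refine ⟨⟨fun y => (v y).2, by fun_prop⟩, lam, fun y hy hz h => ?_, fun z hz h => ?_,
    fun z hz => ?_⟩
  · have hQ : Q K j y = 0 := by
      rcases K.cover y with ⟨v, rfl⟩ | ⟨e, x, -, -, rfl⟩ | ⟨f, z, hz', rfl⟩
      · exact Q_vt K j v
      · exact Q_ed K j e x
      · rw [Q_fc K j f hz'.le, if_neg]
        rintro rfl
        exact hz z hz' rfl
    have := congrArg Prod.fst (h1 y)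
    simp only [act, hQ, Prod.fst_zero, Prod.snd_zero, map_zero, zero_mul, add_zero] at this
    exact h2 y (Or.inl hy) (Prod.ext this.symm h)
  · refine h2 (K.fc j z) (Or.inr ⟨z, by simpa using hz, rfl⟩) ?_
    rw [key z hz, h]; simp
  · exact congrArg Prod.snd (key z hz.le)

end Crest.Agent.EG
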