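import Crest.Agent.EG.Main1

/-! Row 197: the job MAIN. -/

set_option autoImplicit false

open Set Quaternion

namespace Crest.Agent.EG

open Crest.Agent.GSC.Topo (sev scl Ex)

namespace MainX

section
variable {G P R : Type} [Group G] {ψ : FreeGroup P →* G} {w : R → FreeGroup P} (θ : G → P → S3)

theorem sev_near (hw : ∀ j, ψ (w j) = 1) (u : FreeGroup P) (l : List (FreeGroup P × R × Bool))
    (δ : ℝ) (h : ∀ p ∈ l, dist (cv ψ w θ (u * p.1) p.2.1) 1 ≤ δ) :
    dist (hol ψ θ (u * sev w l * u⁻¹) 1) 1 ≤ l.length * δ := by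
  have := d_list l (fun p => pm p.2.2 (cv ψ w θ (u * p.1) p.2.1)) (fun _ => 1) δ (by
    intro p hp
    unfold pm
    split_ifs
    · exact h p hp
    · rw [← d_inv, inv_inv, inv_one]; exact h p hp)
  rw [hol_sev θ hw]
  simpa using this

theorem sev_est (hw : ∀ j, ψ (w j) = 1) (u : FreeGroup P) (l : List (FreeGroup P × R × Bool))
    (e : Multiplicative ℝ →* S3) (b : G × R → ℤ) (c ε : ℝ)
    (h : ∀ p ∈ l, dist (cv ψ w θ (u * p.1) p.2.1)
      (e (Multiplicative.ofAdd (b (ψ p.1, p.2.1) * c))) ≤ ε) :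
    dist (hol ψ θ (u * sev w l * u⁻¹) 1) (e (Multiplicative.ofAdd (pr ψ b l * c))) ≤
      l.length * ε := by
  have := d_list l (fun p => pm p.2.2 (cv ψ w θ (u * p.1) p.2.1))
    (fun p => pm p.2.2 (e (Multiplicative.ofAdd (b (ψ p.1, p.2.1) * c)))) ε (by
    intro p hp
    unfold pm
    split_ifs
    · exact h p hp
    · rw [d_inv]; exact h p hp)
  rw [hol_sev θ hw]
  convert this using 2
  clear this h
  induction l with
  | nil => simp [pr]
  | cons a l ih =>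
    simp only [pr, List.map_cons, List.sum_cons, List.prod_cons, Int.cast_add, add_mul,
      ofAdd_add, map_mul] at ih ⊢
    rw [ih]
    congr 1
    unfold pm
    split_ifs
    · simp
    · simp [← map_inv]

end

theorem bound_list {T I : Type} [Finite I] (L : I → List T) (F : T → ℕ) :
    ∃ n : ℕ, (∀ i, (L i).length ≤ n) ∧ ∀ i, ∀ p ∈ L i, F p ≤ n := by
  obtain ⟨n, hn⟩ := (Set.finite_range fun i => (L i).length + ((L i).map F).sum).bddAbove
  refine ⟨n, fun i => ?_, fun i p hp => ?_⟩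
  · have := hn ⟨i, rfl⟩
    simp only at this; omega
  · have := hn ⟨i, rfl⟩
    have h2 := List.single_le_sum (l := (L i).map F) (by simp) _ (List.mem_map_of_mem hp)
    simp only at this; omega

/-- bounded version of the comparison data, with the enlarged finite set -/
theorem comp_bdd {G P₀ R₀ P R : Type} [Group G] [Finite R₀] {π : FreeGroup P₀ →* G}
    {r : R₀ → FreeGroup P₀} {ψ : FreeGroup P →* G} {w : R → FreeGroup P} (h : Comp π r ψ w) :
    ∃ (f : FreeGroup P₀ →* FreeGroup P) (m : R₀ → List (FreeGroup P × R × Bool)) (Ω₁ Ω : Finset G)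
    (β : R₀ → G × R → ℤ) (α : R₀ → G → P₀ → ℤ) (b : ℕ),
    (∀ x, ψ (f x) = π x) ∧ (∀ σ, sev w (m σ) = f (r σ)) ∧
    (∀ ρ g j, g ∉ Ω₁ → β ρ (g, j) = 0) ∧ (∀ ρ g s, g ∉ Ω → α ρ g s = 0) ∧
    (∀ ρ g σ, ((m σ).map fun p => (if p.2.2 then (1 : ℤ) else -1) *
      β ρ (g * ψ p.1, p.2.1)).sum = Finsupp.single (g, σ) (1 : ℤ) (1, ρ) + cs π (α ρ) (r σ) g) ∧
    (∀ ρ x, |(β ρ x : ℝ)| ≤ b) ∧
    (∀ g, g ∉ Ω → ∀ σ, ∀ p ∈ m σ, g * ψ p.1 ∉ Ω₁) ∧
    (∀ g, g ∉ Ω → ∀ ω ∈ Ω₁, g * ω ∉ Ω₁) := by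
  classical
  obtain ⟨f, m, Ω₁, β, α, h1, h2, h3, h4, h5⟩ := h
  have := Fintype.ofFinite R₀
  let J : Finset R := Finset.univ.biUnion fun σ => ((m σ).map fun p => p.2.1).toFinset
  let M : Finset G := Finset.univ.biUnion fun σ => ((m σ).map fun p => ψ p.1).toFinset
  let β' : R₀ → G × R → ℤ := fun ρ x => if x.2 ∈ J then β ρ x else 0
  obtain ⟨b, hb⟩ := ((Finset.univ ×ˢ Ω₁ ×ˢ J).image
    fun x : R₀ × G × R => (β x.1 x.2).natAbs).bddAbove
  refine ⟨f, m, Ω₁, Ω₁ ∪ (Ω₁ ×ˢ (M ∪ Ω₁)).image fun x => x.1 * x.2⁻¹, β', α, b, h1, h2, ?_, ?_, ?_,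
    ?_, ?_, ?_⟩
  · intro ρ g j hg
    simp [β', h3 ρ g j hg]
  · intro ρ g s hg
    exact h4 ρ g s fun h => hg (Finset.mem_union_left _ h)
  · intro ρ g σ
    rw [← h5]
    congr 1
    refine List.map_congr_left fun p hp => ?_
    have : p.2.1 ∈ J := by
      simp only [J, Finset.mem_biUnion, List.mem_toFinset, List.mem_map]
      exact ⟨σ, Finset.mem_univ _, p, hp, rfl⟩
    simp [β', this]
  · rintro ρ ⟨g, j⟩
    by_cases hj : j ∈ J
    · by_cases hg : g ∈ Ω₁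
      · have : (β ρ (g, j)).natAbs ≤ b := hb (by
          simp only [Finset.coe_image, mem_image, Finset.mem_coe]
          exact ⟨(ρ, g, j), by simp [hg, hj], rfl⟩)
        simp only [β', hj, if_true]
        rw [← Int.cast_abs, Int.abs_eq_natAbs]
        exact_mod_cast this
      · simp [β', h3 ρ g j hg]
    · simp [β', hj]
  · intro g hg σ p hp h
    refine hg (Finset.mem_union_right _ (Finset.mem_image.2 ⟨(g * ψ p.1, ψ p.1), ?_, by simp⟩))
    refine Finset.mem_product.2 ⟨h, Finset.mem_union_left _ ?_⟩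
    simp only [M, Finset.mem_biUnion, List.mem_toFinset, List.mem_map]
    exact ⟨σ, Finset.mem_univ _, p, hp, rfl⟩
  · intro g hg ω hω h
    exact hg (Finset.mem_union_right _ (Finset.mem_image.2 ⟨(g * ω, ω),
      Finset.mem_product.2 ⟨h, Finset.mem_union_right _ hω⟩, by simp⟩))

theorem scl_ne {G P R : Type} [Group G] {π : FreeGroup P →* G} {l : List (FreeGroup P × R × Bool)}
    {x : G × R} (h : scl π l x ≠ 0) : ∃ p ∈ l, π p.1 = x.1 := by
  induction l with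
  | nil => simp [scl] at h
  | cons a l ih =>
    by_contra hc
    push Not at hc
    have h1 : scl π l x = 0 := by
      by_contra h1
      obtain ⟨p, hp, e⟩ := ih h1
      exact hc p (List.mem_cons_of_mem _ hp) e
    apply h
    have : (π a.1, a.2.1) ≠ x := fun e => hc a List.mem_cons_self (congrArg Prod.fst e)
    simp only [scl, List.map_cons, List.sum_cons, Finsupp.add_apply] at h1 ⊢
    rw [h1, Finsupp.single_eq_of_ne this.symm, add_zero]

end MainX

open MainX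

theorem jobMAIN : JobMAIN := by
  classical
  intro G P₀ R₀ P R I _ _ _ π r ψ w rel hr hw hC hG
  obtain ⟨f, m, Ω₁, Ω, β, α, b, hf, hm, hβ0, hα0, hβ, hb, hΩ2, hΩ3⟩ := comp_bdd hC
  obtain ⟨ℓ, ρ, hc, hα, hN⟩ := hG Ω
  choose Lx hL1 hL2 hL3 using expand (ψ := ψ) (w := w) hr hf hm hβ
  have hfill : ∀ x : FreeGroup P, ∃ l, ψ x = 1 → sev w l = x := fun x => by
    by_cases hx : ψ x = 1
    · obtain ⟨c, l, hl, -⟩ := Ex.of_mem (pi := ψ) (hw.ker x hx)
      exact ⟨l, fun _ => hl⟩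
    · exact ⟨[], fun h => absurd h hx⟩
  choose fill hfill using hfill
  choose p hp using hw.surj
  set c : I → ℤ := fun i => scl π (ℓ i) (1, ρ i) with hcdef
  have hpr : ∀ i, pr ψ (β (ρ i)) (Lx (ℓ i)) = c i := fun i => by
    rw [hL3, hα i _ fun g s hg => hα0 _ g s hg, add_zero]
  let Λ : FreeGroup P → List (FreeGroup P × R × Bool) := fun y => fill (y * (p (ψ y))⁻¹)
  have hΛ : ∀ y, sev w (Λ y) = y * (p (ψ y))⁻¹ := fun y => hfill _ (by simp [hp])
  obtain ⟨n, hn1, hn2⟩ := bound_list (fun i => Lx (ℓ i)) fun q => (Λ q.1).length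
  set N : ℕ := 800 * n * n * b * b + 1 with hNdef
  have hN0 : (0 : ℝ) < N := by positivity
  obtain ⟨X, u, far, hX, hs1, hs2, hrel⟩ := hN N
  let z : I × Fin N → G := fun ik => π (u ik.1 ik.2)
  let faces : FreeGroup P → List (FreeGroup P × R × Bool) → Finset (G × R) := fun v l =>
    (l.map fun q => (ψ (v * q.1), q.2.1)).toFinset
  have hfaces : ∀ v l, ∀ q ∈ l, (ψ (v * q.1), q.2.1) ∈ faces v l := fun v l q hq =>
    List.mem_toFinset.2 (List.mem_map_of_mem (f := fun q => (ψ (v * q.1), q.2.1)) hq)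
  obtain ⟨Φ, hΦ1, hΦ2, hΦ3, hΦ4⟩ : ∃ Φ : Finset (G × R),
      (∀ i k, ∀ q ∈ Lx (ℓ i), (ψ (f (u i k) * q.1), q.2.1) ∈ Φ) ∧
      (∀ i k, ∀ q ∈ Lx (ℓ i), ∀ q' ∈ Λ q.1, (ψ (f (u i k) * q'.1), q'.2.1) ∈ Φ) ∧
      (∀ i, ∀ q ∈ Lx (far i), (ψ (1 * q.1), q.2.1) ∈ Φ) ∧
      (∀ e, ∀ q ∈ fill (f (X e)), (ψ (1 * q.1), q.2.1) ∈ Φ) := by
    refine ⟨(Finset.univ.biUnion fun ik : I × Fin N => faces (f (u ik.1 ik.2))
      (Lx (ℓ ik.1) ++ (Lx (ℓ ik.1)).flatMap fun q => Λ q.1)) ∪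
      Finset.univ.biUnion fun i => faces 1 (Lx (far i) ++ fill (f (X i))), ?_, ?_, ?_, ?_⟩
    · intro i k q hq
      exact Finset.mem_union_left _ (Finset.mem_biUnion.2 ⟨(i, k), Finset.mem_univ _,
        hfaces _ _ _ (List.mem_append_left _ hq)⟩)
    · intro i k q hq q' hq'
      exact Finset.mem_union_left _ (Finset.mem_biUnion.2 ⟨(i, k), Finset.mem_univ _,
        hfaces _ _ _ (List.mem_append_right _ (List.mem_flatMap.2 ⟨q, hq, hq'⟩))⟩)
    · intro i q hq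
      exact Finset.mem_union_right _ (Finset.mem_biUnion.2 ⟨i, Finset.mem_univ _,
        hfaces _ _ _ (List.mem_append_left _ hq)⟩)
    · intro i q hq
      exact Finset.mem_union_right _ (Finset.mem_biUnion.2 ⟨i, Finset.mem_univ _,
        hfaces _ _ _ (List.mem_append_right _ hq)⟩)
  choose a ha1 ha2 using hw.cob Φ
  let Θ : G → P → FreeGroup Φ := fun g s =>
    ((Finset.univ : Finset Φ).toList.map fun j : Φ => FreeGroup.of j ^ a j.1 g s).prod
  let Pa : G → FreeGroup P := fun g =>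
    if h : ∃ ik, (z ik)⁻¹ * g ∈ Ω₁ then f (u h.choose.1 h.choose.2) * p ((z h.choose)⁻¹ * g)
    else p g
  have hPa : ∀ g, ψ (Pa g) = g := fun g => by
    simp only [Pa]
    split_ifs with h
    · simp [hf, hp, z]
    · exact hp g
  have huniq : ∀ g ik ik', (z ik)⁻¹ * g ∈ Ω₁ → (z ik')⁻¹ * g ∈ Ω₁ → ik = ik' := by
    rintro g ⟨i, k⟩ ⟨i', k'⟩ h1 h2
    by_contra hne
    obtain ⟨q, hq, e⟩ := scl_ne (hc i)
    have := hΩ3 _ (hs1 i k i' k' hne q hq) _ h1
    apply this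
    simpa [e, z, mul_assoc] using h2
  have hPa' : ∀ g ik, (z ik)⁻¹ * g ∈ Ω₁ → Pa g = f (u ik.1 ik.2) * p ((z ik)⁻¹ * g) := by
    intro g ik h
    have h' : ∃ ik, (z ik)⁻¹ * g ∈ Ω₁ := ⟨ik, h⟩
    simp only [Pa, dif_pos h']
    rw [huniq g _ ik h'.choose_spec h]
  refine ⟨Φ, inferInstance, fun φ => cv ψ w Θ (Pa φ.1.1) φ.1.2,
    fun φ i => ∑ k, (β (ρ i) ((z (i, k))⁻¹ * φ.1.1, φ.1.2) : ℝ) * (1 / (c i * N)),
    fun e => hol ψ Θ (f (X e)) 1, ?_, ?_, ?_⟩
  · rintro ⟨⟨g, j⟩, hφ⟩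
    rw [cv, map_hol, hol_conj _ _ _ _ (hw.rel j), mul_inv_cancel_comm, hPa, one_mul]
    have : (fun g s => Abelianization.of (Θ g s)) =
        fun g s => ∏ j : Φ, Abelianization.of (FreeGroup.of j) ^ a j.1 g s := by
      funext g s
      simp only [Θ, map_list_prod, List.map_map, Function.comp_def, map_zpow]
      exact Finset.prod_map_toList _ _
    rw [this, hol_comm, Finset.prod_eq_single ⟨(g, j), hφ⟩]
    · rw [ha1 _ hφ, zpow_one]
    · intro j' _ hj'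
      rw [ha2 j' (g, j) hφ fun e => hj' (Subtype.ext e.symm), zpow_zero]
    · simp
  · intro t ξ hξ0 hξπ hκ i
    set θ : G → P → S3 := fun g s => FreeGroup.lift t (Θ g s) with hθ
    have hκ' : ∀ g j, (g, j) ∈ Φ → ((cv ψ w θ (Pa g) j : S3) : ℍ[ℝ]) = NormedSpace.exp
        (∑ i, (∑ k, (β (ρ i) ((z (i, k))⁻¹ * g, j) : ℝ) * (1 / (c i * N))) • ξ i) := by
      intro g j h
      rw [← hκ ⟨(g, j), h⟩, cv, cv, map_hol]
    set δ : ℝ := b * ‖ξ‖ / N with hδ
    have hδ0 : 0 ≤ δ := by positivity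
    have k0 : ∀ y j, (ψ y, j) ∈ Φ → (∀ ik, (z ik)⁻¹ * ψ y ∉ Ω₁) → cv ψ w θ y j = 1 := by
      intro y j h h'
      have : cv ψ w θ (Pa (ψ y)) j = 1 := Subtype.ext (by
        rw [hκ' _ _ h]
        simp [fun i k => hβ0 (ρ i) _ j (h' (i, k))])
      rw [cv_conj θ hw.rel (hPa (ψ y)).symm, this]; simp
    have k1 : ∀ g j ik, (g, j) ∈ Φ → (z ik)⁻¹ * g ∈ Ω₁ → cv ψ w θ (Pa g) j =
        ex1 (ξ ik.1) (hξ0 _) (Multiplicative.ofAdd
          ((β (ρ ik.1) ((z ik)⁻¹ * g, j) : ℝ) * (1 / (c ik.1 * N)))) := by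
      rintro g j ⟨i, k⟩ h h'
      refine Subtype.ext ?_
      rw [hκ' _ _ h, ex1_coe, Finset.sum_eq_single i, Finset.sum_eq_single k]
      · intro k' _ hk'
        rw [hβ0 _ _ _ fun e => hk' (Prod.mk.inj (huniq g _ _ e h')).2]; simp
      · simp
      · intro i' _ hi'
        rw [Finset.sum_eq_zero, zero_smul]
        intro k' _
        rw [hβ0 _ _ _ fun e => hi' (Prod.mk.inj (huniq g _ _ e h')).1]; simp
      · simp
    have k2 : ∀ y j, (ψ y, j) ∈ Φ → dist (cv ψ w θ y j) 1 ≤ δ := by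
      intro y j h
      by_cases h' : ∃ ik, (z ik)⁻¹ * ψ y ∈ Ω₁
      · obtain ⟨ik, h'⟩ := h'
        rw [cv_conj θ hw.rel (hPa (ψ y)).symm, d_conj1, k1 _ _ ik h h', d_eq, ex1_coe, cone]
        refine (norm_exp_sub_one (by simp [hξ0])).trans ?_
        have c1 : (1 : ℝ) ≤ |(c ik.1 : ℝ)| := by
          rw [← Int.cast_abs]; exact_mod_cast Int.one_le_abs (hc ik.1)
        rw [norm_smul, Real.norm_eq_abs, abs_mul, abs_div, abs_mul, abs_one, abs_of_pos hN0, hδ]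
        calc _ ≤ b * (1 / (1 * N)) * ‖ξ‖ := by
              gcongr
              · exact hb _ _
              · exact norm_le_pi_norm ξ ik.1
          _ = _ := by ring
      · push Not at h'
        rw [k0 y j h h']; simpa using hδ0
    have k3 : ∀ k, ∀ q ∈ Lx (ℓ i), dist (cv ψ w θ (f (u i k) * q.1) q.2.1)
        (ex1 (ξ i) (hξ0 _) (Multiplicative.ofAdd
          ((β (ρ i) (ψ q.1, q.2.1) : ℝ) * (1 / (c i * N))))) ≤ 2 * (n * δ) * δ := by
      intro k q hq
      have e : (z (i, k))⁻¹ * ψ (f (u i k) * q.1) = ψ q.1 := by simp [z, hf]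
      by_cases h' : ψ q.1 ∈ Ω₁
      · have h1 := k1 _ _ (i, k) (hΦ1 i k q hq) (by rwa [e])
        have h2 := hPa' _ (i, k) (by rwa [e])
        have h3 := k2 (Pa (ψ (f (u i k) * q.1))) q.2.1 (by rw [hPa]; exact hΦ1 i k q hq)
        rw [e] at h1 h2
        rw [cv_conj θ hw.rel (hPa (ψ (f (u i k) * q.1))).symm, ← h1]
        refine (d_conj _ _).trans ?_
        have h4 : f (u i k) * q.1 * (Pa (ψ (f (u i k) * q.1)))⁻¹ =
            f (u i k) * sev w (Λ q.1) * (f (u i k))⁻¹ := by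
          rw [h2, hΛ]; simp [mul_assoc]
        have h5 := sev_near θ hw.rel (f (u i k)) (Λ q.1) δ fun q' hq' =>
          k2 _ _ (hΦ2 i k q hq q' hq')
        have h6 : ((Λ q.1).length : ℝ) ≤ n := by exact_mod_cast hn2 i q hq
        rw [h4]
        gcongr
        exact h5.trans (by gcongr)
      · rw [k0 _ _ (hΦ1 i k q hq), hβ0 _ _ _ h']
        · simp; positivity
        · rintro ⟨i', k'⟩
          by_cases hne : (i, k) = (i', k')
          · rw [← hne, e]; exact h'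
          · obtain ⟨q₀, hq₀, q₁, hq₁, e'⟩ := hL2 _ q hq
            have := hΩ2 _ (hs1 i k i' k' hne q₀ hq₀) _ q₁ hq₁
            simpa [z, hf, e', mul_assoc] using this
    have k4 : ∀ k, dist (hol ψ θ (f (u i k * sev r (ℓ i) * (u i k)⁻¹)) 1)
        (ex1 (ξ i) (hξ0 _) (Multiplicative.ofAdd (1 / N))) ≤ n * (2 * (n * δ) * δ) := by
      intro k
      have h1 := sev_est θ hw.rel (f (u i k)) (Lx (ℓ i)) _ (β (ρ i)) _ _ (k3 k)
      have hc' : (c i : ℝ) ≠ 0 := by exact_mod_cast hc i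
      have h2 : (c i : ℝ) * (1 / (c i * N)) = 1 / N := by field_simp
      have h6 : ((Lx (ℓ i)).length : ℝ) ≤ n := by exact_mod_cast hn1 i
      rw [hpr, h2, hL1] at h1
      simp only [map_mul, map_inv]
      exact h1.trans (by gcongr)
    have k5 : hol ψ θ (f (sev r (far i))) 1 = 1 := by
      have := sev_near θ hw.rel 1 (Lx (far i)) 0 fun q hq => by
        rw [k0 _ _ (hΦ3 i q hq), dist_self]
        rintro ⟨i', k'⟩
        obtain ⟨q₀, hq₀, q₁, hq₁, e'⟩ := hL2 _ q hq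
        have := hΩ2 _ (hs2 i q₀ hq₀ i' k') _ q₁ hq₁
        simpa [z, e', mul_assoc] using this
      simpa [hL1] using this
    have e1 : (fun e => FreeGroup.lift t (hol ψ Θ (f (X e)) 1)) = fun e => hol ψ θ (f (X e)) 1 := by
      funext e; rw [map_hol]
    have e2 : FreeGroup.lift (fun e => f (X e)) (rel i) = f (FreeGroup.lift X (rel i)) := by
      have : FreeGroup.lift (fun e => f (X e)) = f.comp (FreeGroup.lift X) :=
        FreeGroup.ext_hom _ _ (by simp)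
      rw [this]; rfl
    have e3 : ∀ k, ψ (f (u i k * sev r (ℓ i) * (u i k)⁻¹)) = 1 := fun k => by
      rw [hf]; simp [psi_sev hr]
    have e4 : ∀ x ∈ (List.ofFn fun k => u i k * sev r (ℓ i) * (u i k)⁻¹).map f, ψ x = 1 := by
      intro x hx
      simp only [List.mem_map, List.mem_ofFn] at hx
      obtain ⟨_, ⟨k, rfl⟩, rfl⟩ := hx
      exact e3 k
    rw [e1, lift_hol θ _ fun e => by rw [hf, hX], e2, hrel, map_mul, map_list_prod,
      hol_mul1 _ _ (by rw [map_list_prod]; exact List.prod_eq_one (by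
        intro x hx
        obtain ⟨y, hy, rfl⟩ := List.mem_map.1 hx
        exact e4 y hy)), k5, mul_one, hol_prod1 θ _ e4, List.map_map]
    have h7 := d_list (List.ofFn fun k => u i k * sev r (ℓ i) * (u i k)⁻¹)
      ((fun x => hol ψ θ x 1) ∘ f) (fun _ => ex1 (ξ i) (hξ0 _) (Multiplicative.ofAdd (1 / N))) _ (by
        intro x hx
        obtain ⟨k, rfl⟩ := List.mem_ofFn.1 hx
        exact k4 k)
    rw [List.map_const', List.prod_replicate, List.length_ofFn, ← map_pow, ← ofAdd_nsmul,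
      nsmul_eq_mul, mul_one_div_cancel hN0.ne', d_eq, ex1_coe, one_smul] at h7
    refine h7.trans ?_
    have hx : ‖ξ‖ ≤ 4 := (pi_norm_le_iff_of_nonneg (by norm_num)).2 fun i =>
      (hξπ i).trans Real.pi_le_four
    have hNb : (800 * n * n * b * b : ℝ) ≤ N := by rw [hNdef]; push_cast; linarith
    have : (N : ℝ) * (n * (2 * (n * δ) * δ)) = (2 * n * n * b * b) * ‖ξ‖ * ‖ξ‖ / N := by
      rw [hδ]; field_simp
    rw [this, div_le_iff₀ hN0]
    have hξn := norm_nonneg ξ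
    calc (2 * n * n * b * b : ℝ) * ‖ξ‖ * ‖ξ‖ ≤ (2 * n * n * b * b) * 4 * ‖ξ‖ := by gcongr
      _ = ‖ξ‖ / 100 * (800 * n * n * b * b) := by ring
      _ ≤ _ := by gcongr
  · intro t hκ e
    set θ : G → P → S3 := fun g s => FreeGroup.lift t (Θ g s) with hθ
    have := sev_near θ hw.rel 1 (fill (f (X e))) 0 fun q hq => by
      have h1 := hκ ⟨_, hΦ4 e q hq⟩
      rw [cv, map_hol] at h1
      have h2 : cv ψ w θ (Pa (ψ (1 * q.1))) q.2.1 = 1 := h1
      rw [cv_conj θ hw.rel (hPa (ψ (1 * q.1))).symm, h2]; simp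
    rw [hfill _ (by rw [hf, hX])] at this
    rw [map_hol]
    simpa using this

end Crest.Agent.EG
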