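import Crest.Agent.EG.DefsA

/-! Row 197: lemmas for the job MAIN (metric on `S3`, holonomy of products of conjugates). -/

set_option autoImplicit false

open Set Quaternion

namespace Crest.Agent.EG.MainX

open Crest.Agent.GSC.Topo (sev scl)

theorem nS (a : S3) : ‖(a : ℍ[ℝ])‖ = 1 := by simp

theorem cmul (a b : S3) : ((a * b : S3) : ℍ[ℝ]) = a * b := rfl

theorem cone : ((1 : S3) : ℍ[ℝ]) = 1 := rfl

theorem d_eq (a b : S3) : dist a b = ‖(a : ℍ[ℝ]) - b‖ := by
  rw [Subtype.dist_eq, dist_eq_norm]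

theorem d_left (a b c : S3) : dist (a * b) (a * c) = dist b c := by
  rw [d_eq, d_eq, cmul, cmul, ← mul_sub, norm_mul, nS, one_mul]

theorem d_right (a b c : S3) : dist (b * a) (c * a) = dist b c := by
  rw [d_eq, d_eq, cmul, cmul, ← sub_mul, norm_mul, nS, mul_one]

theorem d_mul (a b c d : S3) : dist (a * b) (c * d) ≤ dist a c + dist b d := by
  calc _ ≤ dist (a * b) (c * b) + dist (c * b) (c * d) := dist_triangle _ _ _
    _ = _ := by rw [d_left, d_right]

theorem d_inv (a b : S3) : dist a⁻¹ b⁻¹ = dist a b := by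
  rw [← d_left a, ← d_right b, dist_comm]; simp

theorem d_conj1 (l a : S3) : dist (l * a * l⁻¹) 1 = dist a 1 := by
  rw [← d_right l, ← d_left l⁻¹]; simp [mul_assoc]

theorem d_conj (l a : S3) : dist (l * a * l⁻¹) a ≤ 2 * dist l 1 * dist a 1 := by
  rw [← d_right l]
  simp only [inv_mul_cancel_right, d_eq, cmul, cone]
  have : (l : ℍ[ℝ]) * a - a * l = (l - 1) * (a - 1) - (a - 1) * (l - 1) := by noncomm_ring
  rw [this]
  refine (norm_sub_le _ _).trans ?_
  rw [norm_mul, norm_mul]; linarith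

theorem d_list {T : Type} (l : List T) (F F' : T → S3) (ε : ℝ)
    (h : ∀ p ∈ l, dist (F p) (F' p) ≤ ε) :
    dist (l.map F).prod (l.map F').prod ≤ l.length * ε := by
  induction l with
  | nil => simp
  | cons a l ih =>
    simp only [List.map_cons, List.prod_cons, List.length_cons, Nat.cast_add, Nat.cast_one]
    have h1 := h a (by simp)
    have h2 := ih fun p hp => h p (by simp [hp])
    have := d_mul (F a) (l.map F).prod (F' a) (l.map F').prod
    linarith

theorem norm_exp_im {q : ℍ[ℝ]} (h : q.re = 0) : ‖NormedSpace.exp q‖ = 1 := by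
  rw [Quaternion.norm_exp, h]; simp

/-- one-parameter subgroup -/
noncomputable def ex1 (ξ : ℍ[ℝ]) (h : ξ.re = 0) : Multiplicative ℝ →* S3 where
  toFun c := ⟨NormedSpace.exp (c.toAdd • ξ), by
    simpa using norm_exp_im (q := c.toAdd • ξ) (by simp [h])⟩
  map_one' := Subtype.ext (by simp)
  map_mul' a b := Subtype.ext (by
    simp only [toAdd_mul, add_smul, cmul]
    let _ : NormedAlgebra ℚ ℍ[ℝ] := .restrictScalars ℚ ℝ ℍ[ℝ]
    exact NormedSpace.exp_add_of_commute (((Commute.refl ξ).smul_left _).smul_right _))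

theorem ex1_coe (ξ : ℍ[ℝ]) (h : ξ.re = 0) (c : ℝ) :
    (ex1 ξ h (Multiplicative.ofAdd c) : ℍ[ℝ]) = NormedSpace.exp (c • ξ) := rfl

theorem norm_exp_sub_one {q : ℍ[ℝ]} (h : q.re = 0) : ‖NormedSpace.exp q - 1‖ ≤ ‖q‖ := by
  have h1 := norm_exp_im h
  have h2 : (NormedSpace.exp q).re = Real.cos ‖q‖ := by
    rw [Quaternion.exp_of_re_eq_zero q h]; simp [h]
  have h3 : ‖NormedSpace.exp q - 1‖ ^ 2 = 2 - 2 * Real.cos ‖q‖ := by
    have a1 := Quaternion.normSq_eq_norm_mul_self (NormedSpace.exp q - 1)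
    have a2 := Quaternion.normSq_eq_norm_mul_self (NormedSpace.exp q)
    rw [h1] at a2
    rw [sq, ← a1, ← h2]
    simp only [Quaternion.normSq_def', Quaternion.re_sub, Quaternion.imI_sub,
      Quaternion.imJ_sub, Quaternion.imK_sub, Quaternion.re_one, Quaternion.imI_one,
      Quaternion.imJ_one, Quaternion.imK_one] at a2 ⊢
    nlinarith
  have h4 := Real.one_sub_sq_div_two_le_cos (x := ‖q‖)
  refine abs_le_of_sq_le_sq' ?_ (norm_nonneg q) |>.2
  nlinarith

section Cv
variable {G P R U : Type} [Group G] [Group U] (ψ : FreeGroup P →* G) (w : R → FreeGroup P)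
  (θ : G → P → U)

/-- curvature of the face `j` seen along the path `y` -/
def cv (y : FreeGroup P) (j : R) : U := hol ψ θ (y * w j * y⁻¹) 1

/-- power `±1` -/
def pm (b : Bool) (a : U) : U := if b then a else a⁻¹

theorem hol_mul1 {x : FreeGroup P} (hx : ψ x = 1) (y : FreeGroup P) :
    hol ψ θ (x * y) 1 = hol ψ θ x 1 * hol ψ θ y 1 := by rw [hol_mul, hx, mul_one]

theorem hol_inv1 {x : FreeGroup P} (hx : ψ x = 1) : hol ψ θ x⁻¹ 1 = (hol ψ θ x 1)⁻¹ := by
  rw [hol_inv, hx]; simp

variable {ψ w}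

theorem psi_sev (hw : ∀ j, ψ (w j) = 1) (l : List (FreeGroup P × R × Bool)) : ψ (sev w l) = 1 := by
  induction l with
  | nil => simp [sev]
  | cons a l ih =>
    simp only [sev, List.map_cons, List.prod_cons, map_mul] at ih ⊢
    rw [ih]; split_ifs <;> simp [hw]

theorem hol_sev (hw : ∀ j, ψ (w j) = 1) (u : FreeGroup P) (l : List (FreeGroup P × R × Bool)) :
    hol ψ θ (u * sev w l * u⁻¹) 1 = (l.map fun p => pm p.2.2 (cv ψ w θ (u * p.1) p.2.1)).prod := by
  induction l with
  | nil => simp [sev]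
  | cons a l ih =>
    obtain ⟨y, j, b⟩ := a
    have e : u * sev w ((y, j, b) :: l) * u⁻¹ =
        (u * y * (if b then w j else (w j)⁻¹) * (u * y)⁻¹) * (u * sev w l * u⁻¹) := by
      simp [sev, mul_assoc]
    rw [e, hol_mul1 _ _ (by cases b <;> simp [hw]), ih]
    simp only [List.map_cons, List.prod_cons]
    congr 1
    cases b
    · simp only [pm, cv, Bool.false_eq_true, if_false]
      rw [← hol_inv1 _ _ (by simp [hw])]; simp [mul_assoc]
    · simp [pm, cv]

theorem cv_conj (hw : ∀ j, ψ (w j) = 1) {y y' : FreeGroup P} (h : ψ y = ψ y') (j : R) :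
    cv ψ w θ y j = hol ψ θ (y * y'⁻¹) 1 * cv ψ w θ y' j * (hol ψ θ (y * y'⁻¹) 1)⁻¹ := by
  have := hol_conj ψ θ (y * y'⁻¹) (y' * w j * y'⁻¹) (by simp [hw]) 1
  simp only [map_mul, map_inv, h, mul_inv_cancel, mul_one] at this
  rw [cv, cv, ← this]; simp [mul_assoc]

theorem lift_hol {I : Type} (Y : I → FreeGroup P) (hY : ∀ e, ψ (Y e) = 1) (x : FreeGroup I) :
    FreeGroup.lift (fun e => hol ψ θ (Y e) 1) x = hol ψ θ (FreeGroup.lift Y x) 1 := by
  have h1 : ∀ x, ψ (FreeGroup.lift Y x) = 1 := fun x => by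
    have : ψ.comp (FreeGroup.lift Y) = 1 := FreeGroup.ext_hom _ _ (by simp [hY])
    exact DFunLike.congr_fun this x
  let φ : FreeGroup I →* U := MonoidHom.mk' (fun x => hol ψ θ (FreeGroup.lift Y x) 1)
    (fun a b => by rw [map_mul, hol_mul1 _ _ (h1 a)])
  have : FreeGroup.lift (fun e => hol ψ θ (Y e) 1) = φ := FreeGroup.ext_hom _ _ (by simp [φ])
  rw [this]; rfl

theorem hol_prod1 (l : List (FreeGroup P)) (hl : ∀ x ∈ l, ψ x = 1) :
    hol ψ θ l.prod 1 = (l.map fun x => hol ψ θ x 1).prod := by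
  induction l with
  | nil => simp
  | cons a l ih =>
    rw [List.prod_cons, hol_mul1 _ _ (hl a (by simp)), ih fun x hx => hl x (by simp [hx])]; simp

end Cv

theorem hol_comm {G P Φ C : Type} [Group G] [CommGroup C] [Fintype Φ] (ψ : FreeGroup P →* G)
    (t : Φ → C) (a : Φ → G → P → ℤ) (x : FreeGroup P) (g : G) :
    hol ψ (fun g s => ∏ j, t j ^ a j g s) x g = ∏ j, t j ^ cs ψ (a j) x g :=
  (hol_unique ψ _ (fun x g => ∏ j, t j ^ cs ψ (a j) x g) (by simp)
    (by intro x y g; simp only [cs_mul, zpow_add, Finset.prod_mul_distrib]) x g).symm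

/-- signed sum of a 2-cochain over a list of faces -/
def pr {G P R : Type} [Group G] (ψ : FreeGroup P →* G) (b : G × R → ℤ)
    (l : List (FreeGroup P × R × Bool)) : ℤ :=
  (l.map fun p => (if p.2.2 then (1 : ℤ) else -1) * b (ψ p.1, p.2.1)).sum

theorem expand {G P₀ R₀ P R : Type} [Group G] {π : FreeGroup P₀ →* G} {r : R₀ → FreeGroup P₀}
    {ψ : FreeGroup P →* G} {w : R → FreeGroup P} (hr : ∀ σ, π (r σ) = 1)
    {f : FreeGroup P₀ →* FreeGroup P} {m : R₀ → List (FreeGroup P × R × Bool)}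
    {β : R₀ → G × R → ℤ} {α : R₀ → G → P₀ → ℤ}
    (hf : ∀ x, ψ (f x) = π x) (hm : ∀ σ, sev w (m σ) = f (r σ))
    (hβ : ∀ ρ g σ, ((m σ).map fun p => (if p.2.2 then (1 : ℤ) else -1) *
      β ρ (g * ψ p.1, p.2.1)).sum = Finsupp.single (g, σ) (1 : ℤ) (1, ρ) + cs π (α ρ) (r σ) g)
    (l : List (FreeGroup P₀ × R₀ × Bool)) :
    ∃ L : List (FreeGroup P × R × Bool), sev w L = f (sev r l) ∧
      (∀ p' ∈ L, ∃ q ∈ l, ∃ p ∈ m q.2.1, ψ p'.1 = π q.1 * ψ p.1) ∧
      ∀ ρ, pr ψ (β ρ) L = scl π l (1, ρ) + cs π (α ρ) (sev r l) 1 := by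
  have conj : ∀ (v : FreeGroup P) (l : List (FreeGroup P × R × Bool)),
      sev w (l.map fun p => (v * p.1, p.2)) = v * sev w l * v⁻¹ := by
    intro v l
    induction l with
    | nil => simp [sev]
    | cons a l ih =>
      simp only [sev, List.map_cons, List.prod_cons] at ih ⊢
      rw [ih]; simp [mul_assoc]
  have inv : ∀ (l : List (FreeGroup P × R × Bool)),
      sev w (l.reverse.map fun p => (p.1, p.2.1, !p.2.2)) = (sev w l)⁻¹ := by
    intro l
    induction l with
    | nil => simp [sev]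
    | cons a l ih =>
      obtain ⟨y, j, b⟩ := a
      simp only [sev, List.reverse_cons, List.map_append, List.prod_append, List.map_cons,
        List.prod_cons] at ih ⊢
      rw [ih]; cases b <;> simp [mul_assoc]
  have prinv : ∀ (b : G × R → ℤ) (l : List (FreeGroup P × R × Bool)),
      pr ψ b (l.reverse.map fun p => (p.1, p.2.1, !p.2.2)) = - pr ψ b l := by
    intro b l
    induction l with
    | nil => simp [pr]
    | cons a l ih =>
      obtain ⟨y, j, c⟩ := a
      simp only [pr, List.reverse_cons, List.map_append, List.sum_append, List.map_cons,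
        List.sum_cons] at ih ⊢
      rw [ih]; cases c <;> simp [add_comm]
  induction l with
  | nil => exact ⟨[], by simp [sev], by simp, by simp [pr, scl, sev]⟩
  | cons a l ih =>
    obtain ⟨L, h1, h2, h3⟩ := ih
    obtain ⟨v, σ, b⟩ := a
    have e : sev r ((v, σ, b) :: l) = (v * (if b then r σ else (r σ)⁻¹) * v⁻¹) * sev r l := by
      simp [sev]
    have hM : sev w ((m σ).map fun p => (f v * p.1, p.2)) = f (v * r σ * v⁻¹) := by
      rw [conj, hm]; simp
    have hP : ∀ ρ, pr ψ (β ρ) ((m σ).map fun p => (f v * p.1, p.2)) =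
        Finsupp.single (π v, σ) (1 : ℤ) (1, ρ) + cs π (α ρ) (v * r σ * v⁻¹) 1 := by
      intro ρ
      rw [cs_conj _ _ _ _ (hr σ), one_mul, ← hβ]
      simp [pr, Function.comp_def, hf]
    have happ : ∀ (b : G × R → ℤ) (l l' : List (FreeGroup P × R × Bool)),
        pr ψ b (l ++ l') = pr ψ b l + pr ψ b l' := by intro b l l'; simp [pr]
    have sapp : ∀ (l l' : List (FreeGroup P × R × Bool)),
        sev w (l ++ l') = sev w l * sev w l' := by intro l l'; simp [sev]
    cases b
    · refine ⟨(((m σ).map fun p => (f v * p.1, p.2)).reverse.map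
        fun p => (p.1, p.2.1, !p.2.2)) ++ L, ?_, ?_, fun ρ => ?_⟩
      · rw [sapp, inv, hM, h1, e]; simp [mul_assoc]
      · intro p' hp'
        rcases List.mem_append.1 hp' with hp' | hp'
        · simp only [List.mem_map, List.mem_reverse] at hp'
          obtain ⟨_, ⟨p, hp, rfl⟩, rfl⟩ := hp'
          exact ⟨_, List.mem_cons_self, p, hp, by simp [hf]⟩
        · obtain ⟨q, hq, h⟩ := h2 p' hp'
          exact ⟨q, List.mem_cons_of_mem _ hq, h⟩
      · have : v * (r σ)⁻¹ * v⁻¹ = (v * r σ * v⁻¹)⁻¹ := by simp [mul_assoc]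
        have h0 : π (v * r σ * v⁻¹) = 1 := by simp [hr]
        rw [happ, prinv, hP, h3, e, if_neg (by simp), this]
        generalize v * r σ * v⁻¹ = x at h0 ⊢
        rw [cs_mul, cs_inv]
        simp [scl, h0, Finsupp.single_neg]
        ring
    · refine ⟨((m σ).map fun p => (f v * p.1, p.2)) ++ L, ?_, ?_, fun ρ => ?_⟩
      · rw [sapp, hM, h1, e]; simp [mul_assoc]
      · intro p' hp'
        rcases List.mem_append.1 hp' with hp' | hp'
        · simp only [List.mem_map] at hp'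
          obtain ⟨p, hp, rfl⟩ := hp'
          exact ⟨_, List.mem_cons_self, p, hp, by simp [hf]⟩
        · obtain ⟨q, hq, h⟩ := h2 p' hp'
          exact ⟨q, List.mem_cons_of_mem _ hq, h⟩
      · have h0 : π (v * r σ * v⁻¹) = 1 := by simp [hr]
        rw [happ, hP, h3, e, if_pos rfl]
        generalize v * r σ * v⁻¹ = x at h0 ⊢
        rw [cs_mul]
        simp [scl, h0]
        ring

end Crest.Agent.EG.MainX
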