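import Crest.Agent.EG.DefsA

/-! Row 197 (S0300): job NL, the determinant is a null Lagrangian. -/

set_option autoImplicit false

open Set MeasureTheory Polynomial

namespace Crest.Agent.EG
namespace NLx

theorem lag (n : ℕ) (M : ℝ) : ∃ c : ℕ → ℝ, ∀ p : ℝ[X], p.natDegree ≤ n →
    p.eval 0 = ∑ i ∈ Finset.range (n + 1), p.eval (M + i) * c i := by
  refine ⟨fun i => (Lagrange.basis (Finset.range (n + 1)) (fun i : ℕ => M + i) i).eval 0,
    fun p hp => ?_⟩
  have h := Lagrange.eq_interpolate (s := Finset.range (n + 1)) (v := fun i : ℕ => M + (i : ℝ))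
    (f := p) (fun a _ b _ h => by simpa using h) (by
      rw [Finset.card_range]
      exact lt_of_le_of_lt (degree_le_of_natDegree_le hp) (by exact_mod_cast Nat.lt_succ_self n))
  conv_lhs => rw [h]
  simp [Lagrange.interpolate_apply, eval_finsetSum]

variable {E : Type} [NormedAddCommGroup E] [NormedSpace ℝ E] [FiniteDimensional ℝ E]

theorem det_eval (A : E →L[ℝ] E) (l : ℝ) :
    (LinearMap.charpoly (-(A : E →ₗ[ℝ] E))).eval l = (l • (1 : E →L[ℝ] E) + A).det := by
  rw [LinearMap.eval_charpoly, ContinuousLinearMap.det]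
  congr 1
  ext x
  simp

theorem det_scale (A : E →L[ℝ] E) (l : ℝ) (hl : l ≠ 0) :
    (l • (1 : E →L[ℝ] E) + A).det = l ^ Module.finrank ℝ E * (1 + l⁻¹ • A).det := by
  rw [ContinuousLinearMap.det, ContinuousLinearMap.det, ← LinearMap.det_smul]
  congr 1
  ext x
  simp [smul_smul, hl]

theorem small [MeasurableSpace E] [BorelSpace E] (μ : Measure E) [μ.IsAddHaarMeasure] (w : E → E)
    (hw : ContDiff ℝ 1 w) (hc : HasCompactSupport w) :
    ∃ t₀ > (0 : ℝ), ∀ t, 0 < t → t ≤ t₀ →
      ∫ x in tsupport w, (1 + t • fderiv ℝ w x).det ∂μ = μ.real (tsupport w) := by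
  have hd : Differentiable ℝ w := hw.differentiable one_ne_zero
  obtain ⟨C, hC⟩ := (hw.continuous_fderiv one_ne_zero).bounded_above_of_compact_support
    (hc.fderiv ℝ)
  have C0 : 0 ≤ C := (norm_nonneg _).trans (hC 0)
  obtain ⟨δ, δ0, hδ⟩ := Metric.continuousAt_iff.1
    ((ContinuousLinearMap.continuous_det (𝕜 := ℝ) (E := E)).continuousAt (x := 1)) 1 one_pos
  have m0 : 0 < min δ 1 := lt_min δ0 one_pos
  refine ⟨min δ 1 / (C + 1), by positivity, fun t t0 ht => ?_⟩
  have htC : t * C < min δ 1 := by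
    rw [le_div_iff₀ (by positivity)] at ht; nlinarith
  have hn : ∀ x, ‖t • fderiv ℝ w x‖ ≤ t * C := fun x => by
    rw [norm_smul, Real.norm_of_nonneg t0.le]; exact mul_le_mul_of_nonneg_left (hC x) t0.le
  set f : E → E := fun x => x + t • w x with hf
  have hf' : ∀ x, HasFDerivAt f (1 + t • fderiv ℝ w x) x := fun x =>
    (hasFDerivAt_id x).add ((hd x).hasFDerivAt.const_smul t)
  have hA : ApproximatesLinearOn f ((ContinuousLinearEquiv.refl ℝ E : E ≃L[ℝ] E) : E →L[ℝ] E)
      univ (NNReal.mk (t * C) (by positivity)) := by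
    intro x _ y _
    have : f x - f y - ((ContinuousLinearEquiv.refl ℝ E : E ≃L[ℝ] E) : E →L[ℝ] E) (x - y) =
        t • (w x - w y) := by simp [hf, smul_sub]; abel
    rw [this, norm_smul, Real.norm_of_nonneg t0.le, NNReal.coe_mk, mul_assoc]
    exact mul_le_mul_of_nonneg_left (convex_univ.norm_image_sub_le_of_norm_fderiv_le
      (fun z _ => hd z) (fun z _ => hC z) (mem_univ y) (mem_univ x)) t0.le
  have hN : Subsingleton E ∨ NNReal.mk (t * C) (by positivity) <
      ‖((ContinuousLinearEquiv.refl ℝ E).symm : E →L[ℝ] E)‖₊⁻¹ := by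
    rcases subsingleton_or_nontrivial E with h | h
    · exact .inl h
    · right
      have : ‖((ContinuousLinearEquiv.refl ℝ E).symm : E →L[ℝ] E)‖₊ = 1 := by simp
      rw [this, inv_one, ← NNReal.coe_lt_coe]
      exact htC.trans_le (min_le_right _ _)
  have inj : Function.Injective f := injOn_univ.1 (hA.injOn hN)
  have out : ∀ x ∉ tsupport w, f x = x := fun x hx => by
    simp [hf, image_eq_zero_of_notMem_tsupport hx]
  have him : f '' tsupport w = tsupport w := by
    ext y
    constructor
    · rintro ⟨x, hx, rfl⟩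
      by_contra h
      exact h (by rw [inj (out _ h)]; exact hx)
    · intro hy
      obtain ⟨x, rfl⟩ := hA.surjective hN y
      refine ⟨x, ?_, rfl⟩
      by_contra h
      exact h (by rwa [out x h] at hy)
  have := integral_image_eq_integral_abs_det_fderiv_smul μ (isClosed_tsupport w).measurableSet
    (fun x _ => (hf' x).hasFDerivWithinAt) inj.injOn (fun _ => (1 : ℝ))
  rw [him] at this
  simp only [integral_const, smul_eq_mul, mul_one, MeasurableSet.univ, measureReal_restrict_apply,
    univ_inter] at this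
  rw [this]
  refine integral_congr_ae (.of_forall fun x => (abs_of_pos ?_).symm)
  have := hδ (x := 1 + t • fderiv ℝ w x) (by
    rw [dist_eq_norm, add_sub_cancel_left]
    exact (hn x).trans_lt (htC.trans_le (min_le_left _ _)))
  have h1 : (1 : E →L[ℝ] E).det = 1 := by simp [ContinuousLinearMap.det]
  rw [h1, Real.dist_eq, abs_lt] at this
  linarith [this.1]

end NLx

open NLx in
theorem jobNL : JobNL := by
  intro E _ _ _ _ _ _ μ _ w hw hc
  obtain ⟨t₀, t0, ht⟩ := small μ w hw hc
  obtain ⟨c, hc'⟩ := lag (Module.finrank ℝ E) t₀⁻¹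
  have n0 : Module.finrank ℝ E ≠ 0 := Module.finrank_pos.ne'
  have cf := hw.continuous_fderiv one_ne_zero
  have lp : ∀ i : ℕ, 0 < t₀⁻¹ + i := fun i => by positivity
  have h0 : (0 : E →L[ℝ] E).det = 0 := by
    simp [ContinuousLinearMap.det]
  rw [← setIntegral_eq_integral_of_forall_compl_eq_zero (s := tsupport w) fun x hx => by
    rw [image_eq_zero_of_notMem_tsupport fun h => hx (tsupport_fderiv_subset ℝ h), h0]]
  have e1 : ∀ x, (fderiv ℝ w x).det = ∑ i ∈ Finset.range (Module.finrank ℝ E + 1),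
      ((t₀⁻¹ + i) ^ Module.finrank ℝ E * c i) * (1 + (t₀⁻¹ + i)⁻¹ • fderiv ℝ w x).det := fun x => by
    have := hc' _ (LinearMap.charpoly_natDegree (-(fderiv ℝ w x : E →ₗ[ℝ] E))).le
    simp only [det_eval, zero_smul, zero_add] at this
    rw [this]
    exact Finset.sum_congr rfl fun i _ => by rw [det_scale _ _ (lp i).ne']; ring
  simp only [e1]
  have ci : ∀ t : ℝ, Continuous fun x => (1 + t • fderiv ℝ w x).det := fun t =>
    ContinuousLinearMap.continuous_det.comp (continuous_const.add (cf.const_smul t))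
  rw [integral_finsetSum _ fun i _ => Integrable.const_mul
    (ContinuousOn.integrableOn_compact hc (ci _).continuousOn) _]
  have e2 := hc' (X ^ Module.finrank ℝ E) (by simp)
  simp only [eval_pow, eval_X, zero_pow n0] at e2
  rw [Finset.sum_congr rfl fun i _ => by
    rw [integral_const_mul, ht _ (inv_pos.2 (lp i)) (by
      rw [inv_le_comm₀ (lp i) t0]; exact le_add_of_nonneg_right (Nat.cast_nonneg i))],
    ← Finset.sum_mul, ← e2, zero_mul]

end Crest.Agent.EG
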