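import Crest.Agent.EG.DefsA

/-! Row 197: the job RES (cohomology from an acyclic presentation complex). -/

set_option autoImplicit false

open CategoryTheory Limits

namespace Crest.Agent.EG

namespace RESx

section
variable (k G : Type) [CommRing k] [Group G]

/-- the free permutation representation -/
noncomputable def rho (T : Type) : Representation k G (G × T →₀ k) where
  toFun g := Finsupp.lmapDomain k k fun p => (g * p.1, p.2)
  map_one' := by ext; simp
  map_mul' a b := by ext; simp [mul_assoc]

/-- the free representation -/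
noncomputable abbrev FR (T : Type) : Rep k G := Rep.of (rho k G T)

variable {k G}

theorem rho_single {T : Type} (g h : G) (t : T) (n : k) :
    rho k G T g (Finsupp.single (h, t) n) = Finsupp.single (g * h, t) n := by
  simp [rho]

/-- maps out of a free representation -/
noncomputable def lf {T : Type} (A : Rep k G) (y : T → A) : FR k G T ⟶ A :=
  Rep.ofHom (σ := A.ρ) ⟨Finsupp.linearCombination k fun p => A.ρ p.1 (y p.2), fun g => by
    refine Finsupp.lhom_ext' fun p => LinearMap.ext_ring ?_
    obtain ⟨h, t⟩ := p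
    simp [rho_single]⟩

theorem lf_single {T : Type} (A : Rep k G) (y : T → A) (g : G) (t : T) :
    (lf A y).hom (Finsupp.single (g, t) 1) = A.ρ g (y t) := by
  change Finsupp.linearCombination k (fun p : G × T => A.ρ p.1 (y p.2)) _ = _
  simp

theorem fr_ext {T : Type} {A : Rep k G} {f f' : FR k G T ⟶ A}
    (h : ∀ t, f.hom (Finsupp.single (1, t) 1) = f'.hom (Finsupp.single (1, t) 1)) : f = f' := by
  refine Rep.hom_ext (Representation.IntertwiningMap.ext ?_)
  refine Finsupp.lhom_ext' fun p => LinearMap.ext_ring ?_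
  obtain ⟨g, t⟩ := p
  have h1 := Rep.hom_comm_apply f g (Finsupp.single (1, t) 1)
  have h2 := Rep.hom_comm_apply f' g (Finsupp.single (1, t) 1)
  have h3 : (FR k G T).ρ g (Finsupp.single (1, t) 1) = Finsupp.single (g, t) 1 := by
    simpa using rho_single g 1 t (1 : k)
  rw [h, ← h2, h3] at h1
  exact h1

instance proj (T : Type) : Projective (FR k G T) where
  factors {E X} f e he := by
    choose y hy using fun t => (Rep.epi_iff_surjective e).1 he (f.hom (Finsupp.single (1, t) 1))
    exact ⟨lf E y, fr_ext fun t => by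
      rw [Rep.hom_comp, Representation.IntertwiningMap.comp_apply, lf_single]; simp [hy]⟩

theorem exact_of (S : ShortComplex (Rep.{0} k G)) (h : ∀ x, S.g.hom x = 0 → ∃ y, S.f.hom y = x) :
    S.Exact := by
  apply (forget₂ _ (ModuleCat k)).reflects_exact_of_faithful
  rw [ShortComplex.moduleCat_exact_iff]
  exact h

end

variable {G : Type} [Group G]

variable {P R : Type} (π : FreeGroup P →* G) (r : R → FreeGroup P)

/-- the differentials -/
noncomputable def D1 : FR ℤ G P ⟶ FR ℤ G Unit :=
  lf _ fun s => Finsupp.single (π (FreeGroup.of s), ()) 1 - Finsupp.single (1, ()) 1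

noncomputable def D2 : FR ℤ G R ⟶ FR ℤ G P := lf _ fun ρ => fx π (r ρ) 1

noncomputable def aug : FR ℤ G Unit ⟶ Rep.trivial ℤ G ℤ := lf _ fun _ => (1 : ℤ)

theorem D1_eq (z : G × P →₀ ℤ) :
    (D1 π).hom z = Finsupp.mapDomain (fun g => (g, ())) (d1 π z) := by
  have : (D1 π).hom.toLinearMap = Finsupp.lmapDomain ℤ ℤ (fun g => (g, ())) ∘ₗ d1 π := by
    refine Finsupp.lhom_ext' fun p => LinearMap.ext_ring ?_
    obtain ⟨g, s⟩ := p
    have := lf_single (FR ℤ G Unit) (fun s => Finsupp.single (π (FreeGroup.of s), ()) 1 -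
      Finsupp.single (1, ()) 1) g s
    refine this.trans ?_
    change rho ℤ G Unit g _ = _
    simp [d1, Finsupp.mapDomain_sub, rho_single]
  exact DFunLike.congr_fun this z

theorem D2_eq (c : G × R →₀ ℤ) : (D2 π r).hom c = d2 π r c := by
  have : (D2 π r).hom.toLinearMap = d2 π r := by
    refine Finsupp.lhom_ext' fun p => LinearMap.ext_ring ?_
    obtain ⟨g, s⟩ := p
    refine (lf_single (FR ℤ G P) (fun ρ => fx π (r ρ) 1) g s).trans ?_
    have h1 := map_cs π (fun g s => Finsupp.single (g, s) (1 : ℤ)) (rho ℤ G P g).toAddMonoidHom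
      (r s) 1
    have h2 := cs_shift π (fun g s => Finsupp.single (g, s) (1 : ℤ)) g (r s) 1
    simp only [LinearMap.toAddMonoidHom_coe, rho_single, mul_one] at h1 h2
    simp only [d2, fx, LinearMap.comp_apply, Finsupp.lsingle_apply,
      Finsupp.linearCombination_single, one_smul, h2]
    exact h1
  exact DFunLike.congr_fun this c

theorem aug_single (g : G) (n : ℤ) : (aug (G := G)).hom (Finsupp.single (g, ()) n) = n := by
  rw [← Finsupp.smul_single_one, map_smul, aug, lf_single]; simp

/-- index types -/
def Ty (P R : Type) : ℕ → Type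
  | 0 => Unit
  | 1 => P
  | 2 => R
  | _ + 3 => Empty

/-- differentials -/
noncomputable def dd : ∀ n, FR ℤ G (Ty P R (n + 1)) ⟶ FR ℤ G (Ty P R n)
  | 0 => D1 π
  | 1 => D2 π r
  | _ + 2 => 0

variable {π r}

theorem D21 (h : Acyc π r) : D2 π r ≫ D1 π = 0 := fr_ext fun ρ => by
  rw [Rep.hom_comp, Representation.IntertwiningMap.comp_apply, D1_eq, D2_eq]
  simp [d2, d1_fx, h.rel]

/-- the complex -/
noncomputable def cx (h : Acyc π r) : ChainComplex (Rep ℤ G) ℕ :=
  ChainComplex.of (fun n => FR ℤ G (Ty P R n)) (dd π r) fun n => by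
    match n with
    | 0 => exact D21 h
    | n + 1 => exact zero_comp

theorem cx_d (h : Acyc π r) (n : ℕ) : (cx h).d (n + 1) n = dd π r n :=
  ChainComplex.of_d (fun n => FR ℤ G (Ty P R n)) (dd π r) n

theorem D1aug : D1 π ≫ aug = 0 := fr_ext fun s => by
  rw [Rep.hom_comp, Representation.IntertwiningMap.comp_apply, D1, lf_single, map_one,
    Module.End.one_apply, map_sub, aug_single, aug_single]
  simp

theorem ex0 (h : Acyc π r) (x : G × Unit →₀ ℤ) (hx : (aug (G := G)).hom x = 0) :
    ∃ y, (D1 π).hom y = x := by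
  have : ∀ x : G × Unit →₀ ℤ, ∃ y, (D1 π).hom y =
      x - Finsupp.single (1, ()) ((aug (G := G)).hom x) := by
    intro x
    induction x using Finsupp.induction_linear with
    | zero => exact ⟨0, by simp⟩
    | add a b ha hb =>
      obtain ⟨y, hy⟩ := ha
      obtain ⟨z, hz⟩ := hb
      refine ⟨y + z, ?_⟩
      rw [map_add, hy, hz, map_add, Finsupp.single_add]; abel
    | single p n =>
      obtain ⟨g, ⟨⟩⟩ := p
      obtain ⟨w, rfl⟩ := h.surj g
      refine ⟨n • fx π w 1, ?_⟩
      rw [D1_eq, aug_single, map_smul, d1_fx]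
      simp [Finsupp.mapDomain_sub, smul_sub]
  simpa [hx] using this x

/-- the resolution -/
noncomputable def res (h : Acyc π r) : ProjectiveResolution (Rep.trivial ℤ G ℤ) where
  complex := cx h
  projective n := proj _
  π := ((cx h).toSingle₀Equiv _).symm ⟨aug, by rw [cx_d]; exact D1aug⟩
  quasiIso := ⟨fun m => by
    match m with
    | 0 =>
      rw [ChainComplex.quasiIsoAt₀_iff, ShortComplex.quasiIso_iff_of_zeros' _ rfl rfl rfl]
      constructor
      · refine exact_of _ fun x hx => ?_
        have : (aug (G := G)).hom x = 0 := by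
          simpa [ChainComplex.toSingle₀Equiv] using! hx
        obtain ⟨y, hy⟩ := ex0 h x this
        exact ⟨y, by simpa [cx, dd] using! hy⟩
      · rw [Rep.epi_iff_surjective]
        intro x
        refine ⟨Finsupp.single (1, ()) x, ?_⟩
        simpa [ChainComplex.toSingle₀Equiv] using! aug_single (G := G) 1 x
    | m + 1 =>
      rw [quasiIsoAt_iff_exactAt' (hL := ChainComplex.exactAt_succ_single_obj ..),
        HomologicalComplex.exactAt_iff' _ (m + 2) (m + 1) m (by simp) (by simp)]
      refine exact_of _ fun x hx => ?_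
      change ((cx h).d (m + 1) m).hom x = 0 at hx
      change ∃ y, ((cx h).d (m + 1 + 1) (m + 1)).hom y = x
      rw [cx_d] at hx ⊢
      match m with
      | 0 =>
        have h1 : Finsupp.mapDomain (fun g => (g, ())) (d1 π x) = 0 := (D1_eq π x).symm.trans hx
        have h2 : d1 π x = 0 := Finsupp.mapDomain_injective
          (fun a b e => (Prod.mk.inj e).1) (h1.trans Finsupp.mapDomain_zero.symm)
        obtain ⟨c, hc⟩ := h.ex x h2
        exact ⟨c, (D2_eq π r c).trans hc⟩
      | 1 => exact ⟨0, (map_zero _).trans (h.inj x ((D2_eq π r x).symm.trans hx)).symm⟩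
      | m + 2 => exact ⟨0, Finsupp.ext fun p => p.2.elim⟩⟩

end RESx

open RESx

theorem jobRES : JobRES := by
  intro G P R _ _ _ π r h
  refine ⟨fun A n hn => ?_, fun hlt => ⟨Rep.trivial ℤ G ℤ, fun hz => ?_⟩⟩
  · refine IsZero.of_iso ?_ (groupCohomologyIso A n (res h))
    rw [← HomologicalComplex.exactAt_iff_isZero_homology, HomologicalComplex.exactAt_iff]
    refine ShortComplex.exact_of_isZero_X₂ _ ?_
    obtain ⟨m, rfl⟩ := Nat.exists_eq_add_of_le' hn
    have : Subsingleton (FR ℤ G Empty ⟶ A) := ⟨fun f g => fr_ext fun t => t.elim⟩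
    exact @ModuleCat.isZero_of_subsingleton _ _ _ this
  · have h1 := hz.of_iso (groupCohomologyIso _ 2 (res h)).symm
    rw [← HomologicalComplex.exactAt_iff_isZero_homology,
      HomologicalComplex.exactAt_iff' _ 1 2 3 (by simp) (by simp),
      ShortComplex.moduleCat_exact_iff] at h1
    have h2 : ∀ f : FR ℤ G R ⟶ Rep.trivial ℤ G ℤ, ∃ f', D2 π r ≫ f' = f := fun f => by
      have : Subsingleton (FR ℤ G Empty ⟶ Rep.trivial ℤ G ℤ) :=
        ⟨fun f g => fr_ext fun t => t.elim⟩
      obtain ⟨f', hf'⟩ := h1 f (this.elim _ _)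
      refine ⟨f', ?_⟩
      rw [← hf']
      exact congrArg (· ≫ f') (cx_d h 1).symm
    let L : (P → ℤ) →ₗ[ℤ] (R → ℤ) := LinearMap.pi fun ρ =>
      (Finsupp.lsum ℤ fun p : G × P => LinearMap.toSpanSingleton ℤ _ (LinearMap.proj p.2))
        (fx π (r ρ) 1)
    have hL : Function.Surjective L := fun y => by
      obtain ⟨f', hf'⟩ := h2 (lf _ y)
      refine ⟨fun s => f'.hom (Finsupp.single (1, s) 1), funext fun ρ => ?_⟩
      have e1 : f'.hom ((D2 π r).hom (Finsupp.single (1, ρ) 1)) =
          (lf (Rep.trivial ℤ G ℤ) y).hom (Finsupp.single (1, ρ) 1) := by rw [← hf']; rfl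
      rw [D2, lf_single, lf_single, map_one, map_one, Module.End.one_apply,
        Module.End.one_apply] at e1
      rw [← e1]
      simp only [L, LinearMap.pi_apply]
      generalize fx π (r ρ) 1 = z
      induction z using Finsupp.induction_linear with
      | zero => simp
      | add a b ha hb => simp only [map_add, LinearMap.add_apply, ha, hb]
      | single p n =>
        obtain ⟨g, s⟩ := p
        have h3 := Rep.hom_comm_apply f' g (Finsupp.single (1, s) n)
        have h4 : (FR ℤ G P).ρ g (Finsupp.single (1, s) n) = Finsupp.single (g, s) n := by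
          simpa using rho_single g 1 s n
        rw [h4] at h3
        rw [h3, ← Finsupp.smul_single_one (1, s), map_smul]
        simp
    have := LinearMap.finrank_le_finrank_of_surjective hL
    simp at this
    omega

end Crest.Agent.EG
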