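import Crest.Agent.EG.DefsR

/-! Row 197 (S0300): job RF (right-angled Artin groups are residually finite). -/

set_option autoImplicit false

open Set

namespace Crest.Agent.EG

namespace RFa
variable {G : Type} [Group G]

/-- backward runs -/
def run (K : Set G) (a h : G) : Set ℕ := {m | ∀ i ≤ m, h * a⁻¹ ^ i ∈ K}

open Classical in
/-- the closing-up step -/
noncomputable def cc (K : Set G) (a h : G) : G := if h * a ∈ K then a else a⁻¹ ^ sSup (run K a h)

theorem bdd {K : Set G} (hK : K.Finite) {a : G} (ha : Function.Injective fun n : ℕ => a⁻¹ ^ n)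
    (h : G) : BddAbove (run K a h) := by
  have hf : ((fun n : ℕ => h * a⁻¹ ^ n) ⁻¹' K).Finite :=
    hK.preimage fun x _ y _ e => ha (mul_left_cancel e)
  exact (hf.subset (t := run K a h) fun m hm => hm m le_rfl).bddAbove

theorem sup_mem {K : Set G} (hK : K.Finite) {a : G} (ha : Function.Injective fun n : ℕ => a⁻¹ ^ n)
    {h : G} (hh : h ∈ K) : sSup (run K a h) ∈ run K a h :=
  Nat.sSup_mem ⟨0, fun i hi => by obtain rfl : i = 0 := by omega
                                  simpa using hh⟩ (bdd hK ha h)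

theorem sup_not {K : Set G} (hK : K.Finite) {a : G} (ha : Function.Injective fun n : ℕ => a⁻¹ ^ n)
    {h : G} (hh : h ∈ K) : h * a⁻¹ ^ (sSup (run K a h) + 1) ∉ K := by
  intro hc
  have : sSup (run K a h) + 1 ∈ run K a h := fun i hi => by
    rcases hi.lt_or_eq with hi | rfl
    · exact sup_mem hK ha hh i (by omega)
    · exact hc
  have := le_csSup (bdd hK ha h) this
  omega

theorem cc_mem {K : Set G} (hK : K.Finite) {a : G} (ha : Function.Injective fun n : ℕ => a⁻¹ ^ n)
    {h : G} (hh : h ∈ K) : h * cc K a h ∈ K := by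
  unfold cc
  split_ifs with h1
  · exact h1
  · exact sup_mem hK ha hh _ le_rfl

theorem cc_inj {K : Set G} (hK : K.Finite) {a : G} (ha : Function.Injective fun n : ℕ => a⁻¹ ^ n)
    {h h' : G} (hh : h ∈ K) (hh' : h' ∈ K) (e : h * cc K a h = h' * cc K a h') : h = h' := by
  have mixed : ∀ {h h' : G}, h ∈ K → h' ∈ K → h * a = h' * a⁻¹ ^ sSup (run K a h') → False := by
    intro h h' hh hh' e
    apply sup_not hK ha hh'
    rw [pow_succ, ← mul_assoc, ← e]; simpa using hh
  have both : ∀ {h h' : G}, h' ∈ K → h * a ∉ K →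
      h * a⁻¹ ^ sSup (run K a h) = h' * a⁻¹ ^ sSup (run K a h') →
      sSup (run K a h') ≤ sSup (run K a h) := by
    intro h h' hh' h1 e
    by_contra hlt
    obtain ⟨d, hd⟩ : ∃ d, sSup (run K a h') = d + 1 + sSup (run K a h) :=
      ⟨sSup (run K a h') - sSup (run K a h) - 1, by omega⟩
    have h2 := sup_mem hK ha hh' d (by omega)
    rw [hd, pow_add, ← mul_assoc] at e
    have e' := mul_right_cancel e
    apply h1
    rw [e', pow_succ]; simpa [mul_assoc] using h2
  unfold cc at e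
  split_ifs at e with h1 h2 h2
  · exact mul_right_cancel e
  · exact (mixed hh hh' e).elim
  · exact (mixed hh' hh e.symm).elim
  · have := le_antisymm (both hh' h1 e) (both hh h2 e.symm)
    rw [this] at e
    exact mul_right_cancel e

/-- local convexity -/
def LC (K : Set G) (a b : G) : Prop :=
  ∀ h s t, (s = a ∨ s = a⁻¹) → (t = b ∨ t = b⁻¹) → h ∈ K → h * s ∈ K → h * t ∈ K → h * s * t ∈ K

theorem half {K : Set G} {a b : G} (hc : Commute a b) (hL : LC K a b) {h t : G}
    (ht : t = b ∨ t = b⁻¹) (hh : h ∈ K) (hht : h * t ∈ K) :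
    (h * a ∈ K → h * t * a ∈ K) ∧ run K a h ⊆ run K a (h * t) := by
  have hat : Commute a t := by
    rcases ht with rfl | rfl
    · exact hc
    · exact hc.inv_right
  refine ⟨fun h1 => ?_, fun m hm i hi => ?_⟩
  · have := hL h a t (.inl rfl) ht hh h1 hht
    rwa [mul_assoc, hat.eq, ← mul_assoc] at this
  · rw [mul_assoc, ← (hat.inv_left.pow_left i).eq, ← mul_assoc]
    induction i with
    | zero => simpa using hht
    | succ i ih =>
      have := hL (h * a⁻¹ ^ i) a⁻¹ t (.inr rfl) ht (hm i (by omega))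
        (by rw [mul_assoc, ← pow_succ]; exact hm _ hi) (ih (by omega))
      rwa [mul_assoc h, ← pow_succ] at this

theorem cc_step {K : Set G} {a b : G} (hc : Commute a b) (hL : LC K a b) {h t : G}
    (ht : t = b ∨ t = b⁻¹) (hh : h ∈ K) (hht : h * t ∈ K) : cc K a (h * t) = cc K a h := by
  have h1 := half hc hL ht hh hht
  have h2 := half hc hL (h := h * t) (t := t⁻¹) (by rcases ht with rfl | rfl <;> simp) hht
    (by simpa using hh)
  rw [mul_inv_cancel_right] at h2
  have e : run K a (h * t) = run K a h := Subset.antisymm h2.2 h1.2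
  classical
  unfold cc
  rw [e]
  by_cases h3 : h * a ∈ K
  · rw [if_pos h3, if_pos (h1.1 h3)]
  · rw [if_neg h3, if_neg fun h4 => h3 (h2.1 h4)]

theorem cc_cc {K : Set G} (hK : K.Finite) {a b : G}
    (hb : Function.Injective fun n : ℕ => b⁻¹ ^ n) (hc : Commute a b) (hL : LC K a b) {h : G}
    (hh : h ∈ K) : cc K a (h * cc K b h) = cc K a h := by
  have key : ∀ i ≤ sSup (run K b h), cc K a (h * b⁻¹ ^ i) = cc K a h := by
    intro i hi
    induction i with
    | zero => simp
    | succ i ih =>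
      rw [pow_succ, ← mul_assoc, cc_step hc hL (.inr rfl) (sup_mem hK hb hh i (by omega))
        (by rw [mul_assoc, ← pow_succ]; exact sup_mem hK hb hh _ hi), ih (by omega)]
  by_cases h1 : h * b ∈ K
  · have : cc K b h = b := by simp [cc, h1]
    rw [this]
    exact cc_step hc hL (.inl rfl) hh h1
  · have : cc K b h = b⁻¹ ^ sSup (run K b h) := by simp [cc, h1]
    rw [this]
    exact key _ le_rfl

theorem cc_comm (K : Set G) {a b : G} (hc : Commute a b) (h h' : G) :
    Commute (cc K a h) (cc K b h') := by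
  unfold cc
  split_ifs
  · exact hc
  · exact hc.inv_right.pow_right _
  · exact hc.inv_left.pow_left _
  · exact (hc.inv_inv.pow_left _).pow_right _

/-- the closing-up permutation -/
noncomputable def sig {K : Set G} (hK : K.Finite) {a : G}
    (ha : Function.Injective fun n : ℕ => a⁻¹ ^ n) : Equiv.Perm K :=
  haveI := hK.to_subtype
  Equiv.ofBijective (fun h : K => (⟨h * cc K a h, cc_mem hK ha h.2⟩ : K))
    (Finite.injective_iff_bijective.1 fun h h' e =>
      Subtype.ext (cc_inj hK ha h.2 h'.2 (congrArg Subtype.val e)))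

theorem sig_val {K : Set G} (hK : K.Finite) {a : G}
    (ha : Function.Injective fun n : ℕ => a⁻¹ ^ n) (h : K) : (sig hK ha h : G) = h * cc K a h := rfl

theorem sig_comm {K : Set G} (hK : K.Finite) {a b : G}
    (ha : Function.Injective fun n : ℕ => a⁻¹ ^ n) (hb : Function.Injective fun n : ℕ => b⁻¹ ^ n)
    (hc : Commute a b) (hL : LC K a b) (hL' : LC K b a) : Commute (sig hK ha) (sig hK hb) := by
  ext h
  simp only [Equiv.Perm.coe_mul, Function.comp_apply, sig_val]
  rw [cc_cc hK hb hc hL h.2, cc_cc hK ha hc.symm hL' h.2, mul_assoc, mul_assoc,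
    (cc_comm K hc h h).eq]

theorem sig_of_mem {K : Set G} (hK : K.Finite) {a : G}
    (ha : Function.Injective fun n : ℕ => a⁻¹ ^ n) {h : G} (hh : h ∈ K) (h1 : h * a ∈ K) :
    sig hK ha ⟨h, hh⟩ = ⟨h * a, h1⟩ := by
  apply Subtype.ext
  rw [sig_val]
  simp [cc, h1]

variable {V : Type} {Γ : Gr V} {ℓ : Γ.A → ℕ}

theorem tri (hl : Γ.Len ℓ) (x : Γ.A) : ∀ y, ℓ y ≤ ℓ (y * x) + ℓ x := by
  induction hn : ℓ x using Nat.strong_induction_on generalizing x with
  | _ n ih =>
    intro y
    by_cases hx : x = 1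
    · subst hx; simp
    obtain ⟨t, ht⟩ := hl.desc x hx
    have h1 := ih _ (hn ▸ ht) (x * Γ.lt t) rfl y
    have h2 := hl.step (y * x) t
    rw [← mul_assoc] at h1
    omega

theorem ball_fin [Finite V] (hl : Γ.Len ℓ) (n : ℕ) : {h | ℓ h ≤ n}.Finite := by
  induction n with
  | zero =>
    refine (finite_singleton (1 : Γ.A)).subset fun h hh => hl.eq_one h ?_
    simpa using hh
  | succ n ih =>
    refine ((finite_singleton (1 : Γ.A)).union (finite_iUnion fun t : V × Bool =>
      ih.image (· * (Γ.lt t)⁻¹))).subset fun h hh => ?_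
    by_cases hx : h = 1
    · exact .inl hx
    obtain ⟨t, ht⟩ := hl.desc h hx
    refine .inr (mem_iUnion.2 ⟨t, h * Γ.lt t, ?_, by simp⟩)
    simp only [mem_ofPred_eq] at hh ⊢
    omega

theorem gen_inj (a : V) : Function.Injective fun n : ℕ => (Γ.gen a)⁻¹ ^ n := by
  intro m n e
  have := congrArg (fun x => Multiplicative.toAdd (Γ.ht x)) e
  simpa using this

theorem lc (hl : Γ.Len ℓ) (g : Γ.A) {a b : V} (hab : Γ.adj a b) :
    LC {h | ℓ h + ℓ (g⁻¹ * h) ≤ ℓ g} (Γ.gen a) (Γ.gen b) := by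
  intro h s t hs ht hh hhs hht
  obtain ⟨ε, rfl⟩ : ∃ ε, s = Γ.lt (a, ε) := by
    rcases hs with rfl | rfl
    · exact ⟨true, rfl⟩
    · exact ⟨false, rfl⟩
  obtain ⟨δ, rfl⟩ : ∃ δ, t = Γ.lt (b, δ) := by
    rcases ht with rfl | rfl
    · exact ⟨true, rfl⟩
    · exact ⟨false, rfl⟩
  have hne : (a, ε) ≠ (b, δ) := fun e => Γ.ne a b hab (by rw [(Prod.mk.inj e).1])
  have hc : Commute (Γ.lt (a, ε)) (Γ.lt (b, δ)) := by
    have := Γ.gen_comm hab
    cases ε <;> cases δ <;> simp [Gr.lt, this]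
  simp only [mem_ofPred_eq] at hh hhs hht ⊢
  have T : ∀ x, ℓ g ≤ ℓ x + ℓ (g⁻¹ * x) := fun x => by simpa using tri hl (g⁻¹ * x) g
  have t0 := T h
  have t1 := T (h * Γ.lt (a, ε))
  have t2 := T (h * Γ.lt (b, δ))
  have s1 := hl.step h (a, ε)
  have s2 := hl.step h (b, δ)
  have s3 := hl.step (g⁻¹ * h) (a, ε)
  have s4 := hl.step (g⁻¹ * h) (b, δ)
  have s5 := hl.step (h * Γ.lt (a, ε)) (b, δ)
  have s6 := hl.step (h * Γ.lt (b, δ)) (a, ε)
  have s7 := hl.step (g⁻¹ * h * Γ.lt (a, ε)) (b, δ)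
  have s8 := hl.step (g⁻¹ * h * Γ.lt (b, δ)) (a, ε)
  have w1 := fun p q => (hl.two h _ _ hne p q).2
  have w2 := fun p q => (hl.two (g⁻¹ * h) _ _ hne p q).2
  simp only [mul_assoc, ← hc.eq] at *
  by_cases p1 : ℓ (h * Γ.lt (a, ε)) < ℓ h <;> by_cases p2 : ℓ (h * Γ.lt (b, δ)) < ℓ h
  · have := w1 p1 p2; omega
  · omega
  · omega
  · have := w2 (by omega) (by omega); omega

end RFa

open RFa in
theorem jobRF : JobRF := by
  intro V _ Γ ℓ hl
  refine Group.residuallyFinite_of_forall_exists_finite_monoidHom.{0} fun g hg => ?_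
  let K : Set Γ.A := {h | ℓ h + ℓ (g⁻¹ * h) ≤ ℓ g}
  have hK : K.Finite := (ball_fin hl (ℓ g)).subset fun h hh => by
    simp only [K, mem_ofPred_eq] at hh ⊢; omega
  have := hK.to_subtype
  let ρ : Γ.A →* Equiv.Perm K := Γ.lift (fun a => (sig hK (gen_inj a))⁻¹) fun a b hab =>
    (sig_comm hK _ _ (Γ.gen_comm hab) (lc hl g hab) (lc hl g (Γ.symm _ _ hab))).inv_inv
  have h1 : (1 : Γ.A) ∈ K := by
    have := tri hl g g⁻¹
    simp only [K, mem_ofPred_eq, mul_one, inv_mul_cancel, hl.one] at this ⊢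
    omega
  have hgK : g ∈ K := by simp [K, hl.one]
  have key : ∀ n h (hh : h ∈ K), ℓ h = n → ρ h ⟨h, hh⟩ = ⟨1, h1⟩ := by
    intro n
    induction n using Nat.strong_induction_on with
    | _ n ih =>
      intro h hh hn
      by_cases hx : h = 1
      · subst hx; simp
      obtain ⟨⟨a, ε⟩, ht⟩ := hl.desc h hx
      have hht : h * Γ.lt (a, ε) ∈ K := by
        have := hl.step (g⁻¹ * h) (a, ε)
        simp only [K, mem_ofPred_eq, mul_assoc] at hh this ⊢
        omega
      have := ih _ (hn ▸ ht) _ hht rfl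
      rw [map_mul, Equiv.Perm.mul_apply] at this
      rw [← this]
      congr 1
      cases ε
      · have e : ρ (Γ.lt (a, false)) = sig hK (gen_inj a) := by simp [Gr.lt, ρ]
        rw [e, sig_of_mem hK _ hht (by simpa [Gr.lt] using hh)]
        simp [Gr.lt]
      · have e : ρ (Γ.lt (a, true)) = (sig hK (gen_inj a))⁻¹ := by simp [Gr.lt, ρ]
        rw [e, Equiv.Perm.eq_inv_iff_eq]
        exact sig_of_mem hK _ hh hht
  refine ⟨Equiv.Perm K, inferInstance, inferInstance, ρ, fun e => hg ?_⟩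
  have := key _ g hgK rfl
  rw [e] at this
  exact congrArg Subtype.val this

end Crest.Agent.EG
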