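import Crest.Agent.EG.DefsT

/-! Row 197, job SC: closed edge paths of a simply connected 2-complex are products of relators. -/

set_option autoImplicit false

open Set Topology Filter unitInterval

namespace Crest.Agent.EG

namespace SCx

theorem circ_surj {z : ℂ} (hz : ‖z‖ = 1) : ∃ θ : I, circ θ = z := by
  have hp := Real.two_pi_pos
  have h1 := toIcoMod_mem_Ico' hp z.arg
  refine ⟨⟨toIcoMod hp 0 z.arg / (2 * Real.pi), div_nonneg h1.1 hp.le,
    (div_le_one hp).2 h1.2.le⟩, ?_⟩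
  have e : (2 * Real.pi * ((toIcoMod hp 0 z.arg / (2 * Real.pi) : ℝ) : ℂ) * Complex.I : ℂ) =
      z.arg * Complex.I - (toIcoDiv hp 0 z.arg : ℤ) * (2 * Real.pi * Complex.I) := by
    have : (Real.pi : ℂ) ≠ 0 := by exact_mod_cast Real.pi_ne_zero
    rw [toIcoMod, zsmul_eq_mul]; push_cast; field_simp
  have h2 := Complex.norm_mul_exp_arg_mul_I z
  rw [hz] at h2
  simp only [circ, ContinuousMap.coe_mk]
  rw [e, Complex.exp_sub, Complex.exp_int_mul_two_pi_mul_I]
  simpa using h2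

theorem circ_eq {θ θ' : I} (h : circ θ = circ θ') :
    θ = θ' ∨ ((θ = 0 ∨ θ = 1) ∧ (θ' = 0 ∨ θ' = 1)) := by
  obtain ⟨n, hn⟩ := Complex.exp_eq_exp_iff_exists_int.1 h
  have hp : (2 * Real.pi * Complex.I : ℂ) ≠ 0 := Complex.two_pi_I_ne_zero
  have e : ((θ : ℝ) : ℂ) = (θ' : ℝ) + n := mul_right_cancel₀ hp (by linear_combination hn)
  have e' : (θ : ℝ) = θ' + n := by exact_mod_cast e
  have a := θ.2.1; have b := θ.2.2; have c := θ'.2.1; have d := θ'.2.2
  have n1 : (n : ℝ) ≤ 1 := by linarith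
  have n2 : (-1 : ℝ) ≤ n := by linarith
  have n1' : n ≤ 1 := by exact_mod_cast n1
  have n2' : -1 ≤ n := by exact_mod_cast n2
  interval_cases n
  · push_cast at e'
    exact .inr ⟨.inl (Subtype.ext (show (θ : ℝ) = 0 by linarith)),
      .inr (Subtype.ext (show (θ' : ℝ) = 1 by linarith))⟩
  · exact .inl (Subtype.ext (by simpa using e'))
  · push_cast at e'
    exact .inr ⟨.inr (Subtype.ext (show (θ : ℝ) = 1 by linarith)),
      .inl (Subtype.ext (show (θ' : ℝ) = 0 by linarith))⟩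

theorem inv_swap {G : Type} [Group G] {a b c d : G} (h : a⁻¹ * b = c⁻¹ * d) :
    b⁻¹ * a = d⁻¹ * c := by simpa using congrArg Inv.inv h

theorem norm_dir {z : ℂ} (hz : z ≠ 0) : ‖z / ‖z‖‖ = 1 := by
  simp [norm_ne_zero_iff.2 hz]

theorem cont_dir : ContinuousOn (fun z : ℂ => z / ‖z‖) {0}ᶜ :=
  continuousOn_id.div (by fun_prop) fun z hz => by simpa using hz

open Classical in
/-- an angle of `z` -/
noncomputable def ang (z : ℂ) : I := if h : z ≠ 0 then (circ_surj (norm_dir h)).choose else 0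

theorem circ_ang {z : ℂ} (h : z ≠ 0) : circ (ang z) = z / ‖z‖ := by
  rw [ang, dif_pos h]; exact (circ_surj (norm_dir h)).choose_spec

theorem ev_ang {Γ : Type} (Q : I → Γ) (hQ : ∀ θ θ', circ θ = circ θ' → Q θ = Q θ') {z₀ : ℂ}
    (h0 : z₀ ≠ 0) (hl : ∀ θ, circ θ = z₀ / ‖z₀‖ → ∀ᶠ θ' in 𝓝 θ, Q θ' = Q θ) :
    ∀ᶠ z in 𝓝 z₀, z ≠ 0 ∧ Q (ang z) = Q (ang z₀) := by
  have hc : IsClosed (circ '' closure {θ | Q θ ≠ Q (ang z₀)}) :=
    (isClosed_closure.isCompact.image circ.continuous).isClosed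
  have hn : z₀ / ‖z₀‖ ∉ circ '' closure {θ | Q θ ≠ Q (ang z₀)} := by
    rintro ⟨θ, h1, h2⟩
    obtain ⟨θ', a, b⟩ := (mem_closure_iff_frequently.1 h1).and_eventually (hl θ h2) |>.exists
    exact a (b.trans (hQ _ _ (h2.trans (circ_ang h0).symm)))
  have ho : ({0}ᶜ : Set ℂ) ∈ 𝓝 z₀ := isOpen_compl_singleton.mem_nhds h0
  filter_upwards [ho, (cont_dir.continuousAt ho).eventually (hc.isOpen_compl.mem_nhds hn)]
    with z a b
  refine ⟨a, by_contra fun c => b ⟨ang z, subset_closure c, circ_ang a⟩⟩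

variable {X V S R : Type} [TopologicalSpace X] (K : CW2 X V S R)

theorem ed_cases (e : S) (x : I) :
    (∃ v, K.ed e x = K.vt v) ∨ K.nf (K.ed e x) = .inr (.inl (e, x)) := by
  by_cases h0 : x = 0
  · exact .inl ⟨_, h0 ▸ K.ed0 e⟩
  by_cases h1 : x = 1
  · exact .inl ⟨_, h1 ▸ K.ed1 e⟩
  exact .inr (K.nf_ed e x h0 h1)

theorem nf_sk1 {y : X} (h : y ∈ K.sk1) (p : R × ℂ) : K.nf y ≠ .inr (.inr p) := by
  rcases h with ⟨v, rfl⟩ | ⟨e, x, rfl⟩
  · simp [K.nf_vt]
  · rcases ed_cases K e x with ⟨v, h⟩ | h <;> simp [h, K.nf_vt]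

theorem fc_not {f : R} {z : ℂ} (h : ‖z‖ < 1) : K.fc f z ∉ K.sk1 := fun h' =>
  nf_sk1 K h' _ (K.nf_fc f z h)

theorem fc_mem (f : R) {z : ℂ} (h : ‖z‖ = 1) : K.fc f z ∈ K.sk1 := by
  obtain ⟨A, B, hA⟩ := K.fin f
  rcases hA z h with ⟨v, -, h⟩ | ⟨e, -, x, h⟩
  exacts [.inl ⟨v, h⟩, .inr ⟨e, x, h⟩]

theorem ed_mem (e : S) (x : I) : K.ed e x ∈ K.sk1 := .inr ⟨e, x, rfl⟩

theorem fc_inj {f g : R} {z w : ℂ} (hz : ‖z‖ ≤ 1) (hw : ‖w‖ < 1) (h : K.fc f z = K.fc g w) :
    f = g ∧ z = w := by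
  rcases hz.eq_or_lt with hz | hz
  · exact absurd (h ▸ fc_mem K f hz) (fc_not K hw)
  · have := K.nf_fc f z hz
    rw [h, K.nf_fc g w hw] at this
    simpa [eq_comm] using this

theorem ed_inj {e e' : S} {x x' : I} (h0 : x' ≠ 0) (h1 : x' ≠ 1) (h : K.ed e x = K.ed e' x') :
    e = e' ∧ x = x' := by
  have a := K.nf_ed e' x' h0 h1
  rw [← h] at a
  rcases ed_cases K e x with ⟨v, b⟩ | b
  · simp [b, K.nf_vt] at a
  · simpa [b] using a

theorem ed_ne_vt {e : S} {x : I} (h0 : x ≠ 0) (h1 : x ≠ 1) (v : V) : K.ed e x ≠ K.vt v := fun h => by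
  have a := K.nf_ed e x h0 h1
  simp [h, K.nf_vt] at a

theorem closed_sk [T2Space X] {A : Set X} (hA : A ⊆ K.sk1) (h : ∀ e, IsClosed (K.ed e ⁻¹' A)) :
    IsClosed A := by
  refine K.weak A h fun f => ?_
  obtain ⟨A', B, hB⟩ := K.fin f
  have h1 : IsClosed ((A ∩ K.vt '' A') ∪ ⋃ e ∈ B, K.ed e '' (K.ed e ⁻¹' A)) :=
    ((A'.finite_toSet.image _).inter_of_right _).isClosed.union
      (B.finite_toSet.isClosed_biUnion fun e _ =>
        ((h e).isCompact.image (K.ed e).continuous).isClosed)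
  convert (isClosed_eq continuous_norm continuous_const (f := fun z : ℂ => ‖z‖)
    (g := fun _ => 1)).inter (h1.preimage (K.fc f).continuous) using 1
  ext z
  constructor
  · rintro ⟨a, b⟩
    have c : ‖z‖ = 1 := a.eq_or_lt.resolve_right fun c => fc_not K c (hA b)
    refine ⟨c, ?_⟩
    rcases hB z c with ⟨v, d, e⟩ | ⟨e, d, x, g⟩
    · exact .inl ⟨b, v, d, e.symm⟩
    · exact .inr (mem_biUnion d ⟨x, by rwa [mem_preimage, ← g], g.symm⟩)
  · rintro ⟨a, b | b⟩
    · exact ⟨le_of_eq a, b.1⟩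
    · obtain ⟨e, -, x, c, d⟩ := mem_iUnion₂.1 b
      exact ⟨le_of_eq a, d ▸ c⟩

theorem open_fc (f : R) {O : Set ℂ} (hO : IsOpen O) (h : ∀ z ∈ O, ‖z‖ < 1) :
    IsOpen (K.fc f '' O) := by
  refine isClosed_compl_iff.1 (K.weak _ (fun e => ?_) fun g => ?_)
  · convert isClosed_univ
    refine eq_univ_of_forall fun x => ?_
    rintro ⟨z, a, b⟩
    exact fc_not K (h z a) (b ▸ ed_mem K e x)
  · have h1 : IsClosed {z : ℂ | g = f → z ∉ O} := by
      by_cases c : g = f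
      · simp only [c, true_imp_iff]; exact hO.isClosed_compl
      · simp [c]
    convert (isClosed_le continuous_norm continuous_const (f := fun z : ℂ => ‖z‖)
      (g := fun _ => 1)).inter h1 using 1
    ext z
    refine and_congr_right fun a => ⟨fun b c d => b ⟨z, d, by rw [c]⟩, ?_⟩
    rintro b ⟨w, c, d⟩
    obtain ⟨e1, e2⟩ := fc_inj K a (h w c) d.symm
    exact b e1 (e2 ▸ c)

theorem ev_fc (f : R) {z₀ : ℂ} (h : ‖z₀‖ < 1) {P : ℂ → Prop} (hP : ∀ᶠ z in 𝓝 z₀, P z) :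
    ∀ᶠ y in 𝓝 (K.fc f z₀), ∃ z, ‖z‖ < 1 ∧ y = K.fc f z ∧ P z := by
  obtain ⟨O, a, b, c⟩ := eventually_nhds_iff.1
    (hP.and ((isOpen_lt continuous_norm continuous_const).mem_nhds h))
  filter_upwards [(open_fc K f b fun z hz => (a z hz).2).mem_nhds ⟨z₀, c, rfl⟩]
  rintro _ ⟨z, d, rfl⟩
  exact ⟨z, (a z d).2, rfl, (a z d).1⟩

/-- radial retraction -/
noncomputable def rt (y : X) : X :=
  match K.nf y with
  | .inr (.inr (f, z)) => K.fc f (z / ‖z‖)
  | _ => y

theorem rt_sk1 {y : X} (h : y ∈ K.sk1) : rt K y = y := by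
  have := nf_sk1 K h
  unfold rt
  split
  · rename_i f z e; exact absurd e (this _)
  · rfl

theorem rt_fc (f : R) {z : ℂ} (h : ‖z‖ ≤ 1) : rt K (K.fc f z) = K.fc f (z / ‖z‖) := by
  rcases h.eq_or_lt with h | h
  · rw [rt_sk1 K (fc_mem K f h), h]; simp
  · simp only [rt, K.nf_fc f z h]

/-- centres of the faces -/
def ctr : Set X := {y | ∃ f, y = K.fc f 0}

theorem not_ctr {y : X} (h : y ∈ K.sk1) : y ∉ ctr K := by
  rintro ⟨f, rfl⟩; exact fc_not K (by simp) h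

theorem fc_ctr {f : R} {z : ℂ} (h : ‖z‖ ≤ 1) : K.fc f z ∈ ctr K ↔ z = 0 :=
  ⟨fun ⟨_, e⟩ => (fc_inj K h (by simp) e).2, fun e => ⟨f, by rw [e]⟩⟩

theorem rt_mem {y : X} (h : y ∉ ctr K) : rt K y ∈ K.sk1 := by
  rcases K.cover y with ⟨v, rfl⟩ | ⟨e, x, -, -, rfl⟩ | ⟨f, z, a, rfl⟩
  · rw [rt_sk1 K (.inl ⟨v, rfl⟩)]; exact .inl ⟨v, rfl⟩
  · rw [rt_sk1 K (ed_mem K e x)]; exact ed_mem K e x
  · rw [rt_fc K f a.le]; exact fc_mem K f (norm_dir fun c => h ((fc_ctr K a.le).2 c))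

theorem open_rt {C : Set X} (hC : IsClosed C) : IsOpen {y | y ∉ ctr K ∧ rt K y ∉ C} := by
  refine isClosed_compl_iff.1 (K.weak _ (fun e => ?_) fun f => ?_)
  · convert hC.preimage (K.ed e).continuous using 1
    ext x
    simp [rt_sk1 K (ed_mem K e x), not_ctr K (ed_mem K e x)]
  · have h1 := (cont_dir.isOpen_inter_preimage isOpen_compl_singleton
      (hC.preimage (K.fc f).continuous).isOpen_compl).isClosed_compl
    convert (isClosed_le continuous_norm continuous_const (f := fun z : ℂ => ‖z‖)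
      (g := fun _ => 1)).inter h1 using 1
    ext z
    refine and_congr_right fun a => ?_
    simp [fc_ctr K a, rt_fc K f a]

/-- midpoints -/
def mid : Set X := {y | ∃ e, ∃ x : I, (x : ℝ) = 1 / 2 ∧ y = K.ed e x}

theorem half_ne {x : I} (h : (x : ℝ) = 1 / 2) : x ≠ 0 ∧ x ≠ 1 :=
  ⟨fun c => by norm_num [c] at h, fun c => by norm_num [c] at h⟩

theorem closed_mid [T2Space X] : IsClosed (mid K) := by
  refine closed_sk K (by rintro _ ⟨e, x, -, rfl⟩; exact ed_mem K e x) fun e => ?_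
  convert isClosed_eq continuous_subtype_val continuous_const (f := fun x : I => (x : ℝ))
    (g := fun _ => 1 / 2) using 1
  ext x
  exact ⟨fun ⟨e', x', a, b⟩ => (ed_inj K (half_ne a).1 (half_ne a).2 b).2 ▸ a,
    fun a => ⟨e, x, a, rfl⟩⟩

theorem closed_vt [T2Space X] : IsClosed (range K.vt) := by
  refine closed_sk K (by rintro _ ⟨v, rfl⟩; exact .inl ⟨v, rfl⟩) fun e => ?_
  refine (((finite_singleton (1 : I)).insert 0).subset ?_).isClosed
  rintro x ⟨v, hv⟩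
  by_contra c
  simp only [mem_insert_iff, mem_singleton_iff, not_or] at c
  exact ed_ne_vt K c.1 c.2 v hv.symm

theorem ev_gU [T2Space X] {y : X} (h0 : y ∉ ctr K) (h1 : rt K y ∉ mid K)
    (h2 : rt K y ∉ range K.vt) : ∀ᶠ y' in 𝓝 y, K.gU (rt K y') = K.gU (rt K y) := by
  obtain ⟨v, hv⟩ | ⟨e, x, hx⟩ := rt_mem K h0
  · exact absurd ⟨v, hv.symm⟩ h2
  have x0 : x ≠ 0 := fun c => h2 ⟨_, by rw [hx, c, K.ed0]⟩
  have x1 : x ≠ 1 := fun c => h2 ⟨_, by rw [hx, c, K.ed1]⟩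
  have xh : (x : ℝ) ≠ 1 / 2 := fun c => h1 ⟨e, x, c, hx⟩
  let J : Set I := {x' | x' ≠ 0 ∧ x' ≠ 1 ∧ 0 < ((x' : ℝ) - 1 / 2) * (x - 1 / 2)}
  have hJ : IsOpen J := isOpen_ne.inter (isOpen_ne.inter (isOpen_lt continuous_const
    ((continuous_subtype_val.sub continuous_const).mul continuous_const)))
  have hC : IsClosed (K.sk1 \ K.ed e '' J) := by
    refine closed_sk K diff_subset fun e' => ?_
    have h3 : IsClosed {x' : I | e' = e → x' ∉ J} := by
      by_cases c : e' = e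
      · simp only [c, true_imp_iff]; exact hJ.isClosed_compl
      · simp [c]
    convert h3 using 1
    ext x'
    refine ⟨fun a b c => a.2 ⟨x', c, by rw [b]⟩, fun a => ⟨ed_mem K _ _, ?_⟩⟩
    rintro ⟨x'', b, c⟩
    obtain ⟨e1, e2⟩ := ed_inj K b.1 b.2.1 c.symm
    exact a e1 (e2 ▸ b)
  filter_upwards [(open_rt K hC).mem_nhds ⟨h0, fun c => c.2
    ⟨x, ⟨x0, x1, mul_self_pos.2 (sub_ne_zero.2 xh)⟩, hx.symm⟩⟩] with y' hy'
  obtain ⟨x', a, b⟩ : rt K y' ∈ K.ed e '' J := by_contra fun c => hy'.2 ⟨rt_mem K hy'.1, c⟩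
  rw [← b, hx, K.gU_ed e x' a.1 a.2.1, K.gU_ed e x x0 x1]
  refine if_congr ⟨fun c => ?_, fun c => ?_⟩ rfl rfl
  · by_contra d; nlinarith [a.2.2]
  · by_contra d; nlinarith [a.2.2]

/-- the complex coordinate of a point of an open face -/
noncomputable def co (y : X) : ℂ :=
  match K.nf y with
  | .inr (.inr (_, z)) => z
  | _ => 0

theorem co_fc (f : R) {z : ℂ} (h : ‖z‖ < 1) : co K (K.fc f z) = z := by
  simp only [co, K.nf_fc f z h]

end SCx

open SCx in
theorem jobSC (hc : JobCOC) : JobSC := by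
  intro X V S R _ _ _ K h hh v l hl
  set N := Subgroup.normalClosure (range fun f => h f 1) with hN
  let q : FreeGroup S →* FreeGroup S ⧸ N := QuotientGroup.mk' N
  have q1 : ∀ f, q (h f 1) = 1 := fun f =>
    (QuotientGroup.eq_one_iff _).2 (Subgroup.subset_normalClosure ⟨f, rfl⟩)
  have hq : ∀ f θ θ', circ θ = circ θ' → q (h f θ) = q (h f θ') := fun f θ θ' e => by
    rcases circ_eq e with rfl | ⟨rfl | rfl, rfl | rfl⟩ <;> simp [q1, (hh f).1]
  let U : Bool ⊕ R → Set X := Sum.elim (fun b => {y | y ∉ ctr K ∧ rt K y ∉ cond b (mid K)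
    (range K.vt)}) fun f => K.fc f '' {z | ‖z‖ < 1}
  let γ : Bool ⊕ R → X → FreeGroup S ⧸ N := Sum.elim (fun b y => cond b (q (K.gU (rt K y))) 1)
    fun f y => (q (h f (ang (co K y))))⁻¹
  let T : Bool ⊕ R → Bool ⊕ R → Prop := fun i j => ∀ y, y ∈ U i → y ∈ U j →
    ∀ᶠ y' in 𝓝 y, (γ i y')⁻¹ * γ j y' = (γ i y)⁻¹ * γ j y
  have Tr : ∀ i, T i i := fun i y _ _ => by simp
  have Ts : ∀ i j, T i j → T j i := fun i j t y a b => (t y b a).mono fun y' e =>
    inv_swap e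
  have T1 : T (.inl true) (.inl false) := fun y a b =>
    (ev_gU K a.1 a.2 b.2).mono fun y' e => by simp [γ, e]
  have T2 : ∀ b f, T (.inl b) (.inr f) := by
    rintro b f _ a ⟨z, hz, rfl⟩
    have z0 : z ≠ 0 := fun c => a.1 ((fc_ctr K hz.le).2 c)
    have a2 := a.2
    rw [rt_fc K f hz.le] at a2
    have key := ev_ang (fun θ => q (h f θ) * cond b (q (K.gU (K.att f θ))) 1)
      (fun θ θ' e => by simp only [hq f θ θ' e, CW2.att, ContinuousMap.comp_apply, e]) z0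
      fun θ hθ => by
        have e : K.att f θ = K.fc f (z / ‖z‖) := by rw [← hθ]; rfl
        cases b
        · exact (((hh f).2 θ).2 fun v c => a2 ⟨v, by rw [← e, c]⟩).mono fun θ' c => by simp [c]
        · exact (((hh f).2 θ).1 fun e' x b c => a2 ⟨e', x, b, by rw [← e, c]⟩).mono fun θ' c => by
            simpa using congrArg q c
    have e : ∀ w : ℂ, ‖w‖ < 1 → w ≠ 0 → (γ (.inl b) (K.fc f w))⁻¹ * γ (.inr f) (K.fc f w) =
        (q (h f (ang w)) * cond b (q (K.gU (K.att f (ang w)))) 1)⁻¹ := fun w a b => by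
      simp only [γ, Sum.elim_inl, Sum.elim_inr, co_fc K f a, rt_fc K f a.le, CW2.att,
        ContinuousMap.comp_apply, circ_ang b, mul_inv_rev]
    filter_upwards [ev_fc K f hz key]
    rintro _ ⟨w, c, rfl, d, g⟩
    rw [e w c d, e z hz z0, g]
  obtain ⟨H, hH⟩ := hc X (FreeGroup S ⧸ N) (Bool ⊕ R) U γ (by
      rintro ((_ | _) | f)
      · exact open_rt K (closed_vt K)
      · exact open_rt K (closed_mid K)
      · exact open_fc K f (isOpen_lt continuous_norm continuous_const) fun _ a => a)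
    (fun y => by
      rcases K.cover y with ⟨v, rfl⟩ | ⟨e, x, a, b, rfl⟩ | ⟨f, z, a, rfl⟩
      · refine ⟨.inl true, not_ctr K (.inl ⟨v, rfl⟩), ?_⟩
        rw [rt_sk1 K (.inl ⟨v, rfl⟩)]
        rintro ⟨e, x, a, b⟩
        exact ed_ne_vt K (half_ne a).1 (half_ne a).2 v b.symm
      · refine ⟨.inl false, not_ctr K (ed_mem K e x), ?_⟩
        rw [rt_sk1 K (ed_mem K e x)]
        rintro ⟨v, c⟩
        exact ed_ne_vt K a b v c.symm
      · exact ⟨.inr f, z, a, rfl⟩)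
    (by
      show ∀ i j, T i j
      rintro (b | f) (b' | f')
      · cases b <;> cases b'
        exacts [Tr _, Ts _ _ T1, T1, Tr _]
      · exact T2 b f'
      · exact Ts _ _ (T2 b' f)
      · rintro y ⟨z, a, b⟩ ⟨w, c, d⟩
        obtain rfl := (fc_inj K (le_of_lt a) c (b.trans d.symm)).1
        exact Tr _ y ⟨z, a, b⟩ ⟨w, c, d⟩)
  have hE : ∀ e, H (K.vt (K.t e)) = H (K.vt (K.s e)) * q (FreeGroup.of e) := fun e => by
    classical
    have hU : ∀ x : I, (x : ℝ) ≠ 1 / 2 → K.ed e x ∈ U (.inl true) := fun x a =>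
      ⟨not_ctr K (ed_mem K e x), by
        rw [rt_sk1 K (ed_mem K e x)]
        rintro ⟨e', x', b, c⟩
        exact a ((ed_inj K (half_ne b).1 (half_ne b).2 c).2 ▸ b)⟩
    have hγ : ∀ x : I, γ (.inl true) (K.ed e x) = q (K.gU (K.ed e x)) := fun x => by
      simp [γ, rt_sk1 K (ed_mem K e x)]
    have hlc : IsLocallyConstant fun x : I =>
        H (K.ed e x) * if x = 1 then (q (FreeGroup.of e))⁻¹ else 1 := by
      refine (IsLocallyConstant.iff_eventually_eq _).2 fun a => ?_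
      by_cases a1 : a = 1
      · subst a1
        filter_upwards [hH (K.ed e) _ 1 (hU 1 (by norm_num)), (isOpen_lt continuous_const
          continuous_subtype_val (f := fun _ : I => (1 / 2 : ℝ))).mem_nhds
          (show (1 / 2 : ℝ) < ((1 : I) : ℝ) by norm_num)] with x b c
        by_cases x1 : x = 1
        · rw [x1]
        have c' : (1 / 2 : ℝ) < x := c
        rw [hγ, hγ, K.gU_ed e x (fun d => by norm_num [d] at c') x1, if_pos c', K.ed1,
          K.gU_vt] at b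
        simp only [x1, K.ed1, if_true, if_false, mul_one, map_one] at b ⊢
        rw [← b, mul_inv_cancel_right]
      by_cases a0 : a = 0
      · subst a0
        filter_upwards [hH (K.ed e) _ 0 (hU 0 (by norm_num)), (isOpen_lt continuous_subtype_val
          continuous_const (g := fun _ : I => (1 / 2 : ℝ))).mem_nhds
          (show ((0 : I) : ℝ) < 1 / 2 by norm_num)] with x b c
        by_cases x0 : x = 0
        · rw [x0]
        have c' : (x : ℝ) < 1 / 2 := c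
        have x1 : x ≠ 1 := fun d => by norm_num [d] at c'
        rw [hγ, hγ, K.gU_ed e x x0 x1, if_neg c'.le.not_gt, K.ed0, K.gU_vt] at b
        simpa [x1, K.ed0] using b
      · filter_upwards [hH (K.ed e) (.inl false) a ⟨not_ctr K (ed_mem K e a), by
          rw [rt_sk1 K (ed_mem K e a)]
          rintro ⟨v, c⟩
          exact ed_ne_vt K a0 a1 v c.symm⟩, isOpen_ne.mem_nhds a1] with x b c
        have c' : x ≠ 1 := c
        simpa [γ, c', a1] using b
    have := hlc.apply_eq_of_preconnectedSpace 0 1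
    simp only [zero_ne_one, if_false, if_true, mul_one, K.ed0, K.ed1] at this
    rw [this, inv_mul_cancel_right]
  have hP : ∀ l v v', IsPath K.s K.t v l v' →
      H (K.vt v') = H (K.vt v) * q (FreeGroup.mk l) := by
    intro l
    induction l with
    | nil => rintro v v' rfl; simp [← FreeGroup.one_eq_mk]
    | cons p l ih =>
      rcases p with ⟨e, _ | _⟩ <;> rintro v v' ⟨rfl, b⟩
      · have e1 : FreeGroup.mk ((e, false) :: l) = (FreeGroup.of e)⁻¹ * FreeGroup.mk l := rfl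
        rw [ih _ _ b, e1, hE]; simp [mul_assoc]
      · have e1 : FreeGroup.mk ((e, true) :: l) = FreeGroup.of e * FreeGroup.mk l := rfl
        rw [ih _ _ b, e1, hE]; simp [mul_assoc]
  exact (QuotientGroup.eq_one_iff _).1 (left_eq_mul.1 (hP l v v hl))

end Crest.Agent.EG
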