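import Crest.Agent.EG.DefsT

/-! Row 197 (S0300): job SURJ. -/

set_option autoImplicit false

open Set Topology Filter unitInterval Metric

namespace Crest.Agent.EG

theorem surj_circ0 : circ 0 = 1 := by simp [circ]

theorem surj_circ1 : circ 1 = 1 := by simp [circ]

theorem surj_wind (g : C(ℂ, ℂ)) (hg : ∀ z, ‖z‖ ≤ 1 → g z ≠ 0) (ζ : I → ℂ) (hζ : Continuous ζ)
    (he : ∀ θ, Complex.exp (ζ θ) = g (circ θ)) : ζ 1 = ζ 0 := by
  have hm : ∀ z : ℂ, (0 : ℝ) < max 1 ‖z‖ := fun z => lt_max_of_lt_left one_pos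
  let r : C(ℂ, ℂ) := ⟨fun z => (max 1 ‖z‖)⁻¹ • z,
    Continuous.smul (Continuous.inv₀ (by fun_prop) fun z => (hm z).ne') continuous_id⟩
  have r1 : ∀ z, ‖r z‖ ≤ 1 := fun z => by
    show ‖(max 1 ‖z‖)⁻¹ • z‖ ≤ 1
    rw [norm_smul, norm_inv, Real.norm_of_nonneg (hm z).le, inv_mul_le_iff₀ (hm z), mul_one]
    exact le_max_right _ _
  have r2 : ∀ θ, r (circ θ) = circ θ := fun θ => by
    show (max 1 ‖circ θ‖)⁻¹ • circ θ = circ θ
    rw [norm_circ]; simp
  obtain ⟨F, ⟨-, hF⟩, -⟩ := Complex.isCoveringMapOn_exp.existsUnique_continuousMap_lifts (g.comp r)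
    (a₀ := 0) (Complex.exp_log (hg _ (r1 0))) (fun z => hg _ (r1 z))
  have hF' : ∀ θ, Complex.exp (F (circ θ)) = g (circ θ) := fun θ => by
    have := congrFun hF (circ θ)
    simpa [r2] using this
  have h1 : ∀ θ, Complex.exp (ζ θ - F (circ θ)) = 1 := fun θ => by
    rw [Complex.exp_sub, he, hF', div_self (hg _ (norm_circ θ).le)]
  have := Complex.isCoveringMap_exp.const_of_comp (g := fun θ => ζ θ - F (circ θ)) (by fun_prop)
    (fun a a' => Subtype.ext (by simp only [h1])) 1 0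
  simp only [surj_circ0, surj_circ1] at this
  exact sub_left_injective this

theorem surj_ex_one {S : Type} (a : S → ℤ) : ex a 1 = 0 := by simp [ex]

theorem surj_ex_mul_of {S : Type} (a : S → ℤ) (c : FreeGroup S) (e : S) :
    ex a (c * FreeGroup.of e) = ex a c + a e := by simp [ex]

theorem surj_edge (γ : C(I, ℂ)) (u v : ℂ) (hu : γ 0 = u) (hv : γ 1 = v) :
    ∃ (L : C(I, ℂ)) (n : ℤ), L 0 = Complex.log u ∧ L 1 = Complex.log v + n * (2 * Real.pi * Complex.I) ∧
      ((∀ x, γ x ≠ 0) → ∀ x, Complex.exp (L x) = γ x) := by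
  by_cases h : ∀ x, γ x ≠ 0
  · obtain ⟨L, hL, hL0⟩ := Complex.isCoveringMap_exp.exists_path_lifts
      (⟨fun x => ⟨γ x, h x⟩, by fun_prop⟩ : C(I, {z : ℂ // z ≠ 0})) (Complex.log u)
      (Subtype.ext (by
        show γ 0 = Complex.exp (Complex.log u)
        rw [Complex.exp_log (hu ▸ h 0), hu]))
    have hL' : ∀ x, Complex.exp (L x) = γ x := fun x => congrArg Subtype.val (congrFun hL x)
    have : Complex.exp (L 1) = Complex.exp (Complex.log v) := by
      rw [hL', Complex.exp_log (hv ▸ h 1), hv]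
    obtain ⟨n, hn⟩ := Complex.exp_eq_exp_iff_exists_int.1 this
    exact ⟨L, n, hL0, hn, fun _ => hL'⟩
  · refine ⟨⟨fun x => Complex.log u + ((x : ℝ) : ℂ) * (Complex.log v - Complex.log u), by fun_prop⟩, 0,
      by simp, by simp, fun h' => (h h').elim⟩

theorem jobSURJ (h1 : JobMU) (h2 : JobSEC) : JobSURJ := by
  intro X V S R _ _ _ K h hW Φ j
  classical
  choose A B hAB using K.fin
  let C : Set X := ⋃ f ∈ insert j Φ, (K.fc f '' closedBall 0 1 ∪ ⋃ e ∈ B f, range (K.ed e))
  have hC : IsCompact C := by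
    refine (insert j Φ).isCompact_biUnion fun f _ => IsCompact.union ?_ ?_
    · exact (isCompact_closedBall _ _).image (K.fc f).continuous
    · exact (B f).isCompact_biUnion fun e _ => isCompact_range (K.ed e).continuous
  obtain ⟨μ, lam, hμ, hlam, hml⟩ := h1 X V S R K j C hC
  have nv : ∀ v f z, ‖z‖ < 1 → K.vt v ≠ K.fc f z := fun v f z hz e => by
    have := K.nf_vt v
    rw [e, K.nf_fc f z hz] at this
    cases this
  have ne : ∀ e x f z, ‖z‖ < 1 → K.ed e x ≠ K.fc f z := fun e x f z hz => by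
    by_cases h0 : x = 0
    · rw [h0, K.ed0]; exact nv _ f z hz
    by_cases h1 : x = 1
    · rw [h1, K.ed1]; exact nv _ f z hz
    intro e'
    have := K.nf_ed e x h0 h1
    rw [e', K.nf_fc f z hz] at this
    cases this
  have hE : ∀ e, ∃ (L : C(I, ℂ)) (n : ℤ), L 0 = Complex.log (μ (K.vt (K.s e))) ∧
      L 1 = Complex.log (μ (K.vt (K.t e))) + n * (2 * Real.pi * Complex.I) ∧
      ((∀ x, μ (K.ed e x) ≠ 0) → ∀ x, Complex.exp (L x) = μ (K.ed e x)) := fun e =>
    surj_edge (μ.comp (K.ed e)) _ _ (by simp [K.ed0]) (by simp [K.ed1])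
  choose L a hL0 hL1 hL using hE
  let Zv : FreeGroup S → V → ℂ := fun c v =>
    Complex.log (μ (K.vt v)) + ex a c * (2 * Real.pi * Complex.I)
  let Ze : FreeGroup S → S → C(I, ℂ) := fun c e =>
    ⟨fun x => L e x + ex a c * (2 * Real.pi * Complex.I), by fun_prop⟩
  let lg : X → ℂ := fun y =>
    match K.nf y with
    | .inl v => Complex.log (μ (K.vt v))
    | .inr (.inl (e, x)) => L e x
    | _ => 0
  have lgv : ∀ v, lg (K.vt v) = Complex.log (μ (K.vt v)) := fun v => by simp only [lg, K.nf_vt]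
  have lge : ∀ e x, x ≠ 0 → x ≠ 1 → lg (K.ed e x) = L e x := fun e x a b => by
    simp only [lg, K.nf_ed e x a b]
  let ζ : R → I → ℂ := fun f θ => lg (K.att f θ) + ex a (h f θ) * (2 * Real.pi * Complex.I)
  have hsk : ∀ f θ, K.att f θ ∈ K.sk1 := fun f θ => by
    rcases hAB f (circ θ) (norm_circ θ) with ⟨v, -, hv⟩ | ⟨e, -, x, hx⟩
    · exact .inl ⟨v, hv⟩
    · exact .inr ⟨e, x, hx⟩
  have hcont : ∀ f, Continuous (ζ f) := fun f => by
    refine h2 X V S R K I ℂ (K.att f) (h f) (hsk f) (hW f).2 Zv Ze ?_ ?_ (ζ f) ?_ ?_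
    · intro c e
      show L e 0 + _ = _
      rw [hL0]
    · intro c e
      show L e 1 + _ = Complex.log _ + _
      rw [hL1, surj_ex_mul_of]; push_cast; ring
    · intro θ v hv
      show lg _ + _ = _
      rw [hv, lgv]
    · intro θ e x a b hx
      show lg _ + _ = _
      rw [hx, lge e x a b]; rfl
  have hdiff : ∀ f, ζ f 1 = ζ f 0 + ex a (h f 1) * (2 * Real.pi * Complex.I) := fun f => by
    have : K.att f 1 = K.att f 0 := by simp [CW2.att, surj_circ0, surj_circ1]
    simp only [ζ, this, (hW f).1, surj_ex_one]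
    simp
  have hfC : ∀ f ∈ insert j Φ, ∀ z : ℂ, ‖z‖ ≤ 1 → K.fc f z ∈ C := fun f hf z hz =>
    mem_biUnion hf (.inl ⟨z, by simpa using hz, rfl⟩)
  have hbd : ∀ f ∈ insert j Φ, ∀ z : ℂ, ‖z‖ = 1 → μ (K.fc f z) ≠ 0 := fun f hf z hz => by
    refine hμ _ (hfC f hf z hz.le) fun z' hz' => ?_
    rcases hAB f z hz with ⟨v, -, hv⟩ | ⟨e, -, x, hx⟩
    · rw [hv]; exact nv v j z' hz'
    · rw [hx]; exact ne e x j z' hz'
  have hexp : ∀ f ∈ insert j Φ, ∀ θ, Complex.exp (ζ f θ) = μ (K.fc f (circ θ)) := fun f hf θ => by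
    have hv' : ∀ v, K.fc f (circ θ) = K.vt v → Complex.exp (lg (K.att f θ)) = μ (K.fc f (circ θ)) := by
      intro v hv
      have : K.att f θ = K.vt v := hv
      rw [this, lgv, Complex.exp_log (hv ▸ hbd f hf _ (norm_circ θ)), hv]
    have : Complex.exp (lg (K.att f θ)) = μ (K.fc f (circ θ)) := by
      rcases hAB f (circ θ) (norm_circ θ) with ⟨v, -, hv⟩ | ⟨e, he, x, hx⟩
      · exact hv' v hv
      · by_cases h0 : x = 0
        · exact hv' _ (by rw [hx, h0, K.ed0])
        by_cases h1 : x = 1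
        · exact hv' _ (by rw [hx, h1, K.ed1])
        have : K.att f θ = K.ed e x := hx
        rw [this, lge e x h0 h1, hx]
        refine hL e (fun x' => hμ _ ?_ fun z' hz' => ne e x' j z' hz') x
        exact mem_biUnion hf (.inr (mem_biUnion he ⟨x', rfl⟩))
    show Complex.exp (lg _ + _) = _
    rw [Complex.exp_add, this, Complex.exp_int_mul_two_pi_mul_I, mul_one]
  have hpi : (2 * Real.pi * Complex.I : ℂ) ≠ 0 := Complex.two_pi_I_ne_zero
  refine ⟨a, ?_, fun f hf hfj => ?_⟩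
  · have := surj_wind lam hlam (fun θ => ζ j θ - 2 * Real.pi * (θ : ℝ) * Complex.I)
      (by have := hcont j; fun_prop) (fun θ => by
        have hc : circ θ = Complex.exp (2 * Real.pi * (θ : ℝ) * Complex.I) := rfl
        rw [Complex.exp_sub, hexp j (Finset.mem_insert_self _ _), hml _ (norm_circ θ), ← hc,
          mul_div_assoc, div_self (hc ▸ Complex.exp_ne_zero _), mul_one])
    simp only [hdiff] at this
    have h3 : ((ex a (h j 1) : ℂ) - 1) * (2 * Real.pi * Complex.I) = 0 := by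
      simp only [Icc.coe_one, Icc.coe_zero, Complex.ofReal_one, Complex.ofReal_zero] at this
      linear_combination this
    have h4 := (mul_eq_zero.1 h3).resolve_right hpi
    exact_mod_cast sub_eq_zero.1 h4
  · have hf' : f ∈ insert j Φ := Finset.mem_insert_of_mem hf
    have := surj_wind (μ.comp (K.fc f)) (fun z hz => by
      rcases hz.lt_or_eq with hz' | hz'
      · refine hμ _ (hfC f hf' z hz) fun z' h' e => hfj ?_
        have := K.nf_fc f z hz'
        rw [e, K.nf_fc j z' h'] at this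
        simp only [Sum.inr.injEq, Prod.mk.injEq] at this
        exact this.1.symm
      · exact hbd f hf' z hz') (ζ f) (hcont f) (hexp f hf')
    rw [hdiff] at this
    have h3 : (ex a (h f 1) : ℂ) * (2 * Real.pi * Complex.I) = 0 := by linear_combination this
    exact_mod_cast (mul_eq_zero.1 h3).resolve_right hpi

end Crest.Agent.EG
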