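import Crest.Agent.EG.DefsR

/-! Row 197 (S0300): job TEL, telescoping deformation retractions. -/

set_option autoImplicit false

open Set Topology Filter

namespace Crest.Agent.EG
namespace TELx

/-- break points -/
noncomputable def aa (n : ℕ) : ℝ := (1 / 2) ^ (n + 1)

/-- clamped reparametrisation -/
noncomputable def cl (n : ℕ) (t : ℝ) : ℝ := max 0 (min 1 (t / aa (n + 1) - 1))

theorem aa_pos (n : ℕ) : 0 < aa n := by unfold aa; positivity

theorem aa_succ (n : ℕ) : aa n = 2 * aa (n + 1) := by unfold aa; ring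

theorem aa_lt (n : ℕ) : aa n < 1 := pow_lt_one₀ (by norm_num) (by norm_num) n.succ_ne_zero

theorem cl_mem (n : ℕ) (t : ℝ) : cl n t ∈ Icc (0 : ℝ) 1 :=
  ⟨le_max_left _ _, max_le zero_le_one (min_le_left _ _)⟩

theorem cl_zero (n : ℕ) {t : ℝ} (h : t ≤ aa (n + 1)) : cl n t = 0 :=
  max_eq_left (min_le_of_right_le (by rw [sub_nonpos, div_le_one (aa_pos _)]; exact h))

theorem cl_one (n : ℕ) : cl n (aa n) = 1 := by
  have := (aa_pos (n + 1)).ne'
  have e : aa n / aa (n + 1) - 1 = 1 := by rw [aa_succ n]; field_simp; norm_num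
  simp [cl, e]

theorem cl_cont (n : ℕ) : Continuous (cl n) := by unfold cl; fun_prop

open Classical in
/-- the telescoped homotopies -/
noncomputable def KK {E : Type} (H : ℕ → E × ℝ → E) (x₀ : E) : ℕ → E × ℝ → E
  | 0 => fun _ => x₀
  | n + 1 => fun p => if p.2 ≤ aa n then H n (p.1, cl n p.2) else KK H x₀ n (H n (p.1, 1), p.2)

end TELx

open TELx in
theorem jobTEL : JobTEL := by
  intro E _ B x₀ hm hn h0 hH
  choose H c1 c2 c3 _ c5 using hH
  choose N hN using hn
  have one : (1 : ℝ) ∈ Icc (0 : ℝ) 1 := ⟨zero_le_one, le_rfl⟩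
  have P : ∀ n, ContinuousOn (KK H x₀ n) (B n ×ˢ univ) ∧
      (∀ y ∈ B n, ∀ t ≤ aa n, KK H x₀ n (y, t) = y) ∧ ∀ y ∈ B n, KK H x₀ n (y, 1) = x₀ := by
    intro n
    induction n with
    | zero => exact ⟨continuousOn_const, fun y hy _ _ => by rw [h0] at hy; exact hy.symm,
        fun _ _ => rfl⟩
    | succ n ih =>
      refine ⟨?_, fun y hy t ht => ?_, fun y hy => ?_⟩
      · rw [continuousOn_iff_continuous_domRestrict]
        have u : Continuous fun p : (B (n + 1) ×ˢ univ : Set (E × ℝ)) => H n (p.1.1, 1) :=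
          (c1 n).comp_continuous (by fun_prop) fun p => ⟨p.2.1, one⟩
        refine Continuous.if_le (f := fun p : (B (n + 1) ×ˢ univ : Set (E × ℝ)) => p.1.2)
          (g := fun _ => aa n) (f' := fun p => H n (p.1.1, cl n p.1.2))
          (g' := fun p => KK H x₀ n (H n (p.1.1, 1), p.1.2))
          ((c1 n).comp_continuous (by have := cl_cont n; fun_prop) fun p => ⟨p.2.1, cl_mem _ _⟩)
          (ih.1.comp_continuous (u.prodMk (by fun_prop)) fun p => ⟨c3 n _ p.2.1, mem_univ _⟩)
          (by fun_prop) continuous_const fun p hp => ?_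
        simp only [hp, cl_one]
        exact (ih.2.1 _ (c3 n _ p.2.1) _ le_rfl).symm
      · have : t ≤ aa n := by have := aa_pos (n + 1); rw [aa_succ n]; linarith
        simp only [KK, this, if_true, cl_zero n ht, c2 n y hy]
      · simp only [KK, (aa_lt n).not_ge, if_false]
        exact ih.2.2 _ (c3 n y hy)
  have Q : ∀ n m, n ≤ m → ∀ y ∈ B n, ∀ t, KK H x₀ m (y, t) = KK H x₀ n (y, t) := by
    intro n m h y hy t
    induction m, h using Nat.le_induction with
    | base => rfl
    | succ m h ih =>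
      rw [← ih]
      simp only [KK]
      split_ifs with c
      · rw [c5 m y (hm h hy) _ (cl_mem _ _), (P m).2.1 y (hm h hy) t c]
      · rw [c5 m y (hm h hy) _ one]
  have mem : ∀ x, x ∈ B (N x) := fun x => mem_of_mem_nhds (hN x)
  have R : ∀ n, ∀ y ∈ B n, ∀ t, KK H x₀ (N y) (y, t) = KK H x₀ n (y, t) := fun n y hy t => by
    rw [← Q _ _ (le_max_left (N y) n) y (mem y), Q _ _ (le_max_right (N y) n) y hy]
  have C : Continuous fun p : E × ℝ => KK H x₀ (N p.1) p := by
    refine continuous_iff_continuousAt.2 fun p => ?_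
    have hp : B (N p.1) ×ˢ (univ : Set ℝ) ∈ 𝓝 p := prod_mem_nhds (hN p.1) univ_mem
    exact ((P _).1.continuousAt hp).congr (mem_of_superset hp fun q hq => (R _ q.1 hq.1 q.2).symm)
  refine (contractible_iff_id_nullhomotopic E).2 ⟨x₀, ⟨⟨⟨fun q => KK H x₀ (N q.2) (q.2, q.1),
    C.comp (f := fun q : unitInterval × E => (q.2, (q.1 : ℝ))) (by fun_prop)⟩, fun x => ?_,
    fun x => ?_⟩⟩⟩
  · exact (P _).2.1 x (mem x) _ (aa_pos _).le
  · exact (P _).2.2 x (mem x)

end Crest.Agent.EG
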