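import Crest.Agent.EG.DefsT

/-! Row 197: the jobs GP and TOP. -/

set_option autoImplicit false

open Set Topology unitInterval

namespace Crest.Agent.EG

namespace TopX

theorem mk_t {S : Type} (e : S) (l : List (S × Bool)) :
    FreeGroup.mk ((e, true) :: l) = FreeGroup.of e * FreeGroup.mk l := rfl

theorem mk_f {S : Type} (e : S) (l : List (S × Bool)) :
    FreeGroup.mk ((e, false) :: l) = (FreeGroup.of e)⁻¹ * FreeGroup.mk l := rfl

theorem mk_n {S : Type} : FreeGroup.mk ([] : List (S × Bool)) = 1 := rfl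

section
variable {V S : Type} {s t : S → V}

theorem app : ∀ (l : List (S × Bool)) {a b c : V} {m : List (S × Bool)},
    IsPath s t a l b → IsPath s t b m c → IsPath s t a (l ++ m) c
  | [], _, _, _, _, h, k => by obtain rfl : _ = _ := h; exact k
  | (_, true) :: l, _, _, _, _, h, k => ⟨h.1, app l h.2 k⟩
  | (_, false) :: l, _, _, _, _, h, k => ⟨h.1, app l h.2 k⟩

/-- words of paths -/
def PW (s t : S → V) (a : V) (x : FreeGroup S) (b : V) : Prop :=
  ∃ l, IsPath s t a l b ∧ FreeGroup.mk l = x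

theorem PW.one (a : V) : PW s t a 1 a := ⟨[], rfl, rfl⟩

theorem PW.mul {a b c : V} {x y : FreeGroup S} (h : PW s t a x b) (k : PW s t b y c) :
    PW s t a (x * y) c := by
  obtain ⟨l, h, rfl⟩ := h
  obtain ⟨m, k, rfl⟩ := k
  exact ⟨l ++ m, app l h k, rfl⟩

theorem PW.of (e : S) : PW s t (s e) (FreeGroup.of e) (t e) := ⟨[(e, true)], ⟨rfl, rfl⟩, rfl⟩

theorem PW.of' (e : S) : PW s t (t e) (FreeGroup.of e)⁻¹ (s e) := ⟨[(e, false)], ⟨rfl, rfl⟩, rfl⟩

theorem inv' : ∀ (l : List (S × Bool)) {a b : V}, IsPath s t a l b →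
    PW s t b (FreeGroup.mk l)⁻¹ a
  | [], _, _, h => by obtain rfl : _ = _ := h; exact PW.one _
  | (e, true) :: l, _, _, h => by
    rw [mk_t, mul_inv_rev, ← h.1]; exact (inv' l h.2).mul (PW.of' e)
  | (e, false) :: l, _, _, h => by
    rw [mk_f, mul_inv_rev, inv_inv, ← h.1]; exact (inv' l h.2).mul (PW.of e)

theorem PW.inv {a b : V} {x : FreeGroup S} (h : PW s t a x b) : PW s t b x⁻¹ a := by
  obtain ⟨l, h, rfl⟩ := h
  exact inv' l h

variable {G : Type} [Group G] (d : S → G)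

theorem cob' (u : G × V → ℤ) : ∀ (l : List (S × Bool)) {a b : V} (g : G), IsPath s t a l b →
    cs (FreeGroup.lift d) (fun g e => u (g * d e, t e) - u (g, s e)) (FreeGroup.mk l) g =
      u (g * FreeGroup.lift d (FreeGroup.mk l), b) - u (g, a)
  | [], _, _, g, h => by obtain rfl : _ = _ := h; simp [mk_n]
  | (e, true) :: l, _, _, g, h => by
    rw [mk_t, cs_mul, cob' u l _ h.2, ← h.1, map_mul, cs_of, FreeGroup.lift_apply_of, mul_assoc]
    ring
  | (e, false) :: l, _, _, g, h => by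
    rw [mk_f, cs_mul, cob' u l _ h.2, ← h.1, map_mul, cs_inv, cs_of, map_inv,
      FreeGroup.lift_apply_of, inv_mul_cancel_right, mul_assoc]
    ring

theorem PW.cob (u : G × V → ℤ) {a b : V} {x : FreeGroup S} (h : PW s t a x b) (g : G) :
    cs (FreeGroup.lift d) (fun g e => u (g * d e, t e) - u (g, s e)) x g =
      u (g * FreeGroup.lift d x, b) - u (g, a) := by
  obtain ⟨l, h, rfl⟩ := h
  exact cob' d u l g h

variable {s' t' : G × S → G × V} (hs : ∀ g e, s' (g, e) = (g, s e))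
  (ht : ∀ g e, t' (g, e) = (g * d e, t e))
include hs ht

theorem up : ∀ (l : List (S × Bool)) {a b : V} (g : G), IsPath s t a l b →
    PW s' t' (g, a) (hol (FreeGroup.lift d) (fun g s => FreeGroup.of (g, s)) (FreeGroup.mk l) g)
      (g * FreeGroup.lift d (FreeGroup.mk l), b)
  | [], _, _, g, h => by obtain rfl : _ = _ := h; simpa [mk_n] using PW.one _
  | (e, true) :: l, _, _, g, h => by
    have h1 := PW.of (s := s') (t := t') (g, e)
    rw [hs, ht] at h1
    rw [mk_t, hol_mul, ← h.1, map_mul, hol_of, FreeGroup.lift_apply_of, ← mul_assoc]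
    exact h1.mul (up l _ h.2)
  | (e, false) :: l, _, _, g, h => by
    have h1 := PW.of' (s := s') (t := t') (g * (d e)⁻¹, e)
    rw [hs, ht, inv_mul_cancel_right] at h1
    rw [mk_f, hol_mul, ← h.1, map_mul, hol_inv, hol_of, map_inv, FreeGroup.lift_apply_of,
      ← mul_assoc]
    exact h1.mul (up l _ h.2)

theorem down : ∀ (l : List ((G × S) × Bool)) {a b : G × V}, IsPath s' t' a l b →
    ∃ x, PW s t a.2 x b.2 ∧ b.1 = a.1 * FreeGroup.lift d x
  | [], _, _, h => by obtain rfl : _ = _ := h; exact ⟨1, PW.one _, by simp⟩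
  | ((g, e), true) :: l, _, _, h => by
    obtain ⟨x, h1, h2⟩ := down l h.2
    rw [← h.1, hs]
    rw [ht] at h1 h2
    exact ⟨_, (PW.of e).mul h1, by simp [h2, mul_assoc]⟩
  | ((g, e), false) :: l, _, _, h => by
    obtain ⟨x, h1, h2⟩ := down l h.2
    rw [← h.1, ht]
    rw [hs] at h1 h2
    exact ⟨_, (PW.of' e).mul h1, by simp [h2, mul_assoc]⟩

end

end TopX

open TopX

theorem jobGP : JobGP := by
  classical
  intro G V S R _ s t d w v₀ h
  choose ql hq1 hq2 using fun v => h.conn v 1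
  let q : V → FreeGroup S := fun v => if v = v₀ then 1 else FreeGroup.mk (ql v)
  have hq : ∀ v, PW s t v₀ (q v) v := fun v => by
    simp only [q]
    split_ifs with e
    · rw [e]; exact PW.one _
    · exact ⟨_, hq1 v, rfl⟩
  have hq' : ∀ v, FreeGroup.lift d (q v) = 1 := fun v => by
    simp only [q]
    split_ifs with e
    · simp
    · exact hq2 v
  let w' : R ⊕ {v // v ≠ v₀} → FreeGroup S := Sum.elim w fun v => q v.1
  refine ⟨_, w', fun g => ?_, ?_, fun x hx => ?_, fun Φ j => ?_⟩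
  · obtain ⟨l, -, e⟩ := h.conn v₀ g
    exact ⟨_, e⟩
  · rintro (j | v)
    · exact h.rel j
    · exact hq' v
  · let N := Subgroup.normalClosure (range w')
    have hqN : ∀ v, QuotientGroup.mk' N (q v) = 1 := fun v => by
      by_cases e : v = v₀
      · simp [q, e]
      · exact (QuotientGroup.eq_one_iff _).2 (Subgroup.subset_normalClosure ⟨.inr ⟨v, e⟩, rfl⟩)
    let φ : FreeGroup S →* FreeGroup S :=
      FreeGroup.lift fun e => q (s e) * FreeGroup.of e * (q (t e))⁻¹
    have h1 : (QuotientGroup.mk' N).comp φ = QuotientGroup.mk' N :=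
      FreeGroup.ext_hom _ _ fun e => by
        simp only [φ, MonoidHom.comp_apply, FreeGroup.lift_apply_of, map_mul, map_inv, hqN]; simp
    have h2 : (FreeGroup.lift d).comp φ = FreeGroup.lift d :=
      FreeGroup.ext_hom _ _ fun e => by
        simp only [φ, MonoidHom.comp_apply, FreeGroup.lift_apply_of, map_mul, map_inv, hq']; simp
    have h3 : ∀ x, PW s t v₀ (φ x) v₀ := fun x => by
      induction x using FreeGroup.induction_on with
      | C1 => simpa using PW.one _
      | of e => simpa [φ] using ((hq _).mul (PW.of e)).mul (hq _).inv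
      | inv_of e he => simpa using he.inv
      | mul x y hx hy => simpa using hx.mul hy
    obtain ⟨l, hl, e⟩ := h3 x
    have h4 := h.sc l hl (by rw [e, ← hx]; exact DFunLike.congr_fun h2 x)
    have h5 : φ x ∈ N := e ▸ Subgroup.normalClosure_mono (by
      rintro _ ⟨j, rfl⟩; exact ⟨.inl j, rfl⟩) h4
    have h6 := DFunLike.congr_fun h1 x
    rw [MonoidHom.comp_apply, QuotientGroup.mk'_apply, (QuotientGroup.eq_one_iff _).2 h5] at h6
    exact (QuotientGroup.eq_one_iff _).1 h6.symm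
  · obtain ⟨a₀, ha₀⟩ : ∃ a₀ : G → S → ℤ, ∀ g ρ, (g, Sum.inl ρ) ∈ Φ →
        cs (FreeGroup.lift d) a₀ (w ρ) g = if (g, Sum.inl ρ) = j then 1 else 0 := by
      obtain ⟨g₀, ρ₀ | v⟩ := j
      · obtain ⟨a, h1, h2⟩ := h.cob (Φ.preimage (fun f : G × R => (f.1, Sum.inl f.2))
          (fun x _ y _ e => Prod.ext (Prod.mk.inj e).1 (Sum.inl.inj (Prod.mk.inj e).2))) (g₀, ρ₀)
        refine ⟨a, fun g ρ hΦ => ?_⟩
        split_ifs with e
        · obtain ⟨rfl, e2⟩ := Prod.mk.inj e
          obtain rfl := Sum.inl.inj e2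
          exact h1
        · exact h2 (g, ρ) (Finset.mem_preimage.2 hΦ) fun e' => e (by
            obtain ⟨rfl, rfl⟩ := Prod.mk.inj e'; rfl)
      · refine ⟨fun _ _ => 0, fun g ρ _ => ?_⟩
        have := cs_cob (FreeGroup.lift d) (fun _ => (0 : ℤ)) (w ρ) g
        simpa using this
    let u : G × V → ℤ := fun x => if e : x.2 = v₀ then 0 else
      (if (x.1, Sum.inr ⟨x.2, e⟩) = j then 1 else 0) - cs (FreeGroup.lift d) a₀ (q x.2) x.1
    have key : ∀ f ∈ Φ, cs (FreeGroup.lift d)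
        (fun g e => a₀ g e + (u (g * d e, t e) - u (g, s e))) (w' f.2) f.1 =
        if f = j then 1 else 0 := by
      rintro ⟨g, ρ | ⟨v, hv⟩⟩ hf
      · obtain ⟨b, hb⟩ := h.loop ρ
        rw [cs_add, ← ha₀ g ρ hf]
        simp only [w', Sum.elim_inl]
        rw [PW.cob d u hb, h.rel]; simp
      · rw [cs_add]
        simp only [w', Sum.elim_inr]
        rw [PW.cob d u (hq v), hq']; simp [u, hv]
    exact ⟨_, fun hj => by rw [key j hj, if_pos rfl], fun f hf hne => by rw [key f hf, if_neg hne]⟩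

theorem jobTOP (h1 : JobCW) (h2 : JobHOL) (h3 : JobLAB) (h4 : JobLIFT) (h5 : JobCONN)
    (h6 : JobSC) (h7 : JobSURJ) : JobTOP := by
  rintro G _ ⟨X, _, _, _, hemp, ⟨E, _, p, hE, hp, hsurj⟩, x, hx⟩
  obtain ⟨V, S, R, ⟨K⟩⟩ := h1 X hemp
  have hatt : ∀ f a, K.att f a ∈ K.sk1 := fun f a => by
    obtain ⟨A, B, hAB⟩ := K.fin f
    rcases hAB (circ a) (norm_circ a) with ⟨v, -, e⟩ | ⟨e, -, y, e'⟩
    · exact Or.inl ⟨v, e⟩
    · exact Or.inr ⟨e, y, e'⟩
  choose h hh0 hh1 using fun f => h2 X V S R K (K.att f) (hatt f)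
  have hW : K.Wd h := fun f => ⟨hh0 f, hh1 f⟩
  obtain ⟨lb, hlb⟩ := h3 G E X p hp hsurj x hx
  obtain ⟨_, d, K', hs, ht, hrel, hW'⟩ := h4 G E X V S R K h hW p lb hp hlb
  obtain ⟨v₀⟩ : Nonempty V := by
    rcases K.cover x with ⟨v, -⟩ | ⟨e, -⟩ | ⟨f, -⟩
    · exact ⟨v⟩
    · exact ⟨K.s e⟩
    · rcases hatt f 0 with ⟨v, -⟩ | ⟨e, -⟩
      · exact ⟨v⟩
      · exact ⟨K.s e⟩
  have hpr : ∀ x g, FreeGroup.map Prod.snd
      (hol (FreeGroup.lift d) (fun g s => FreeGroup.of (g, s)) x g) = x := fun x g => by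
    rw [map_hol]
    simp only [FreeGroup.map.of]
    rw [hol_const]
    exact DFunLike.congr_fun (FreeGroup.ext_hom (FreeGroup.lift FreeGroup.of) (MonoidHom.id _)
      (by simp)) x
  obtain ⟨R', w', hw'⟩ := jobGP G V S R K.s K.t d (fun f => h f 1) v₀ ⟨(h5 X V S R K h hW).1, hrel,
    fun v g => by
      obtain ⟨l, hl⟩ := (h5 E _ _ _ K' _ hW').2 inferInstance (1, v₀) (g, v)
      obtain ⟨_, ⟨l', a1, rfl⟩, a2⟩ := down d hs ht l hl
      exact ⟨l', a1, by simpa using a2.symm⟩,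
    fun l hl e => by
      obtain ⟨l', a1, a2⟩ := up d hs ht l 1 hl
      rw [e, mul_one] at a1
      have := h6 E _ _ _ K' _ hW' _ l' a1
      have h8 : Subgroup.normalClosure (range fun f : G × R =>
          hol (FreeGroup.lift d) (fun g s => FreeGroup.of (g, s)) (h f.2 1) f.1) ≤
          (Subgroup.normalClosure (range fun f => h f 1)).comap (FreeGroup.map Prod.snd) :=
        Subgroup.normalClosure_le_normal (by
          rintro _ ⟨f, rfl⟩
          exact Subgroup.subset_normalClosure ⟨f.2, (hpr _ _).symm⟩)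
      have h9 := h8 this
      rwa [Subgroup.mem_comap, a2, hpr] at h9,
    fun Φ j => by
      obtain ⟨a, a1, a2⟩ := h7 E _ _ _ K' _ hW' Φ j
      have : ∀ x g, ex a (hol (FreeGroup.lift d) (fun g s => FreeGroup.of (g, s)) x g) =
          cs (FreeGroup.lift d) (fun g s => a (g, s)) x g := fun x g => by
        rw [ex, map_hol]; simp [cs]
      exact ⟨fun g s => a (g, s), by rw [← this]; exact a1,
        fun f hf hne => by rw [← this]; exact a2 f hf hne⟩⟩
  exact ⟨S, R', _, w', hw'⟩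

end Crest.Agent.EG
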