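import Crest.Agent.EG.DefsR

/-! Row 197, job X1: `H₁ = 0` for the cube complex, generation of the Bestvina–Brady group. -/

set_option autoImplicit false

namespace Crest.Agent.EG

namespace X1

open Gr Finsupp

variable {V : Type} (Γ : Gr V)

theorem part1 (z : Γ.A × V →₀ ℤ) (hz : Γ.k1 z = 0) : ∃ y, Γ.k2 y = z := by
  classical
  let π : FreeGroup V →* Γ.A := PresentedGroup.mk Γ.rels
  have hπ : ∀ a, π (FreeGroup.of a) = Γ.gen a := fun _ => rfl
  let K : Subgroup (FreeGroup V) :=
    { carrier := {x | π x = 1 ∧ ∀ g, fx π x g ∈ LinearMap.range Γ.k2}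
      mul_mem' := by
        rintro x y ⟨h1, h2⟩ ⟨h3, h4⟩
        refine ⟨by simp [h1, h3], fun g => ?_⟩
        rw [fx, cs_mul]
        exact add_mem (h2 g) (h4 _)
      one_mem' := ⟨map_one _, fun g => by simp [fx]⟩
      inv_mem' := by
        rintro x ⟨h1, h2⟩
        refine ⟨by simp [h1], fun g => ?_⟩
        rw [fx, cs_inv]
        exact neg_mem (h2 _) }
  have hKn : K.Normal := ⟨by
    rintro x ⟨h1, h2⟩ u
    refine ⟨by simp [h1], fun g => ?_⟩
    rw [fx, cs_conj _ _ _ _ h1]
    exact h2 _⟩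
  have hK : Subgroup.normalClosure Γ.rels ≤ K := by
    refine Subgroup.normalClosure_le_normal ?_
    rintro _ ⟨a, b, h, rfl⟩
    have hc := (Γ.gen_comm h).eq
    refine ⟨by simp [hπ, hc], fun g => ?_⟩
    have e : fx π (FreeGroup.of a * FreeGroup.of b * (FreeGroup.of a)⁻¹ * (FreeGroup.of b)⁻¹) g =
        single (g, a) 1 + single (g * Γ.gen a, b) 1 - single (g * Γ.gen b, a) 1 -
          single (g, b) 1 := by
      simp only [fx, cs_mul, cs_inv, cs_of, map_mul, map_inv, hπ, hc, mul_assoc,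
        mul_inv_cancel, mul_one, sub_eq_add_neg, add_assoc]
    rw [e]
    rcases lt_or_gt_of_ne (Γ.ne a b h) with h1 | h1
    · exact ⟨single (g, ⟨(a, b), h, h1⟩) 1, by simp [k2]⟩
    · refine ⟨-single (g, ⟨(b, a), Γ.symm _ _ h, h1⟩) 1, ?_⟩
      simp only [k2, map_neg, linearCombination_single, one_smul]
      abel
  choose p hp using PresentedGroup.mk_surjective Γ.rels
  have hp' : ∀ g, π (p g) = g := hp
  let T : (Γ.A →₀ ℤ) →ₗ[ℤ] (Γ.A × V →₀ ℤ) := linearCombination ℤ fun g => fx π (p g) 1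
  have key : ∀ z : Γ.A × V →₀ ℤ, z - T (Γ.k1 z) ∈ LinearMap.range Γ.k2 := by
    intro z
    induction z using Finsupp.induction_linear with
    | zero => simp
    | add f g hf hg =>
      rw [map_add, map_add, add_sub_add_comm]
      exact add_mem hf hg
    | single q n =>
      obtain ⟨g, s⟩ := q
      rw [← mul_one n, ← smul_eq_mul, ← smul_single, map_smul, map_smul, ← smul_sub]
      refine Submodule.smul_mem _ _ ?_
      have h1 : p g * FreeGroup.of s * (p (g * Γ.gen s))⁻¹ ∈ Subgroup.normalClosure Γ.rels := by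
        rw [← PresentedGroup.mk_eq_one_iff]
        change π _ = 1
        simp [hp', hπ]
      have h2 := (hK h1).2 1
      convert h2 using 1
      simp only [fx, cs_mul, cs_inv, cs_of, map_mul, hπ, hp', one_mul, mul_inv_cancel, k1, T,
        linearCombination_single, one_smul, map_sub]
      abel
  have := key z
  rw [hz, map_zero, sub_zero] at this
  exact this

theorem part2 (o : V) (hc : ∀ a b, Relation.ReflTransGen Γ.adj a b) :
    Function.Surjective (Γ.pi0 o) := by
  let H : Subgroup Γ.A := Subgroup.closure {x | ∃ a b, x = Γ.gen a * (Γ.gen b)⁻¹}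
  have m0 : ∀ a b, Γ.gen a * (Γ.gen b)⁻¹ ∈ H := fun a b => Subgroup.subset_closure ⟨a, b, rfl⟩
  have m1 : ∀ a b, (Γ.gen a)⁻¹ * Γ.gen b ∈ H := by
    intro a b
    induction hc a b with
    | refl => simp
    | @tail b c _ h ih =>
      have := mul_mem ih (m0 c b)
      rw [← (Γ.gen_comm h).inv_left.eq] at this
      simpa [mul_assoc] using this
  have m2 : ∀ c a b, Γ.gen c * (Γ.gen a * (Γ.gen b)⁻¹) * (Γ.gen c)⁻¹ ∈ H := by
    intro c a b
    induction hc a b with
    | refl => simp
    | @tail b d _ h ih =>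
      have := mul_mem ih (mul_mem (m0 c d) (m0 b c))
      convert this using 1
      simp only [mul_assoc, inv_mul_cancel_left]
      rw [← (Γ.gen_comm h).inv_right.left_comm, inv_mul_cancel_left]
  have c1 : ∀ c, ∀ h ∈ H, Γ.gen c * h * (Γ.gen c)⁻¹ ∈ H := by
    intro c h hh
    induction hh using Subgroup.closure_induction with
    | mem x hx => obtain ⟨a, b, rfl⟩ := hx; exact m2 c a b
    | one => simp
    | mul x y _ _ hx hy => simpa [mul_assoc] using mul_mem hx hy
    | inv x _ hx => simpa [mul_assoc] using inv_mem hx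
  have c2 : ∀ c, ∀ h ∈ H, (Γ.gen c)⁻¹ * h * Γ.gen c ∈ H := by
    intro c h hh
    induction hh using Subgroup.closure_induction with
    | mem x hx => obtain ⟨a, b, rfl⟩ := hx; simpa [mul_assoc] using mul_mem (m1 c a) (m1 b c)
    | one => simp
    | mul x y _ _ hx hy => simpa [mul_assoc] using mul_mem hx hy
    | inv x _ hx => simpa [mul_assoc] using inv_mem hx
  have hn : H.Normal := by
    rw [← Subgroup.normalizer_eq_top_iff, eq_top_iff]
    intro g _
    refine PresentedGroup.generated_by Γ.rels _ (fun c => ?_) g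
    refine Subgroup.mem_normalizer_iff.2 fun h => ⟨c1 c h, fun hh => ?_⟩
    simpa [mul_assoc, Gr.gen] using c2 c _ hh
  have e : QuotientGroup.mk' H =
      (zpowersHom (Γ.A ⧸ H) (QuotientGroup.mk' H (Γ.gen o))).comp Γ.ht := by
    refine PresentedGroup.ext fun a => ?_
    change QuotientGroup.mk' H (Γ.gen a) = zpowersHom _ _ (Γ.ht (Γ.gen a))
    rw [Γ.ht_gen]
    simp only [QuotientGroup.mk'_apply, zpowersHom_apply, toAdd_ofAdd, zpow_one]
    exact QuotientGroup.eq.2 (m1 a o)
  have hle : H ≤ (Γ.pi0 o).range.map Γ.ht.ker.subtype := by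
    refine (Subgroup.closure_le _).2 ?_
    rintro _ ⟨a, b, rfl⟩
    refine ⟨Γ.pi0 o (FreeGroup.of (a, false) * (FreeGroup.of (b, false))⁻¹), ⟨_, rfl⟩, ?_⟩
    simp [pi0_false, mul_assoc]
  intro g
  have hg : (g : Γ.A) ∈ H := by
    rw [← QuotientGroup.eq_one_iff, ← QuotientGroup.mk'_apply, e, MonoidHom.comp_apply,
      MonoidHom.mem_ker.1 g.2, map_one]
  obtain ⟨g', ⟨x, hx⟩, h⟩ := hle hg
  exact ⟨x, hx.trans (Subtype.ext h)⟩

theorem part3 (o : V) (ρ : Γ.Ed ⊕ Bool) : Γ.pi0 o (Γ.r0 o ρ) = 1 := by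
  refine Subtype.ext ?_
  rcases ρ with e | i
  · simp [r0, Gr.sq, pi0_false, pi0_true, mul_assoc, (Γ.gen_comm e.2.1).left_comm]
  · cases i <;> simp [r0, pi0_false, pi0_true]

end X1

theorem jobX1 : JobX1 := fun _ Γ o => ⟨X1.part1 Γ, X1.part2 Γ o, X1.part3 Γ o⟩

end Crest.Agent.EG
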