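import Crest.Agent.EG.DefsR

/-! Row 197 (S0300), job X2: the `G`-cover of the square complex at heights `{0,1,2}` is acyclic. -/

set_option autoImplicit false

namespace Crest.Agent.EG

open Finsupp

namespace X2x

theorem ext1 {α M : Type} [AddCommGroup M] {φ ψ : (α →₀ ℤ) →ₗ[ℤ] M}
    (h : ∀ a, φ (single a 1) = ψ (single a 1)) (y : α →₀ ℤ) : φ y = ψ y := by
  have : φ = ψ := Finsupp.lhom_ext' fun a => LinearMap.ext_ring (h a)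
  rw [this]

theorem int_up (Q : ℤ → Prop) (n : ℕ) (b : ℤ) (h0 : ∀ m : ℤ, m < -n → Q m)
    (step : ∀ m, m ≤ b → Q (m - 1) → Q m) : ∀ m, m ≤ b → Q m := by
  have : ∀ k : ℕ, ∀ m : ℤ, m < -n + k → m ≤ b → Q m := by
    intro k
    induction k with
    | zero => intro m hm _; exact h0 m (by simpa using hm)
    | succ k ih =>
      intro m hm hb
      exact step m hb (ih (m - 1) (by push_cast at hm; omega) (by omega))
  intro m hm
  exact this (m + n + 1).toNat m (by omega) hm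

variable {V : Type} (Γ : Gr V)

/-- height -/
def hh (x : Γ.A) : ℤ := Multiplicative.toAdd (Γ.ht x)

@[simp] theorem hh_mul (x y : Γ.A) : hh Γ (x * y) = hh Γ x + hh Γ y := by simp [hh]
@[simp] theorem hh_inv (x : Γ.A) : hh Γ x⁻¹ = - hh Γ x := by simp [hh]
@[simp] theorem hh_gen (a : V) : hh Γ (Γ.gen a) = 1 := by simp [hh]
@[simp] theorem hh_G (g : Γ.G) : hh Γ (g : Γ.A) = 0 := by
  have : Γ.ht g = 1 := g.2
  simp [hh, this]

section Fib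
variable {T T' T'' : Type}

/-- projection to height `m` -/
noncomputable def P (m : ℤ) : (Γ.A × T →₀ ℤ) →ₗ[ℤ] (Γ.A × T →₀ ℤ) :=
  linearCombination ℤ fun p => if hh Γ p.1 = m then single p 1 else 0

theorem P_single (m : ℤ) (x : Γ.A) (t : T) :
    P Γ m (single (x, t) 1) = if hh Γ x = m then single (x, t) 1 else 0 := by simp [P]

theorem P_apply (m : ℤ) (y : Γ.A × T →₀ ℤ) (p : Γ.A × T) :
    P Γ m y p = if hh Γ p.1 = m then y p else 0 := by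
  classical
  by_cases h : hh Γ p.1 = m
  · rw [if_pos h]
    refine ext1 (φ := lapply p ∘ₗ P Γ m) (ψ := lapply p) (fun a => ?_) y
    obtain ⟨x, t⟩ := a
    simp only [LinearMap.comp_apply, lapply_apply, P_single]
    split_ifs with h'
    · rfl
    · rw [single_eq_of_ne' (by rintro rfl; exact h' h)]; rfl
  · rw [if_neg h]
    refine ext1 (φ := lapply p ∘ₗ P Γ m) (ψ := 0) (fun a => ?_) y
    obtain ⟨x, t⟩ := a
    simp only [LinearMap.comp_apply, lapply_apply, P_single, LinearMap.zero_apply]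
    split_ifs with h'
    · rw [single_eq_of_ne' (by rintro rfl; exact h h')]
    · rfl

theorem P_P (m n : ℤ) (y : Γ.A × T →₀ ℤ) :
    P Γ m (P Γ n y) = if m = n then P Γ n y else 0 := by
  ext p
  split_ifs with h
  · subst h; simp only [P_apply]; split_ifs <;> rfl
  · simp only [P_apply, Finsupp.zero_apply]; split_ifs with h1 h2
    · exact absurd (h1.symm.trans h2) h
    · rfl
    · rfl

theorem eq_zero_of_P {y : Γ.A × T →₀ ℤ} (h : ∀ m, P Γ m y = 0) : y = 0 := by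
  ext p
  have := congrArg (fun z => z p) (h (hh Γ p.1))
  simpa [P_apply] using this

theorem eq_P {y : Γ.A × T →₀ ℤ} {n : ℤ} (h : ∀ m, m ≠ n → P Γ m y = 0) : P Γ n y = y := by
  rw [← sub_eq_zero]
  refine eq_zero_of_P Γ fun m => ?_
  rw [map_sub, P_P]
  split_ifs with hm
  · subst hm; simp
  · simp [h m hm]

theorem P_bdd (y : Γ.A × T →₀ ℤ) : ∃ n : ℕ, ∀ m : ℤ, (m < -n ∨ n < m) → P Γ m y = 0 := by
  obtain ⟨n, hn⟩ := (y.support.image fun p => (hh Γ p.1).natAbs).bddAbove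
  refine ⟨n, fun m hm => ?_⟩
  ext p
  rw [P_apply]
  split_ifs with h
  · by_contra hp
    have := hn (Finset.mem_coe.2 (Finset.mem_image_of_mem _ (mem_support_iff.2 hp)))
    omega
  · rfl

/-- inclusion of a fibre -/
noncomputable def inc (g : Γ.A) : (T →₀ ℤ) →ₗ[ℤ] (Γ.A × T →₀ ℤ) := lmapDomain ℤ ℤ fun t => (g, t)

/-- restriction to a fibre -/
noncomputable def sl (g : Γ.A) : (Γ.A × T →₀ ℤ) →ₗ[ℤ] (T →₀ ℤ) :=
  lcomapDomain (fun t => (g, t)) (fun _ _ h => (Prod.ext_iff.1 h).2)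

@[simp] theorem inc_single (g : Γ.A) (t : T) : inc Γ g (single t 1) = single (g, t) 1 := by
  simp [inc]

theorem sl_apply (g : Γ.A) (y : Γ.A × T →₀ ℤ) (t : T) : sl Γ g y t = y (g, t) := rfl

open Classical in
theorem sl_inc (g g' : Γ.A) (c : T →₀ ℤ) : sl Γ g (inc Γ g' c) = if g = g' then c else 0 := by
  split_ifs with h
  · subst h
    refine ext1 (φ := sl Γ g ∘ₗ inc Γ g) (ψ := LinearMap.id) (fun t => ?_) c
    ext t'
    simp [sl_apply, single_apply]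
  · refine ext1 (φ := sl Γ g ∘ₗ inc Γ g') (ψ := 0) (fun t => ?_) c
    ext t'
    simp [sl_apply, single_apply, Ne.symm h]

theorem P_inc (m : ℤ) (g : Γ.A) (c : T →₀ ℤ) :
    P Γ m (inc Γ g c) = if hh Γ g = m then inc Γ g c else 0 := by
  split_ifs with h
  · exact ext1 (φ := P Γ m ∘ₗ inc Γ g) (ψ := inc Γ g) (fun t => by simp [P_single, h]) c
  · exact ext1 (φ := P Γ m ∘ₗ inc Γ g) (ψ := 0) (fun t => by simp [P_single, h]) c

theorem eq_zero_of_sl {y : Γ.A × T →₀ ℤ} (h : ∀ g, sl Γ g y = 0) : y = 0 := by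
  ext p
  exact congrArg (fun z => z p.2) (h p.1)

/-- fibrewise linear maps -/
noncomputable def fib (l : (T →₀ ℤ) →ₗ[ℤ] (T' →₀ ℤ)) : (Γ.A × T →₀ ℤ) →ₗ[ℤ] (Γ.A × T' →₀ ℤ) :=
  linearCombination ℤ fun p => inc Γ p.1 (l (single p.2 1))

theorem fib_single (l : (T →₀ ℤ) →ₗ[ℤ] (T' →₀ ℤ)) (g : Γ.A) (t : T) :
    fib Γ l (single (g, t) 1) = inc Γ g (l (single t 1)) := by simp [fib]

theorem fib_inc (l : (T →₀ ℤ) →ₗ[ℤ] (T' →₀ ℤ)) (g : Γ.A) (c : T →₀ ℤ) :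
    fib Γ l (inc Γ g c) = inc Γ g (l c) :=
  ext1 (φ := fib Γ l ∘ₗ inc Γ g) (ψ := inc Γ g ∘ₗ l) (fun t => by simp [fib_single]) c

theorem sl_fib (l : (T →₀ ℤ) →ₗ[ℤ] (T' →₀ ℤ)) (g : Γ.A) (y : Γ.A × T →₀ ℤ) :
    sl Γ g (fib Γ l y) = l (sl Γ g y) := by
  classical
  refine ext1 (φ := sl Γ g ∘ₗ fib Γ l) (ψ := l ∘ₗ sl Γ g) (fun p => ?_) y
  obtain ⟨x, t⟩ := p
  simp only [LinearMap.comp_apply]
  rw [fib_single, sl_inc, ← inc_single, sl_inc]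
  split_ifs <;> simp

theorem P_fib (l : (T →₀ ℤ) →ₗ[ℤ] (T' →₀ ℤ)) (m : ℤ) (y : Γ.A × T →₀ ℤ) :
    P Γ m (fib Γ l y) = fib Γ l (P Γ m y) := by
  refine ext1 (φ := P Γ m ∘ₗ fib Γ l) (ψ := fib Γ l ∘ₗ P Γ m) (fun p => ?_) y
  obtain ⟨x, t⟩ := p
  simp only [LinearMap.comp_apply]
  rw [fib_single, P_inc, P_single]
  split_ifs <;> simp [fib_single]

theorem fib_inj {l : (T →₀ ℤ) →ₗ[ℤ] (T' →₀ ℤ)} (hl : ∀ c, l c = 0 → c = 0) {y : Γ.A × T →₀ ℤ}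
    (h : fib Γ l y = 0) : y = 0 :=
  eq_zero_of_sl Γ fun g => hl _ (by rw [← sl_fib, h, map_zero])

theorem fib_ex {l : (T →₀ ℤ) →ₗ[ℤ] (T' →₀ ℤ)} {l' : (T' →₀ ℤ) →ₗ[ℤ] (T'' →₀ ℤ)}
    (hl : ∀ y, l' y = 0 → ∃ c, l c = y) {y : Γ.A × T' →₀ ℤ} (h : fib Γ l' y = 0) :
    ∃ x, fib Γ l x = y := by
  classical
  choose c hc using fun g => hl (sl Γ g y) (by rw [← sl_fib, h, map_zero])
  refine ⟨∑ g ∈ y.support.image Prod.fst, inc Γ g (c g), ?_⟩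
  rw [← sub_eq_zero]
  refine eq_zero_of_sl Γ fun g => ?_
  simp only [map_sub, map_sum, fib_inc, hc, sl_inc]
  rw [Finset.sum_ite_eq]
  split_ifs with hg
  · simp
  · ext t
    simp only [zero_sub, Finsupp.neg_apply, sl_apply, Finsupp.zero_apply, neg_eq_zero]
    by_contra ht
    exact hg (Finset.mem_image.2 ⟨(g, t), mem_support_iff.2 ht, rfl⟩)

/-- right translation of the base point, depending on the cell -/
noncomputable def tp (s : T → Γ.A) : (Γ.A × T →₀ ℤ) →ₗ[ℤ] (Γ.A × T →₀ ℤ) :=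
  lmapDomain ℤ ℤ fun p => (p.1 * s p.2, p.2)

@[simp] theorem tp_single (s : T → Γ.A) (g : Γ.A) (t : T) :
    tp Γ s (single (g, t) 1) = single (g * s t, t) 1 := by simp [tp]

theorem tp_tp (s : T → Γ.A) (y : Γ.A × T →₀ ℤ) : tp Γ (fun t => (s t)⁻¹) (tp Γ s y) = y :=
  ext1 (φ := tp Γ (fun t => (s t)⁻¹) ∘ₗ tp Γ s) (ψ := LinearMap.id) (fun p => by
    obtain ⟨x, t⟩ := p; simp) y

theorem tp_tp' (s : T → Γ.A) (y : Γ.A × T →₀ ℤ) : tp Γ s (tp Γ (fun t => (s t)⁻¹) y) = y :=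
  ext1 (φ := tp Γ s ∘ₗ tp Γ (fun t => (s t)⁻¹)) (ψ := LinearMap.id) (fun p => by
    obtain ⟨x, t⟩ := p; simp) y

theorem tp_inj (s : T → Γ.A) {y y' : Γ.A × T →₀ ℤ} (h : tp Γ s y = tp Γ s y') : y = y' := by
  rw [← tp_tp Γ s y, h, tp_tp]

end Fib

/-- top parts of the boundary maps -/
noncomputable def k3h : (Γ.A × Γ.Tri →₀ ℤ) →ₗ[ℤ] (Γ.A × Γ.Ed →₀ ℤ) :=
  linearCombination ℤ fun p =>
    single (p.1 * Γ.gen p.2.a, p.2.bc) 1 - single (p.1 * Γ.gen p.2.b, p.2.ac) 1 +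
      single (p.1 * Γ.gen p.2.c, p.2.ab) 1

noncomputable def k2h : (Γ.A × Γ.Ed →₀ ℤ) →ₗ[ℤ] (Γ.A × V →₀ ℤ) :=
  linearCombination ℤ fun p =>
    single (p.1 * Γ.gen p.2.1.1, p.2.1.2) 1 - single (p.1 * Γ.gen p.2.1.2, p.2.1.1) 1

theorem k3_eq (x : Γ.A × Γ.Tri →₀ ℤ) : Γ.k3 x = k3h Γ x - fib Γ Γ.l2 x :=
  ext1 (φ := Γ.k3) (ψ := k3h Γ - fib Γ Γ.l2) (fun p => by
    obtain ⟨x, t⟩ := p
    simp only [LinearMap.sub_apply, fib_single, Gr.k3, k3h, Gr.l2, linearCombination_single,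
      one_smul, map_add, map_sub, inc_single]
    abel) x

theorem k2_eq (x : Γ.A × Γ.Ed →₀ ℤ) : Γ.k2 x = k2h Γ x - fib Γ Γ.l1 x :=
  ext1 (φ := Γ.k2) (ψ := k2h Γ - fib Γ Γ.l1) (fun p => by
    obtain ⟨x, t⟩ := p
    simp only [LinearMap.sub_apply, fib_single, Gr.k2, k2h, Gr.l1, linearCombination_single,
      one_smul, map_sub, inc_single]
    abel) x

theorem P_k3h (m : ℤ) (x : Γ.A × Γ.Tri →₀ ℤ) : P Γ m (k3h Γ x) = k3h Γ (P Γ (m - 1) x) :=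
  ext1 (φ := P Γ m ∘ₗ k3h Γ) (ψ := k3h Γ ∘ₗ P Γ (m - 1)) (fun p => by
    obtain ⟨x, t⟩ := p
    simp only [LinearMap.comp_apply, P_single, k3h, linearCombination_single, one_smul, map_add,
      map_sub, hh_mul, hh_gen]
    by_cases h : hh Γ x = m - 1
    · have h' : hh Γ x + 1 = m := by omega
      simp [h', h]
    · have h' : ¬ hh Γ x + 1 = m := by omega
      simp [h', h]) x

theorem P_k2h (m : ℤ) (x : Γ.A × Γ.Ed →₀ ℤ) : P Γ m (k2h Γ x) = k2h Γ (P Γ (m - 1) x) :=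
  ext1 (φ := P Γ m ∘ₗ k2h Γ) (ψ := k2h Γ ∘ₗ P Γ (m - 1)) (fun p => by
    obtain ⟨x, t⟩ := p
    simp only [LinearMap.comp_apply, P_single, k2h, linearCombination_single, one_smul,
      map_sub, hh_mul, hh_gen]
    by_cases h : hh Γ x = m - 1
    · have h' : hh Γ x + 1 = m := by omega
      simp [h', h]
    · have h' : ¬ hh Γ x + 1 = m := by omega
      simp [h', h]) x

/-- top vertices -/
def s3 (τ : Γ.Tri) : Γ.A := Γ.gen τ.a * Γ.gen τ.b * Γ.gen τ.c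
def s2 (e : Γ.Ed) : Γ.A := Γ.gen e.1.1 * Γ.gen e.1.2

theorem tp_k3h (x : Γ.A × Γ.Tri →₀ ℤ) : tp Γ (s2 Γ) (k3h Γ x) = fib Γ Γ.l2 (tp Γ (s3 Γ) x) :=
  ext1 (φ := tp Γ (s2 Γ) ∘ₗ k3h Γ) (ψ := fib Γ Γ.l2 ∘ₗ tp Γ (s3 Γ)) (fun p => by
    obtain ⟨x, t⟩ := p
    have hab : Γ.gen t.a * Γ.gen t.b = Γ.gen t.b * Γ.gen t.a := (Γ.gen_comm t.2.1).eq
    have hbc : Γ.gen t.b * Γ.gen t.c = Γ.gen t.c * Γ.gen t.b := (Γ.gen_comm t.2.2.1).eq
    have hac : Γ.gen t.a * Γ.gen t.c = Γ.gen t.c * Γ.gen t.a := (Γ.gen_comm t.2.2.2.1).eq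
    have e1 : x * Γ.gen t.a * s2 Γ t.bc = x * s3 Γ t := by
      simp only [s2, s3, Gr.Tri.bc, mul_assoc]
    have e2 : x * Γ.gen t.b * s2 Γ t.ac = x * s3 Γ t := by
      simp only [s2, s3, Gr.Tri.ac, hab, mul_assoc]
    have e3 : x * Γ.gen t.c * s2 Γ t.ab = x * s3 Γ t := by
      simp only [s2, s3, Gr.Tri.ab]
      rw [mul_assoc x, ← mul_assoc (Γ.gen t.c), ← hac, mul_assoc (Γ.gen t.a), ← hbc, mul_assoc]
    simp only [LinearMap.comp_apply, k3h, linearCombination_single, one_smul, map_add, map_sub,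
      tp_single, fib_single, Gr.l2, inc_single, e1, e2, e3]) x

theorem tp_k2h (x : Γ.A × Γ.Ed →₀ ℤ) : tp Γ Γ.gen (k2h Γ x) = fib Γ Γ.l1 (tp Γ (s2 Γ) x) :=
  ext1 (φ := tp Γ Γ.gen ∘ₗ k2h Γ) (ψ := fib Γ Γ.l1 ∘ₗ tp Γ (s2 Γ)) (fun p => by
    obtain ⟨x, t⟩ := p
    have hab : Γ.gen t.1.1 * Γ.gen t.1.2 = Γ.gen t.1.2 * Γ.gen t.1.1 := (Γ.gen_comm t.2.1).eq
    have e1 : x * Γ.gen t.1.1 * Γ.gen t.1.2 = x * s2 Γ t := by simp only [s2, mul_assoc]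
    have e2 : x * Γ.gen t.1.2 * Γ.gen t.1.1 = x * s2 Γ t := by simp only [s2, hab, mul_assoc]
    simp only [LinearMap.comp_apply, k2h, linearCombination_single, one_smul, map_sub,
      tp_single, fib_single, Gr.l1, inc_single, e1, e2]) x

variable {Γ}

theorem k3h_inj (hL : Γ.LAc) {x : Γ.A × Γ.Tri →₀ ℤ} (h : k3h Γ x = 0) : x = 0 := by
  have := tp_k3h Γ x
  rw [h, map_zero] at this
  exact tp_inj Γ (s3 Γ) ((fib_inj Γ hL.inj this.symm).trans (map_zero _).symm)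

theorem k3h_ex (hL : Γ.LAc) {y : Γ.A × Γ.Ed →₀ ℤ} (h : k2h Γ y = 0) : ∃ x, k3h Γ x = y := by
  have := tp_k2h Γ y
  rw [h, map_zero] at this
  obtain ⟨x, hx⟩ := fib_ex Γ hL.ex this.symm
  refine ⟨tp Γ (fun t => (s3 Γ t)⁻¹) x, tp_inj Γ (s2 Γ) ?_⟩
  rw [tp_k3h, tp_tp', hx]

theorem x3 (hL : Γ.LAc) (h3 : ∀ y, Γ.k2 y = 0 → ∃ x, Γ.k3 x = y) {y : Γ.A × Γ.Ed →₀ ℤ}
    (hy : Γ.k2 y = 0) (h0 : ∀ m, m ≠ 0 → P Γ m y = 0) : y = 0 := by
  obtain ⟨x, rfl⟩ := h3 y hy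
  obtain ⟨n, hn⟩ := P_bdd Γ x
  have key : ∀ m, m ≠ 0 → k3h Γ (P Γ (m - 1) x) = fib Γ Γ.l2 (P Γ m x) := by
    intro m hm
    have := h0 m hm
    rwa [k3_eq, map_sub, P_k3h, P_fib, sub_eq_zero] at this
  have lo := int_up (fun m => P Γ m x = 0) n (-1) (fun m hm => hn m (Or.inl hm)) fun m hm h => by
    have := key m (by omega)
    rw [h, map_zero] at this
    exact fib_inj Γ hL.inj this.symm
  have hi := int_up (fun m => P Γ (-m) x = 0) n 0 (fun m hm => hn _ (Or.inr (by omega)))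
    fun m hm h => by
      have := key (-(m - 1)) (by omega)
      rw [h, map_zero, show -(m - 1) - 1 = -m by ring] at this
      exact k3h_inj hL this
  have : x = 0 := eq_zero_of_P Γ fun m => by
    rcases le_or_gt m (-1) with hm | hm
    · exact lo m hm
    · simpa using hi (-m) (by omega)
  rw [this, map_zero]

theorem x2 (hL : Γ.LAc) (h23 : ∀ x, Γ.k2 (Γ.k3 x) = 0) {z : Γ.A × V →₀ ℤ}
    (hz : ∀ m, m ≠ 0 → m ≠ 1 → P Γ m z = 0) {y : Γ.A × Γ.Ed →₀ ℤ} (hy : Γ.k2 y = z) :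
    ∃ y, Γ.k2 (P Γ 0 y) = z := by
  obtain ⟨n, hn⟩ := P_bdd Γ y
  have key : ∀ (y : Γ.A × Γ.Ed →₀ ℤ), Γ.k2 y = z → ∀ m, m ≠ 0 → m ≠ 1 →
      k2h Γ (P Γ (m - 1) y) = fib Γ Γ.l1 (P Γ m y) := by
    intro y hy m h0 h1
    have := hz m h0 h1
    rwa [← hy, k2_eq, map_sub, P_k2h, P_fib, sub_eq_zero] at this
  have lo := int_up (fun a => ∃ y, Γ.k2 y = z ∧ ∀ m : ℤ, (m < a ∨ n < m) → P Γ m y = 0) n 0
    (fun a ha => ⟨y, hy, fun m hm => hn m (by omega)⟩) fun a ha ⟨y, hy, h⟩ => by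
      have h1 := key y hy (a - 1) (by omega) (by omega)
      rw [h _ (Or.inl (by omega)), map_zero] at h1
      obtain ⟨x, hx⟩ := fib_ex Γ hL.ex h1.symm
      refine ⟨y + Γ.k3 (P Γ (a - 1) x), by rw [map_add, h23, add_zero, hy], fun m hm => ?_⟩
      rw [map_add, k3_eq, map_sub, P_k3h, P_P, if_neg (by omega), map_zero, ← P_fib, hx, P_P, P_P,
        if_pos rfl]
      split_ifs with hm'
      · subst hm'; simp
      · simp [h m (by omega)]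
  obtain ⟨y, hy, h⟩ := lo 0 le_rfl
  have hi := int_up (fun a => ∃ y, Γ.k2 y = z ∧ ∀ m : ℤ, (m < 0 ∨ -a < m) → P Γ m y = 0) n 0
    (fun a ha => ⟨y, hy, fun m hm => h m (by omega)⟩) fun a ha ⟨y, hy, h⟩ => by
      have h1 := key y hy (-a + 2) (by omega) (by omega)
      rw [h (-a + 2) (Or.inr (by omega)), map_zero, show -a + 2 - 1 = -a + 1 by ring] at h1
      obtain ⟨x, hx⟩ := k3h_ex hL h1
      have hx' : k3h Γ (P Γ (-a) x) = P Γ (-a + 1) y := by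
        have := congrArg (P Γ (-a + 1)) hx
        rwa [P_k3h, P_P, if_pos rfl, add_sub_cancel_right] at this
      refine ⟨y - Γ.k3 (P Γ (-a) x), by rw [map_sub, h23, sub_zero, hy], fun m hm => ?_⟩
      rw [map_sub, k3_eq, map_sub, hx', P_P, P_fib, P_P, if_neg (show ¬ m = -a by omega), map_zero]
      split_ifs with hm'
      · subst hm'; simp
      · simp [h m (by omega)]
  obtain ⟨y, hy, h⟩ := hi 0 le_rfl
  exact ⟨y, by rw [eq_P Γ fun m hm => h m (by omega), hy]⟩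

variable (Γ) (o : V)

/-- projection `A → G` -/
def ε (x : Γ.A) : Γ.G := ⟨x * Γ.gen o ^ (-hh Γ x), by
  rw [MonoidHom.mem_ker, map_mul, map_zpow, Gr.ht_gen, ← ofAdd_zsmul, hh]
  simp⟩

theorem ε_eq {x : Γ.A} {g : Γ.G} (k : ℤ) (h : x = g * Γ.gen o ^ k) : ε Γ o x = g := by
  subst h
  apply Subtype.ext
  have : hh Γ (Γ.gen o ^ k) = k := by simp [hh, ← ofAdd_zsmul]
  simp [ε, this]

/-- transfer of edges -/
def io (p : Γ.G × V × Bool) : Γ.A × V := (if p.2.2 then p.1 * Γ.gen o else p.1, p.2.1)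

theorem io_inj : Function.Injective (io Γ o) := by
  rintro ⟨g, a, i⟩ ⟨g', a', i'⟩ h
  simp only [io, Prod.mk.injEq] at h
  obtain ⟨h1, rfl⟩ := h
  have h2 := congrArg (hh Γ) h1
  cases i <;> cases i' <;> simp at h1 h2 ⊢
  · exact h1
  · exact h1

noncomputable def ι : (Γ.G × V × Bool →₀ ℤ) →ₗ[ℤ] (Γ.A × V →₀ ℤ) := lmapDomain ℤ ℤ (io Γ o)

@[simp] theorem ι_F (g : Γ.G) (a : V) :
    ι Γ o (single (g, a, false) 1) = single ((g : Γ.A), a) 1 := by simp [ι, io]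

@[simp] theorem ι_T (g : Γ.G) (a : V) :
    ι Γ o (single (g, a, true) 1) = single ((g : Γ.A) * Γ.gen o, a) 1 := by simp [ι, io]

theorem ι_inj {z z' : Γ.G × V × Bool →₀ ℤ} (h : ι Γ o z = ι Γ o z') : z = z' :=
  mapDomain_injective (io_inj Γ o) h

theorem P_ι (m : ℤ) (h0 : m ≠ 0) (h1 : m ≠ 1) (z : Γ.G × V × Bool →₀ ℤ) : P Γ m (ι Γ o z) = 0 :=
  ext1 (φ := P Γ m ∘ₗ ι Γ o) (ψ := 0) (fun p => by
    obtain ⟨g, a, i⟩ := p
    cases i <;> simp [P_single, h0.symm, h1.symm]) z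

theorem d2_tree (g : Γ.G) (i : Bool) :
    d2 (Γ.pi0 o) (Γ.r0 o) (single (g, .inr i) 1) = single (g, o, i) 1 := by
  simp [d2, fx, Gr.r0]

theorem d2_sq (g : Γ.G) (e : Γ.Ed) :
    ι Γ o (d2 (Γ.pi0 o) (Γ.r0 o) (single (g, .inl e) 1)) = Γ.k2 (single ((g : Γ.A), e) 1) := by
  have hab : Γ.gen e.1.1 * Γ.gen e.1.2 = Γ.gen e.1.2 * Γ.gen e.1.1 := (Γ.gen_comm e.2.1).eq
  simp only [d2, fx, Gr.r0, Gr.sq, linearCombination_single, one_smul, cs_mul, cs_inv, cs_of,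
    map_add, map_neg, ι_F, ι_T, map_mul, map_inv, Subgroup.coe_mul, Subgroup.coe_inv,
    Gr.pi0_false, Gr.pi0_true, Gr.k2]
  have e1 : (g : Γ.A) * (Γ.gen e.1.1 * (Γ.gen o)⁻¹) * Γ.gen o = g * Γ.gen e.1.1 := by group
  have e2 : (g : Γ.A) * (Γ.gen e.1.1 * (Γ.gen o)⁻¹ *
      (Γ.gen o * Γ.gen e.1.2 * (Γ.gen o)⁻¹ * (Γ.gen o)⁻¹)) *
      (Γ.gen o * Γ.gen e.1.1 * (Γ.gen o)⁻¹ * (Γ.gen o)⁻¹)⁻¹ * Γ.gen o = g * Γ.gen e.1.2 := by
    calc _ = (g : Γ.A) * (Γ.gen e.1.1 * Γ.gen e.1.2) * (Γ.gen e.1.1)⁻¹ := by group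
      _ = _ := by rw [hab]; group
  have e3 : (g : Γ.A) * (Γ.gen e.1.1 * (Γ.gen o)⁻¹ *
      (Γ.gen o * Γ.gen e.1.2 * (Γ.gen o)⁻¹ * (Γ.gen o)⁻¹) *
      (Γ.gen o * Γ.gen e.1.1 * (Γ.gen o)⁻¹ * (Γ.gen o)⁻¹)⁻¹) * (Γ.gen e.1.2 * (Γ.gen o)⁻¹)⁻¹ =
      g := by
    calc _ = (g : Γ.A) * (Γ.gen e.1.1 * Γ.gen e.1.2) * (Γ.gen e.1.1)⁻¹ * (Γ.gen e.1.2)⁻¹ := by
          group
      _ = _ := by rw [hab]; group
  rw [e1, e2, e3]
  abel

theorem k1_single (x : Γ.A) (a : V) :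
    Γ.k1 (single (x, a) 1) = single (x * Γ.gen a) 1 - single x 1 := by simp [Gr.k1]

theorem k1_k2 (y : Γ.A × Γ.Ed →₀ ℤ) : Γ.k1 (Γ.k2 y) = 0 :=
  ext1 (φ := Γ.k1 ∘ₗ Γ.k2) (ψ := 0) (fun p => by
    obtain ⟨x, e⟩ := p
    have hab : Γ.gen e.1.1 * Γ.gen e.1.2 = Γ.gen e.1.2 * Γ.gen e.1.1 := (Γ.gen_comm e.2.1).eq
    simp only [LinearMap.comp_apply, Gr.k2, linearCombination_single, one_smul, map_add, map_sub,
      k1_single, LinearMap.zero_apply, mul_assoc, hab]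
    abel) y

/-- tree chains -/
noncomputable def T : (Γ.A →₀ ℤ) →ₗ[ℤ] (Γ.G × (Γ.Ed ⊕ Bool) →₀ ℤ) :=
  linearCombination ℤ fun x =>
    if hh Γ x = 1 then single (ε Γ o x, .inr false) 1
    else if hh Γ x = 2 then single (ε Γ o x, .inr false) 1 + single (ε Γ o x, .inr true) 1 else 0

theorem T0 (g : Γ.G) : T Γ o (single (g : Γ.A) 1) = 0 := by simp [T]

theorem T1 {x : Γ.A} (g : Γ.G) (h : x = g * Γ.gen o) :
    T Γ o (single x 1) = single (g, .inr false) 1 := by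
  have h1 : ε Γ o x = g := ε_eq Γ o 1 (by simpa using h)
  have h2 : hh Γ x = 1 := by simp [h]
  simp [T, h1, h2]

theorem T2 {x : Γ.A} (g : Γ.G) (h : x = g * Γ.gen o * Γ.gen o) :
    T Γ o (single x 1) = single (g, .inr false) 1 + single (g, .inr true) 1 := by
  have h1 : ε Γ o x = g := ε_eq Γ o 2 (by rw [h, mul_assoc, zpow_two])
  have h2 : hh Γ x = 2 := by simp [h]
  simp [T, h1, h2]

noncomputable def J : (Γ.A × Γ.Ed →₀ ℤ) →ₗ[ℤ] (Γ.G × (Γ.Ed ⊕ Bool) →₀ ℤ) :=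
  lmapDomain ℤ ℤ fun p => (ε Γ o p.1, .inl p.2)

theorem J_single (g : Γ.G) (e : Γ.Ed) : J Γ o (single ((g : Γ.A), e) 1) = single (g, .inl e) 1 := by
  have h1 : ε Γ o g = g := ε_eq Γ o 0 (by simp)
  simp [J, h1]

noncomputable def S : (Γ.G × (Γ.Ed ⊕ Bool) →₀ ℤ) →ₗ[ℤ] (Γ.A × Γ.Ed →₀ ℤ) :=
  linearCombination ℤ fun p => p.2.elim (fun e => single ((p.1 : Γ.A), e) 1) fun _ => 0

theorem S_l (g : Γ.G) (e : Γ.Ed) : S Γ (single (g, .inl e) 1) = single ((g : Γ.A), e) 1 := by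
  simp [S]

theorem S_r (g : Γ.G) (i : Bool) : S Γ (single (g, .inr i) 1) = 0 := by simp [S]

theorem P_S (m : ℤ) (hm : m ≠ 0) (c : Γ.G × (Γ.Ed ⊕ Bool) →₀ ℤ) : P Γ m (S Γ c) = 0 :=
  ext1 (φ := P Γ m ∘ₗ S Γ) (ψ := 0) (fun p => by
    obtain ⟨g, e | i⟩ := p
    · simp [S_l, P_single, hm.symm]
    · simp [S_r]) c

theorem decomp (c : Γ.G × (Γ.Ed ⊕ Bool) →₀ ℤ) :
    J Γ o (S Γ c) + T Γ o (Γ.k1 (ι Γ o (d2 (Γ.pi0 o) (Γ.r0 o) c))) = c :=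
  ext1 (φ := J Γ o ∘ₗ S Γ + T Γ o ∘ₗ Γ.k1 ∘ₗ ι Γ o ∘ₗ d2 (Γ.pi0 o) (Γ.r0 o)) (ψ := LinearMap.id)
    (fun p => by
      obtain ⟨g, e | i⟩ := p
      · simp only [LinearMap.add_apply, LinearMap.comp_apply, S_l, J_single, d2_sq, k1_k2,
          map_zero, add_zero, LinearMap.id_apply]
      · cases i
        · simp only [LinearMap.add_apply, LinearMap.comp_apply, S_r, d2_tree, ι_F, k1_single,
            map_zero, zero_add, map_sub, T0, T1 Γ o g rfl, sub_zero, LinearMap.id_apply]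
        · simp only [LinearMap.add_apply, LinearMap.comp_apply, S_r, d2_tree, ι_T, k1_single,
            map_zero, zero_add, map_sub, T2 Γ o g rfl, T1 Γ o g rfl, LinearMap.id_apply]
          abel) c

theorem d2_J (y : Γ.A × Γ.Ed →₀ ℤ) :
    ι Γ o (d2 (Γ.pi0 o) (Γ.r0 o) (J Γ o (P Γ 0 y))) = Γ.k2 (P Γ 0 y) :=
  ext1 (φ := ι Γ o ∘ₗ d2 (Γ.pi0 o) (Γ.r0 o) ∘ₗ J Γ o ∘ₗ P Γ 0) (ψ := Γ.k2 ∘ₗ P Γ 0) (fun p => by
    obtain ⟨x, e⟩ := p
    simp only [LinearMap.comp_apply, P_single]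
    split_ifs with h
    · have hx : x ∈ Γ.ht.ker := h
      have := J_single Γ o ⟨x, hx⟩ e
      simp only at this
      rw [this, d2_sq]
    · simp) y

theorem k1_T (z : Γ.G × V × Bool →₀ ℤ) :
    Γ.k1 (ι Γ o (d2 (Γ.pi0 o) (Γ.r0 o) (T Γ o (Γ.k1 (ι Γ o z))))) =
      Γ.k1 (ι Γ o z) - lmapDomain ℤ ℤ (fun g : Γ.G => (g : Γ.A)) (d1 (Γ.pi0 o) z) :=
  ext1 (φ := Γ.k1 ∘ₗ ι Γ o ∘ₗ d2 (Γ.pi0 o) (Γ.r0 o) ∘ₗ T Γ o ∘ₗ Γ.k1 ∘ₗ ι Γ o)
    (ψ := Γ.k1 ∘ₗ ι Γ o - lmapDomain ℤ ℤ (fun g : Γ.G => (g : Γ.A)) ∘ₗ d1 (Γ.pi0 o)) (fun p => by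
      obtain ⟨g, a, i⟩ := p
      cases i
      · have e1 : (g : Γ.A) * Γ.gen a =
            (g * Γ.pi0 o (FreeGroup.of (a, false)) : Γ.G) * Γ.gen o := by
          rw [Subgroup.coe_mul, Gr.pi0_false]; group
        simp only [LinearMap.comp_apply, LinearMap.sub_apply, ι_F, k1_single, map_sub, T0,
          T1 Γ o _ e1, d2_tree, map_zero, d1, linearCombination_single, one_smul,
          lmapDomain_apply, mapDomain_single, ← e1]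
        abel
      · have e1 : (g : Γ.A) * Γ.gen o * Γ.gen a =
            (g * Γ.pi0 o (FreeGroup.of (a, true)) : Γ.G) * Γ.gen o * Γ.gen o := by
          rw [Subgroup.coe_mul, Gr.pi0_true]; group
        simp only [LinearMap.comp_apply, LinearMap.sub_apply, ι_F, ι_T, k1_single, map_sub,
          map_add, T1 Γ o g rfl, T2 Γ o _ e1, d2_tree, d1, linearCombination_single, one_smul,
          lmapDomain_apply, mapDomain_single, ← e1]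
        abel) z

end X2x

open X2x in
theorem jobX2 : JobX2 := by
  intro V Γ o hL h23 h3 h2 hsurj hrel
  refine ⟨hsurj, hrel, fun z hz => ?_, fun c hc => ?_⟩
  · have h1 : Γ.k1 (ι Γ o (z - d2 (Γ.pi0 o) (Γ.r0 o) (T Γ o (Γ.k1 (ι Γ o z))))) = 0 := by
      rw [map_sub, map_sub, k1_T, hz, map_zero, sub_zero, sub_self]
    obtain ⟨y, hy⟩ := h2 _ h1
    obtain ⟨y', hy'⟩ := x2 hL h23 (fun m h0 h1 => P_ι Γ o m h0 h1 _) hy
    rw [← d2_J Γ o] at hy'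
    refine ⟨J Γ o (P Γ 0 y') + T Γ o (Γ.k1 (ι Γ o z)), ?_⟩
    rw [map_add, ι_inj Γ o hy', sub_add_cancel]
  · have h1 := decomp Γ o c
    rw [hc, map_zero, map_zero, map_zero, add_zero] at h1
    have h4 : P Γ 0 (S Γ c) = S Γ c := eq_P Γ fun m hm => P_S Γ m hm c
    have h5 := d2_J Γ o (S Γ c)
    rw [h4, h1, hc, map_zero] at h5
    rw [← h1, x3 hL h3 h5.symm fun m hm => P_S Γ m hm c, map_zero]

end Crest.Agent.EG
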